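import Mathlib.Analysis.InnerProductSpace.Dual
import Mathlib.Analysis.LocallyConvex.Separation
import Mathlib.Analysis.Convex.Basic
import Mathlib.MeasureTheory.Measure.Lebesgue.Basic
import Mathlib.MeasureTheory.Measure.Regular
import Mathlib.Topology.MetricSpace.HausdorffDistance

/-!
Bang's plank theorem for convex bodies, and its form for planks with measurable bases.
-/

namespace Vale.Agent.P243

open Set MeasureTheory
open scoped RealInnerProductSpace Pointwise

variable {F : Type} [NormedAddCommGroup F] [InnerProductSpace ℝ F] [CompleteSpace F]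

/-- In every direction there is a chord at least as long as the minimal width. -/
lemma exists_chord {K : Set F} (hK : IsCompact K) (hc : Convex ℝ K) (hK0 : K.Nonempty) {w : ℝ}
    (hw : ∀ e : F, ‖e‖ = 1 → ∃ x ∈ K, ∃ y ∈ K, w ≤ ⟪x, e⟫ - ⟪y, e⟫)
    (v : F) (hv : 2 * ‖v‖ < w) :
    ∃ p ∈ K, p + (2:ℝ) • v ∈ K := by
  by_contra hno
  push Not at hno
  have hdisj : Disjoint K ((fun x => x + (2:ℝ) • v) '' K) := by
    rw [Set.disjoint_left]
    rintro x hx ⟨p, hp, rfl⟩
    exact hno p hp hx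
  have hc' : Convex ℝ ((fun x => x + (2:ℝ) • v) '' K) := by
    simpa [add_comm] using hc.translate ((2:ℝ) • v)
  obtain ⟨f, u, u', hfu, huu, hfu'⟩ := geometric_hahn_banach_compact_closed hc hK hc'
    (hK.image (by fun_prop)).isClosed hdisj
  set h := (InnerProductSpace.toDual ℝ F).symm f
  have hf : ∀ x, f x = ⟪h, x⟫ := fun x => (InnerProductSpace.toDual_symm_apply).symm
  have hgap : ∀ x ∈ K, ∀ y ∈ K, ⟪h, x⟫ - ⟪h, y⟫ < ⟪h, (2:ℝ) • v⟫ := by
    intro x hx y hy
    have h1 := hfu x hx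
    have h2 := hfu' _ ⟨y, hy, rfl⟩
    rw [hf] at h1 h2
    rw [inner_add_right] at h2
    linarith
  obtain ⟨x0, hx0⟩ := hK0
  have hne : h ≠ 0 := by
    intro h0
    have := hgap x0 hx0 x0 hx0
    simp [h0] at this
  have hpos : 0 < ‖h‖ := norm_pos_iff.2 hne
  obtain ⟨x, hx, y, hy, hxy⟩ := hw (‖h‖⁻¹ • h) (by simp [norm_smul, hpos.ne'])
  rw [inner_smul_right, inner_smul_right, real_inner_comm h x, real_inner_comm h y,
    ← mul_sub, inv_mul_eq_div, le_div_iff₀ hpos] at hxy
  have h1 := hgap x hx y hy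
  have h2 : ⟪h, (2:ℝ) • v⟫ ≤ ‖h‖ * (2 * ‖v‖) := by
    refine (real_inner_le_norm _ _).trans (le_of_eq ?_)
    rw [norm_smul]; norm_num
  nlinarith

omit [CompleteSpace F] in
lemma translate_combination {K : Set F} (hc : Convex ℝ K) {p : F} {v : F}
    (hp : p ∈ K) (hq : p + (2:ℝ) • v ∈ K) {k : F} (hk : k ∈ K) {t : ℝ} (ht : 0 ≤ t)
    (ht1 : t ≤ 1) :
    (1 - t) • k + t • p ∈ K ∧ (1 - t) • k + t • p + (2 * t) • v ∈ K := by
  refine ⟨hc hk hp (by linarith) ht (by ring), ?_⟩
  have := hc hk hq (show (0:ℝ) ≤ 1 - t by linarith) ht (by ring)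
  convert this using 1
  rw [smul_add, smul_smul, mul_comm t 2]
  abel

/-- Bang's shifting lemma: if the total length of the shifts is below the width, some point of
`K` stays in `K` under all signed sums of shifts. -/
lemma exists_shift {K : Set F} (hK : IsCompact K) (hc : Convex ℝ K) (hK0 : K.Nonempty) {w : ℝ}
    (hw : ∀ e : F, ‖e‖ = 1 → ∃ x ∈ K, ∃ y ∈ K, w ≤ ⟪x, e⟫ - ⟪y, e⟫)
    {ι : Type} (v : ι → F) (s : Finset ι) (hs : 2 * ∑ i ∈ s, ‖v i‖ < w) :
    ∃ c : F, ∀ ε : ι → ℝ, (∀ i, ε i = 1 ∨ ε i = -1) → ∀ k ∈ K,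
      (1 - (2 * ∑ i ∈ s, ‖v i‖) / w) • k + c + ∑ i ∈ s, ε i • v i ∈ K := by
  classical
  induction s using Finset.induction_on with
  | empty => exact ⟨0, fun ε _ k hk => by simpa using hk⟩
  | insert i s hi ih =>
    rw [Finset.sum_insert hi] at hs
    have hn : 0 ≤ ∑ j ∈ s, ‖v j‖ := Finset.sum_nonneg fun _ _ => norm_nonneg _
    have hvi := norm_nonneg (v i)
    obtain ⟨c, hcK⟩ := ih (by linarith)
    have hw0 : 0 < w := by linarith
    set r := 1 - (2 * ∑ j ∈ s, ‖v j‖) / w with hr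
    have hr0 : 0 < r := by
      rw [hr, sub_pos, div_lt_one hw0]; linarith
    have hr1 : 2 * ‖r⁻¹ • v i‖ < w := by
      rw [norm_smul, norm_inv, Real.norm_of_nonneg hr0.le]
      have h1 : 2 * ‖v i‖ < r * w := by
        rw [hr, sub_mul, one_mul, div_mul_cancel₀ _ hw0.ne']; linarith
      rw [show 2 * (r⁻¹ * ‖v i‖) = (2 * ‖v i‖) / r by ring, div_lt_iff₀ hr0]
      linarith
    by_cases hv0 : v i = 0
    · refine ⟨c, fun ε hε k hk => ?_⟩
      have := hcK ε hε k hk
      simpa [Finset.sum_insert hi, hv0, hr] using this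
    -- a chord of length `w` in direction `v i`
    set d := (2 * ‖v i‖) / (r * w) with hd
    have hd0 : 0 < d := by
      have : 0 < ‖v i‖ := norm_pos_iff.2 hv0
      positivity
    have hd1 : d < 1 := by
      rw [hd, div_lt_one (by positivity), hr, sub_mul, one_mul, div_mul_cancel₀ _ hw0.ne']
      linarith
    -- a chord `p, p + 2 z` with `d • z = r⁻¹ • v i`
    obtain ⟨p, hp, hq⟩ : ∃ p ∈ K, p + (2:ℝ) • (d⁻¹ • r⁻¹ • v i) ∈ K := by
      set z := d⁻¹ • r⁻¹ • v i with hz
      have hzw : 2 * ‖z‖ = w := by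
        rw [hz, norm_smul, norm_smul, norm_inv, norm_inv, Real.norm_of_nonneg hd0.le,
          Real.norm_of_nonneg hr0.le, hd]
        have : 0 < ‖v i‖ := norm_pos_iff.2 hv0
        field_simp
      have hclosed : IsClosed {l : ℝ | ∃ p ∈ K, p + (2:ℝ) • (l • z) ∈ K} := by
        have hcl : IsClosed {q : ℝ × F | q.2 + (2:ℝ) • (q.1 • z) ∈ K} :=
          hK.isClosed.preimage (by fun_prop)
        have := isCompact_iff_compactSpace.1 hK
        have h2 : IsClosed {q : ℝ × K | (q.2 : F) + (2:ℝ) • (q.1 • z) ∈ K} :=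
          hK.isClosed.preimage (by fun_prop)
        have h3 := isClosedMap_fst_of_compactSpace _ h2
        convert h3 using 1
        ext l
        constructor
        · rintro ⟨p, hp, hq⟩; exact ⟨(l, ⟨p, hp⟩), hq, rfl⟩
        · rintro ⟨⟨l', p⟩, hq, rfl⟩; exact ⟨p, p.2, hq⟩
      have hsub : Ioo (0:ℝ) 1 ⊆ {l : ℝ | ∃ p ∈ K, p + (2:ℝ) • (l • z) ∈ K} := fun l hl => by
        refine exists_chord hK hc hK0 hw (l • z) ?_
        rw [norm_smul, Real.norm_of_nonneg hl.1.le]
        nlinarith [hl.2, hl.1, norm_nonneg z]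
      have := hclosed.closure_subset_iff.2 hsub
      have h1 : (1:ℝ) ∈ {l : ℝ | ∃ p ∈ K, p + (2:ℝ) • (l • z) ∈ K} :=
        this (by rw [closure_Ioo (by norm_num)]; exact right_mem_Icc.2 (by norm_num))
      simpa using h1
    refine ⟨(r * d) • p + v i + c, fun ε hε k hk => ?_⟩
    have hcomb := translate_combination hc hp hq hk hd0.le hd1.le
    have hlt : 1 - (2 * (‖v i‖ + ∑ j ∈ s, ‖v j‖)) / w = r * (1 - d) := by
      rw [hr, hd]
      have : r ≠ 0 := hr0.ne'
      field_simp
      rw [hr]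
      field_simp
      ring
    rw [Finset.sum_insert hi, hlt]
    rcases hε i with h | h
    · have := hcK ε hε _ hcomb.2
      convert this using 1
      rw [Finset.sum_insert hi, h]
      simp only [smul_add, smul_smul, one_smul]
      rw [show r * (2 * d * (d⁻¹ * r⁻¹)) = 1 + 1 by field_simp; ring, add_smul, one_smul]
      module
    · have := hcK ε hε _ hcomb.1
      convert this using 1
      rw [Finset.sum_insert hi, h]
      simp only [smul_add, smul_smul, neg_one_smul]
      module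

/-- Bang's plank theorem. -/
lemma bang {K : Set F} (hK : IsCompact K) (hc : Convex ℝ K) (hne : K.Nonempty) {w : ℝ}
    (hw : ∀ e : F, ‖e‖ = 1 → ∃ x ∈ K, ∃ y ∈ K, w ≤ ⟪x, e⟫ - ⟪y, e⟫)
    {ι : Type} [Fintype ι] (e : ι → F) (he : ∀ i, ‖e i‖ = 1) (m a : ι → ℝ)
    (ha : ∀ i, 0 ≤ a i) (hcov : ∀ y ∈ K, ∃ i, |⟪y, e i⟫ - m i| ≤ a i) :
    w ≤ 2 * ∑ i, a i := by
  classical
  by_contra hlt
  push Not at hlt
  set δ := (w - 2 * ∑ i, a i) / (2 * (Fintype.card ι + 1)) with hδ
  have hδ0 : 0 < δ := by positivity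
  let b : ι → ℝ := fun i => a i + δ / 2
  have hb : ∀ i, 0 ≤ b i := fun i => by have := ha i; simp only [b]; positivity
  have hsum : 2 * ∑ i, ‖b i • e i‖ < w := by
    simp only [norm_smul, he, mul_one, Real.norm_of_nonneg (hb _)]
    simp only [b, Finset.sum_add_distrib, Finset.sum_const, Finset.card_univ, nsmul_eq_mul]
    have : δ * (2 * (Fintype.card ι + 1)) = w - 2 * ∑ i, a i := by
      rw [hδ]; field_simp
    have : (0:ℝ) ≤ Fintype.card ι := Nat.cast_nonneg _
    nlinarith
  obtain ⟨c, hcK⟩ := exists_shift hK hc hne hw (fun i => b i • e i) Finset.univ hsum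
  obtain ⟨k, hk⟩ := hne
  set o := (1 - (2 * ∑ i, ‖b i • e i‖) / w) • k + c
  let Y : (ι → Bool) → F := fun ε => o + ∑ i, (if ε i then (1:ℝ) else -1) • (b i • e i)
  let G : (ι → Bool) → ℝ := fun ε =>
    ‖Y ε‖ ^ 2 - 2 * ∑ i, (if ε i then (1:ℝ) else -1) * (b i * m i)
  obtain ⟨ε, -, hmax⟩ := Finset.univ.exists_max_image G Finset.univ_nonempty
  obtain ⟨i, hi⟩ := hcov (Y ε) (hcK _ (fun i => by cases ε i <;> simp) k hk)
  set ε' := Function.update ε i (!ε i) with hε'
  have hG := hmax ε' (Finset.mem_univ _)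
  set σ : ℝ := if ε i then 1 else -1 with hσ
  have hs : ∀ j, (if ε' j then (1:ℝ) else -1) =
      (if ε j then (1:ℝ) else -1) + (if j = i then -2 * σ else 0) := by
    intro j
    by_cases hj : j = i
    · subst hj
      cases h : ε j <;> simp [hε', hσ, h] <;> norm_num
    · simp [hε', hj]
  have hS1 : ∑ j, (if ε' j then (1:ℝ) else -1) • (b j • e j) =
      (∑ j, (if ε j then (1:ℝ) else -1) • (b j • e j)) + (-2 * σ * b i) • e i := by
    rw [Finset.sum_congr rfl (fun j _ => by rw [hs j, add_smul]), Finset.sum_add_distrib]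
    refine congrArg₂ (· + ·) rfl ?_
    simp [ite_smul, smul_smul]
  have hS2 : ∑ j, (if ε' j then (1:ℝ) else -1) * (b j * m j) =
      (∑ j, (if ε j then (1:ℝ) else -1) * (b j * m j)) + (-2 * σ) * (b i * m i) := by
    rw [Finset.sum_congr rfl (fun j _ => by rw [hs j, add_mul]), Finset.sum_add_distrib]
    refine congrArg₂ (· + ·) rfl ?_
    simp [ite_mul]
  have hY : Y ε' = Y ε + (-2 * σ * b i) • e i := by
    simp only [Y, hS1]
    abel
  have hσ2 : σ * σ = 1 := by rw [hσ]; cases ε i <;> norm_num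
  have hkey : G ε' = G ε - 4 * σ * b i * (⟪Y ε, e i⟫ - m i) + 4 * b i ^ 2 := by
    simp only [G, hS2, hY]
    rw [norm_add_sq_real, norm_smul, he, inner_smul_right]
    simp only [Real.norm_eq_abs, mul_pow, sq_abs]
    linear_combination 4 * b i ^ 2 * hσ2
  have hbi : 0 < b i := by have := ha i; simp only [b]; positivity
  have hbig : b i ≤ σ * (⟪Y ε, e i⟫ - m i) := by nlinarith
  have : b i ≤ |⟪Y ε, e i⟫ - m i| := by
    refine hbig.trans ?_
    have h1 : |σ| = 1 := by rw [hσ]; cases ε i <;> norm_num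
    calc σ * (⟪Y ε, e i⟫ - m i) ≤ |σ * (⟪Y ε, e i⟫ - m i)| := le_abs_self _
      _ = _ := by rw [abs_mul, h1, one_mul]
  simp only [b] at this
  linarith

/-- Bang's plank theorem for planks over arbitrary bases. -/
lemma bang_sets {K : Set F} (hK : IsCompact K) (hc : Convex ℝ K) (hne : K.Nonempty) {w : ℝ}
    (hw : ∀ e : F, ‖e‖ = 1 → ∃ x ∈ K, ∃ y ∈ K, w ≤ ⟪x, e⟫ - ⟪y, e⟫)
    {ι : Type} [Fintype ι] (e : ι → F) (he : ∀ i, ‖e i‖ = 1) (S : ι → Set ℝ)
    (hcov : ∀ y ∈ K, ∃ i, ⟪y, e i⟫ ∈ S i) :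
    ENNReal.ofReal w ≤ ∑ i, volume (S i) := by
  classical
  refine ENNReal.le_of_forall_pos_le_add fun ε hε hfin => ?_
  have hfinS : ∀ i, volume (S i) ≠ ⊤ := fun i =>
    ne_top_of_le_ne_top hfin.ne (Finset.single_le_sum (f := fun j => volume (S j)) (fun j _ => zero_le) (Finset.mem_univ i))
  set δ : ENNReal := (ε : ENNReal) / (Fintype.card ι + 1)
  have hδ : δ ≠ 0 := by simp [δ, hε.ne']
  have hU := fun i => (S i).exists_isOpen_lt_add (hfinS i) hδ
  choose U hSU hUo hUlt using hU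
  have hUne : ∀ i, (U i)ᶜ.Nonempty := by
    intro i
    rw [Set.nonempty_compl]
    intro h
    have := hUlt i
    rw [h, Real.volume_univ] at this
    exact not_top_lt this
  let g : F → ℝ := fun y => ∑ i, Metric.infDist ⟪y, e i⟫ (U i)ᶜ
  have hg : ∀ y ∈ K, 0 < g y := by
    intro y hy
    obtain ⟨i, hi⟩ := hcov y hy
    refine Finset.sum_pos' (fun j _ => Metric.infDist_nonneg) ⟨i, Finset.mem_univ i, ?_⟩
    rw [← (hUo i).isClosed_compl.notMem_iff_infDist_pos (hUne i)]
    exact fun h => h (hSU i hi)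
  have hgc : Continuous g := continuous_finsetSum _ fun i _ =>
    (Metric.continuous_infDist_pt _).comp (by fun_prop)
  obtain ⟨y₀, hy₀, hmin⟩ := hK.exists_isMinOn hne hgc.continuousOn
  obtain ⟨R, hR⟩ := hK.isBounded.exists_norm_le
  set h := g y₀ / (Fintype.card ι + 1) / 2 with hh
  have hh0 : 0 < h := by have := hg y₀ hy₀; positivity
  set n : ℕ := ⌈R / h⌉₊ + 1
  let J : ι → Finset ℤ := fun i => (Finset.Icc (-(n:ℤ)) n).filter
    fun j => Ico (j * h) ((j + 1) * h) ⊆ U i
  have hlen : ∀ i, ENNReal.ofReal ((J i).card * h) ≤ volume (U i) := by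
    intro i
    have hd : Set.PairwiseDisjoint ↑(J i) fun j : ℤ => Ico (j * h) ((j + 1) * h) := by
      intro a _ b _ hab
      rw [Function.onFun, Set.disjoint_left]
      rintro s ⟨h1, h2⟩ ⟨h3, h4⟩
      apply hab
      have e1 : (a:ℝ) < b + 1 := lt_of_mul_lt_mul_right (h1.trans_lt h4) hh0.le
      have e2 : (b:ℝ) < a + 1 := lt_of_mul_lt_mul_right (h3.trans_lt h2) hh0.le
      have : a < b + 1 := by exact_mod_cast e1
      have : b < a + 1 := by exact_mod_cast e2
      omega
    calc ENNReal.ofReal ((J i).card * h)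
        = ∑ j ∈ J i, volume (Ico ((j:ℝ) * h) ((j + 1) * h)) := by
          have : ∀ j : ℤ, ((j:ℝ) + 1) * h - j * h = h := fun j => by ring
          simp only [Real.volume_Ico, this, Finset.sum_const, nsmul_eq_mul]
          rw [ENNReal.ofReal_mul (Nat.cast_nonneg _), ENNReal.ofReal_natCast]
      _ = volume (⋃ j ∈ J i, Ico ((j:ℝ) * h) ((j + 1) * h)) :=
          (measure_biUnion_finset hd fun j _ => measurableSet_Ico).symm
      _ ≤ volume (U i) := measure_mono (iUnion₂_subset fun j hj => (Finset.mem_filter.1 hj).2)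
  have key : w ≤ 2 * ∑ p : (i : ι) × J i, h / 2 := by
    refine bang hK hc hne hw (fun p : (i : ι) × J i => e p.1) (fun p => he p.1)
      (fun p => ((p.2.1 : ℝ) + 1 / 2) * h) (fun _ => h / 2) (fun _ => by positivity) ?_
    intro y hy
    have hgy : g y₀ ≤ g y := hmin hy
    obtain ⟨i, hi⟩ : ∃ i, 2 * h ≤ Metric.infDist ⟪y, e i⟫ (U i)ᶜ := by
      by_contra hall
      push Not at hall
      have hle : g y ≤ Fintype.card ι * (2 * h) := by
        calc g y ≤ ∑ _i : ι, 2 * h := Finset.sum_le_sum fun i _ => (hall i).le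
          _ = _ := by simp
      have : (Fintype.card ι + 1) * (2 * h) = g y₀ := by rw [hh]; field_simp
      linarith
    set s := ⟪y, e i⟫
    set j := ⌊s / h⌋
    have hj1 : (j:ℝ) * h ≤ s := (le_div_iff₀ hh0).1 (Int.floor_le _)
    have hj2 : s < ((j:ℝ) + 1) * h := (div_lt_iff₀ hh0).1 (Int.lt_floor_add_one _)
    have hjJ : j ∈ J i := by
      refine Finset.mem_filter.2 ⟨?_, fun t ht => ?_⟩
      · have hs : |s| ≤ R := by
          refine (abs_real_inner_le_norm _ _).trans ?_
          rw [he, mul_one]; exact hR y hy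
        have hn : R / h + 1 ≤ n := by
          simp only [n, Nat.cast_add, Nat.cast_one]
          linarith [Nat.le_ceil (R / h)]
        have hs' := abs_le.1 hs
        have hn' : R + h ≤ n * h := by
          have := mul_le_mul_of_nonneg_right hn hh0.le
          rw [add_mul, div_mul_cancel₀ _ hh0.ne', one_mul] at this
          exact this
        have e1 : (j:ℝ) < n := lt_of_mul_lt_mul_right (by linarith) hh0.le
        have e2 : -(n:ℝ) < j + 1 := lt_of_mul_lt_mul_right
          (show -(n:ℝ) * h < ((j:ℝ) + 1) * h by linarith) hh0.le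
        have e1' : j < n := by exact_mod_cast e1
        have e2' : -(n:ℤ) < j + 1 := by exact_mod_cast e2
        rw [Finset.mem_Icc]; omega
      · by_contra htU
        have h1 := Metric.infDist_le_dist_of_mem (x := s) (mem_compl htU)
        have h2 : dist s t ≤ h := by
          rw [Real.dist_eq, abs_le]; exact ⟨by linarith [ht.2], by linarith [ht.1]⟩
        linarith
    refine ⟨⟨i, j, hjJ⟩, abs_le.2 ⟨?_, ?_⟩⟩ <;> dsimp only <;> linarith
  have key' : w ≤ ∑ i, ((J i).card : ℝ) * h := by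
    refine key.trans (le_of_eq ?_)
    rw [Fintype.sum_sigma, Finset.mul_sum]
    refine Finset.sum_congr rfl fun i _ => ?_
    simp only [Finset.sum_const, Finset.card_univ, Fintype.card_coe, nsmul_eq_mul]
    ring
  calc ENNReal.ofReal w ≤ ∑ i, ENNReal.ofReal ((J i).card * h) := by
        rw [← ENNReal.ofReal_sum_of_nonneg fun i _ => by positivity]
        exact ENNReal.ofReal_le_ofReal key'
    _ ≤ ∑ i, (volume (S i) + δ) :=
        Finset.sum_le_sum fun i _ => (hlen i).trans (hUlt i).le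
    _ ≤ ∑ i, volume (S i) + ε := by
        rw [Finset.sum_add_distrib]
        gcongr
        rw [Finset.sum_const, Finset.card_univ, nsmul_eq_mul]
        calc (Fintype.card ι : ENNReal) * δ ≤ (Fintype.card ι + 1) * δ := by
              gcongr; exact le_self_add
          _ = ε := ENNReal.mul_div_cancel (by simp) (by simp)

end Vale.Agent.P243
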