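import Vale.Agent.P243.Frame
import Vale.Agent.P243.Bang
import Mathlib.Analysis.Convex.Slope
import Mathlib.MeasureTheory.Integral.IntervalIntegral.Basic
import Mathlib.Analysis.SpecialFunctions.Integrals.Basic

/-!
Coverings by cylinders whose axes are parallel to a common plane.
-/

namespace Vale.Agent.P243

open MeasureTheory Module
open scoped RealInnerProductSpace

lemma concave_bound {f : ℝ → ℝ} {a b : ℝ} (hf : ConcaveOn ℝ (Set.Icc a b) f)
    (h0 : ∀ s ∈ Set.Icc a b, 0 ≤ f s) {t : ℝ} (ht : t ∈ Set.Ioo a b) :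
    ∃ g : ℝ, g ≤ f t / (t - a) ∧ -(f t / (b - t)) ≤ g ∧
      ∀ s ∈ Set.Icc a b, f s ≤ f t + g * (s - t) := by
  have ha : a ∈ Set.Icc a b := Set.left_mem_Icc.2 (ht.1.trans ht.2).le
  have hb : b ∈ Set.Icc a b := Set.right_mem_Icc.2 (ht.1.trans ht.2).le
  have htm : t ∈ Set.Icc a b := Set.Ioo_subset_Icc_self ht
  set R := (fun s => (f s - f t) / (s - t)) '' Set.Ioc t b with hR
  have hleft : ∀ s ∈ Set.Ico a t, ∀ r ∈ R, r ≤ (f t - f s) / (t - s) := by
    rintro s hs _ ⟨s', hs', rfl⟩
    exact hf.slope_anti_adjacent ⟨hs.1, hs.2.le.trans ht.2.le⟩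
      ⟨ht.1.le.trans hs'.1.le, hs'.2⟩ hs.2 hs'.1
  have hRne : R.Nonempty := ⟨_, b, ⟨ht.2, le_rfl⟩, rfl⟩
  have hbdd : BddAbove R := ⟨_, hleft a ⟨le_rfl, ht.1⟩⟩
  refine ⟨sSup R, ?_, ?_, fun s hs => ?_⟩
  · refine (csSup_le hRne (hleft a ⟨le_rfl, ht.1⟩)).trans ?_
    exact div_le_div_of_nonneg_right (by linarith [h0 a ha]) (by linarith [ht.1])
  · refine le_trans ?_ (le_csSup hbdd ⟨b, ⟨ht.2, le_rfl⟩, rfl⟩)
    rw [← neg_div]
    exact div_le_div_of_nonneg_right (by linarith [h0 b hb]) (by linarith [ht.2])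
  · rcases lt_trichotomy s t with h | rfl | h
    · have h1 := csSup_le hRne (hleft s ⟨hs.1, h⟩)
      rw [le_div_iff₀ (by linarith)] at h1
      linarith
    · simp
    · have h1 : (f s - f t) / (s - t) ≤ sSup R := le_csSup hbdd ⟨s, ⟨h, hs.2⟩, rfl⟩
      rw [div_le_iff₀ (by linarith)] at h1
      linarith

variable {K : Set Space} {n : Space}

/-- Every slice is at least as wide as the tent with integral half the smallest shadow. -/
lemma slice_width_ge (hK : IsCompact K) (hc : Convex ℝ K) {a b : ℝ} (hab' : a < b)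
    (hab : (fun x => ⟪x, n⟫) '' K = Set.Icc a b) (hn : ‖n‖ = 1) {e : Space} (he : ‖e‖ = 1)
    (hne : ⟪n, e⟫ = 0) {t : ℝ} (ht : t ∈ Set.Ioo a b) :
    2 * (minShadowArea K).toReal * min (t - a) (b - t) / (b - a) ^ 2 ≤ sliceWidth K n e t := by
  obtain ⟨u, hu, hun, hue⟩ := exists_third n e
  obtain ⟨Ψ, hΨ, hinj, hproj⟩ :=
    exists_frame hn he hne ((real_inner_comm u n).trans hun) ((real_inner_comm u e).trans hue) hu
  set f := sliceWidth K n e
  have hf := sliceWidth_concave (e := e) hK hc hab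
  have hf0 : ∀ s ∈ Set.Icc a b, 0 ≤ f s := fun s hs => sliceWidth_nonneg hK hab hs
  obtain ⟨g, hg1, hg2, hg⟩ := concave_bound hf hf0 ht
  have hft := hf0 t (Set.Ioo_subset_Icc_self ht)
  set L := fun s => f t + g * (s - t) with hL
  -- the shadow in direction `u` has area at most the integral of `L`
  have hS : volume ((ℝ ∙ u)ᗮ.orthogonalProjectionOnto '' K) ≤
      ∫⁻ s in Set.Icc a b, ENNReal.ofReal (L s) := by
    have hmeas : MeasurableSet ((ℝ ∙ u)ᗮ.orthogonalProjectionOnto '' K) :=
      (hK.image (by fun_prop)).measurableSet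
    rw [← hΨ.measure_preimage hmeas.nullMeasurableSet]
    rw [show (volume : Measure (ℝ × ℝ)) = (volume : Measure ℝ).prod volume from rfl,
      Measure.prod_apply (hΨ.measurable hmeas), ← lintegral_indicator measurableSet_Icc]
    refine lintegral_mono fun s => ?_
    have hsub : Prod.mk s ⁻¹' (Ψ ⁻¹' ((ℝ ∙ u)ᗮ.orthogonalProjectionOnto '' K)) ⊆
        slice K n e s := by
      rintro y ⟨x, hx, hxy⟩
      rw [hproj] at hxy
      have := hinj hxy
      exact ⟨x, ⟨hx, (Prod.ext_iff.1 this).1⟩, (Prod.ext_iff.1 this).2⟩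
    refine (measure_mono hsub).trans ?_
    by_cases hs : s ∈ Set.Icc a b
    · rw [Set.indicator_of_mem hs]
      exact (volume_slice_le hK s).trans (ENNReal.ofReal_le_ofReal (hg s hs))
    · rw [Set.indicator_of_notMem hs, nonpos_iff_eq_zero]
      have : slice K n e s = ∅ := by
        rw [Set.eq_empty_iff_forall_notMem]
        rintro _ ⟨x, ⟨hx, hxs⟩, rfl⟩
        apply hs
        rw [← hab]
        exact ⟨x, hx, hxs⟩
      rw [this, measure_empty]
  have hint : ∫ s in a..b, L s = (b - a) * (f t + g * ((a + b) / 2 - t)) := by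
    simp only [hL]
    rw [intervalIntegral.integral_add intervalIntegrable_const
        ((Continuous.intervalIntegrable (by fun_prop)) _ _),
      intervalIntegral.integral_const_mul, intervalIntegral.integral_sub
        ((Continuous.intervalIntegrable (by fun_prop)) _ _) intervalIntegrable_const,
      intervalIntegral.integral_const, intervalIntegral.integral_const, integral_id]
    simp only [smul_eq_mul]
    ring
  have hLpos : ∀ s ∈ Set.Icc a b, 0 ≤ L s := fun s hs => (hf0 s hs).trans (hg s hs)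
  have hS' : (minShadowArea K).toReal ≤ ∫ s in a..b, L s := by
    have h1 : minShadowArea K ≤ ∫⁻ s in Set.Icc a b, ENNReal.ofReal (L s) :=
      (iInf_le _ (⟨u, hu⟩ : {u : Space // ‖u‖ = 1})).trans hS
    have hI : IntegrableOn L (Set.Icc a b) := (by fun_prop : Continuous L).integrableOn_Icc
    rw [← ofReal_integral_eq_lintegral_ofReal hI
      ((ae_restrict_iff' measurableSet_Icc).2 (Filter.Eventually.of_forall hLpos)),
      integral_Icc_eq_integral_Ioc, ← intervalIntegral.integral_of_le hab'.le] at h1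
    exact ENNReal.toReal_le_of_le_ofReal
      (intervalIntegral.integral_nonneg hab'.le hLpos) h1
  rw [hint] at hS'
  have h1 : 0 < t - a := sub_pos.2 ht.1
  have h2 : 0 < b - t := sub_pos.2 ht.2
  have hbound : (minShadowArea K).toReal * min (t - a) (b - t) ≤ f t * (b - a) ^ 2 / 2 := by
    rw [← neg_div, div_le_iff₀ h2] at hg2
    rw [le_div_iff₀ h1] at hg1
    rcases le_total (t - a) (b - t) with h | h
    · rw [min_eq_left h]
      refine (mul_le_mul_of_nonneg_right hS' h1.le).trans ?_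
      have := mul_le_mul_of_nonneg_right hg1
        (mul_nonneg (show 0 ≤ b - a by linarith) (show 0 ≤ (a + b) / 2 - t by linarith))
      nlinarith
    · rw [min_eq_right h]
      refine (mul_le_mul_of_nonneg_right hS' h2.le).trans ?_
      have := mul_le_mul_of_nonneg_right hg2
        (mul_nonneg (show 0 ≤ b - a by linarith) (show 0 ≤ t - (a + b) / 2 by linarith))
      nlinarith
  rw [div_le_iff₀ (by nlinarith)]
  linarith

lemma integral_tent {a b : ℝ} (hab : a < b) (A : ℝ) :
    ∫ t in a..b, 2 * A * min (t - a) (b - t) / (b - a) ^ 2 = A / 2 := by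
  set m := (a + b) / 2 with hm
  have hc : Continuous fun t => 2 * A * min (t - a) (b - t) / (b - a) ^ 2 := by fun_prop
  rw [← intervalIntegral.integral_add_adjacent_intervals (hc.intervalIntegrable a m)
    (hc.intervalIntegrable m b)]
  have h1 : ∫ t in a..m, 2 * A * min (t - a) (b - t) / (b - a) ^ 2 =
      ∫ t in a..m, 2 * A / (b - a) ^ 2 * (t - a) :=
    intervalIntegral.integral_congr fun t ht => by
      rw [Set.uIcc_of_le (by rw [hm]; linarith)] at ht
      rw [min_eq_left (by rw [hm] at ht; linarith [ht.2])]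
      ring
  have h2 : ∫ t in m..b, 2 * A * min (t - a) (b - t) / (b - a) ^ 2 =
      ∫ t in m..b, 2 * A / (b - a) ^ 2 * (b - t) :=
    intervalIntegral.integral_congr fun t ht => by
      rw [Set.uIcc_of_le (by rw [hm]; linarith)] at ht
      rw [min_eq_right (by rw [hm] at ht; linarith [ht.1])]
      ring
  rw [h1, h2, intervalIntegral.integral_const_mul, intervalIntegral.integral_const_mul,
    intervalIntegral.integral_sub ((Continuous.intervalIntegrable (by fun_prop)) _ _)
      intervalIntegrable_const,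
    intervalIntegral.integral_sub intervalIntegrable_const
      ((Continuous.intervalIntegrable (by fun_prop)) _ _),
    intervalIntegral.integral_const, intervalIntegral.integral_const, integral_id, integral_id]
  simp only [smul_eq_mul, hm]
  have : b - a ≠ 0 := sub_ne_zero.2 hab.ne'
  field_simp
  ring

lemma minShadowArea_ne_top (hK : IsCompact K) : minShadowArea K ≠ ⊤ := by
  refine ne_top_of_le_ne_top ?_ (iInf_le _
    (⟨EuclideanSpace.single 0 1, by simp⟩ : {u : Space // ‖u‖ = 1}))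
  exact (hK.image (by fun_prop)).measure_lt_top.ne

theorem coplanar_half (hK : IsCompact K) (hc : Convex ℝ K) (hi : (interior K).Nonempty)
    (hn : ‖n‖ = 1) {m : ℕ} (u : Fin m → Space) (hu : ∀ i, ‖u i‖ = 1)
    (hun : ∀ i, ⟪u i, n⟫ = 0) (B : (i : Fin m) → Set ↥(ℝ ∙ u i)ᗮ)
    (hB : ∀ i, MeasurableSet (B i)) (hcov : K ⊆ ⋃ i, cylinder (u i) (B i)) :
    minShadowArea K / 2 ≤ ∑ i, volume (B i) := by
  obtain ⟨a, b, hab', hab⟩ := range_eq_Icc hK hc hi hn
  have hfr : ∀ i, ∃ e : Space, ‖e‖ = 1 ∧ ⟪n, e⟫ = 0 ∧ ∃ Ψ : ℝ × ℝ → ↥(ℝ ∙ u i)ᗮ,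
      MeasurePreserving Ψ ∧
      ∀ x : Space, (ℝ ∙ u i)ᗮ.orthogonalProjectionOnto x = Ψ (⟪x, n⟫, ⟪x, e⟫) := by
    intro i
    obtain ⟨e, he, hen, heu⟩ := exists_third n (u i)
    have hne : ⟪n, e⟫ = 0 := (real_inner_comm e n).trans hen
    obtain ⟨Ψ, h1, -, h3⟩ := exists_frame hn he hne ((real_inner_comm (u i) n).trans (hun i))
      heu (hu i)
    exact ⟨e, he, hne, Ψ, h1, h3⟩
  choose e he hne Ψ hΨ hproj using hfr
  set A := (minShadowArea K).toReal
  set w := fun t => 2 * A * min (t - a) (b - t) / (b - a) ^ 2 with hw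
  -- each slice is covered by planks
  have key : ∀ t ∈ Set.Ioo a b,
      ENNReal.ofReal (w t) ≤ ∑ i, volume (Prod.mk t ⁻¹' (Ψ i ⁻¹' B i)) := by
    intro t ht
    let F : Submodule ℝ Space := (ℝ ∙ n)ᗮ
    let K' : Set ↥F := F.orthogonalProjectionOnto '' (K ∩ {x | ⟪x, n⟫ = t})
    have hF : ∀ {v : Space}, ⟪n, v⟫ = 0 → v ∈ F := fun h =>
      Submodule.mem_orthogonal_singleton_iff_inner_right.2 h
    have hin : ∀ (v : ↥F) (x : Space),
        ⟪F.orthogonalProjectionOnto x, v⟫ = ⟪x, (v : Space)⟫ := fun v x => by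
      rw [real_inner_comm, Submodule.inner_orthogonalProjectionOnto_eq_of_mem_left,
        real_inner_comm]
    have hKt : IsCompact (K ∩ {x | ⟪x, n⟫ = t}) :=
      hK.inter_right (isClosed_eq (by fun_prop) continuous_const)
    have hKc : Convex ℝ (K ∩ {x | ⟪x, n⟫ = t}) := hc.inter (by
      intro x hx y hy p q hp hq hpq
      simp only [Set.mem_ofPred_eq, inner_add_left, real_inner_smul_left] at hx hy ⊢
      rw [hx, hy, ← add_mul, hpq, one_mul])
    have hKne : (K ∩ {x | ⟪x, n⟫ = t}).Nonempty := by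
      have := Set.Ioo_subset_Icc_self ht
      rw [← hab] at this
      obtain ⟨x, hx, hxt⟩ := this
      exact ⟨x, hx, hxt⟩
    refine bang_sets (F := ↥F) (hKt.image (by fun_prop))
      (hKc.linear_image F.orthogonalProjectionOnto.toLinearMap) (hKne.image _) (fun v hv => ?_)
      (fun i => (⟨e i, hF (hne i)⟩ : ↥F)) (fun i => he i) _ (fun y hy => ?_)
    · have hcs := slice_compact (n := n) (e := (v : Space)) hK t
      have hsn := slice_nonempty (e := (v : Space)) hab (Set.Ioo_subset_Icc_self ht)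
      obtain ⟨x, hx, hxe⟩ := hcs.sSup_mem hsn
      obtain ⟨y, hy, hye⟩ := hcs.sInf_mem hsn
      refine ⟨_, ⟨x, hx, rfl⟩, _, ⟨y, hy, rfl⟩, ?_⟩
      simp only [ContinuousLinearMap.coe_coe, hin] at hxe hye ⊢
      rw [hxe, hye]
      exact slice_width_ge hK hc hab' hab hn hv
        (Submodule.mem_orthogonal_singleton_iff_inner_right.1 v.2) ht
    · obtain ⟨x, ⟨hx, hxt⟩, rfl⟩ := hy
      obtain ⟨i, hi⟩ := Set.mem_iUnion.1 (hcov hx)
      refine ⟨i, ?_⟩
      simp only [ContinuousLinearMap.coe_coe, hin, Set.mem_preimage]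
      have hi' : (ℝ ∙ u i)ᗮ.orthogonalProjectionOnto x ∈ B i := hi
      rw [hproj i x, hxt] at hi'
      exact hi'
  calc minShadowArea K / 2 = ENNReal.ofReal (A / 2) := by
        rw [ENNReal.ofReal_div_of_pos two_pos, ENNReal.ofReal_toReal (minShadowArea_ne_top hK)]
        simp
    _ = ENNReal.ofReal (∫ t in a..b, w t) := by rw [integral_tent hab']
    _ = ∫⁻ t in Set.Ioo a b, ENNReal.ofReal (w t) := by
        have hI : IntegrableOn w (Set.Ioo a b) :=
          ((by fun_prop : Continuous w).integrableOn_Icc (a := a) (b := b)).mono_set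
            Set.Ioo_subset_Icc_self
        rw [intervalIntegral.integral_of_le hab'.le, integral_Ioc_eq_integral_Ioo,
          ofReal_integral_eq_lintegral_ofReal hI]
        refine (ae_restrict_iff' measurableSet_Ioo).2 (Filter.Eventually.of_forall fun t ht => ?_)
        have hA : 0 ≤ A := ENNReal.toReal_nonneg
        have hm : 0 ≤ min (t - a) (b - t) := le_min (by linarith [ht.1]) (by linarith [ht.2])
        simp only [hw, Pi.zero_apply]
        positivity
    _ ≤ ∫⁻ t in Set.Ioo a b, ∑ i, volume (Prod.mk t ⁻¹' (Ψ i ⁻¹' B i)) :=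
        setLIntegral_mono' measurableSet_Ioo key
    _ ≤ ∫⁻ t, ∑ i, volume (Prod.mk t ⁻¹' (Ψ i ⁻¹' B i)) := setLIntegral_le_lintegral _ _
    _ = ∑ i, volume (B i) := by
        rw [lintegral_finsetSum _ fun i _ =>
          measurable_measure_prodMk_left ((hΨ i).measurable (hB i))]
        refine Finset.sum_congr rfl fun i _ => ?_
        rw [← Measure.prod_apply ((hΨ i).measurable (hB i))]
        exact (hΨ i).measure_preimage (hB i).nullMeasurableSet

end Vale.Agent.P243
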