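import Vale.Agent.P243.Statement
import Vale.Agent.P243.Main

/-!
Transfer of the coplanar bound to the ambient formulation.
-/

namespace Vale.Agent.P243

open MeasureTheory
open scoped RealInnerProductSpace

lemma area_eq {u : Point} (hu : ‖u‖ = 1) (B : Set Point) :
    area u B = volume (Subtype.val ⁻¹' B : Set ↥(ℝ ∙ u)ᗮ) := by
  have hu0 : u ≠ 0 := fun h => by simp [h] at hu
  have h2 : Module.finrank ℝ ↥(ℝ ∙ u)ᗮ = 2 := Submodule.finrank_orthogonal_span_singleton (n := 2) hu0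
  rw [← InnerProductSpace.euclideanHausdorffMeasure_eq_volume (V := ↥(ℝ ∙ u)ᗮ), h2,
    ← (isometry_subtype_coe : Isometry (Subtype.val : ↥(ℝ ∙ u)ᗮ → Point)).euclideanHausdorffMeasure_image]
  unfold area
  congr 1
  ext x
  exact ⟨fun h => ⟨⟨x, h.2⟩, h.1, rfl⟩, by rintro ⟨p, hp, rfl⟩; exact ⟨hp, p.2⟩⟩

lemma area_proj_image {u : Point} (hu : ‖u‖ = 1) (K : Set Point) :
    area u (proj u '' K) = volume ((ℝ ∙ u)ᗮ.orthogonalProjectionOnto '' K) := by
  rw [area_eq hu]
  congr 1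
  ext p
  constructor
  · rintro ⟨x, hx, hxp⟩; exact ⟨x, hx, Subtype.ext hxp⟩
  · rintro ⟨x, hx, rfl⟩; exact ⟨x, hx, rfl⟩

lemma Amin_eq (K : Set Point) : Amin K = minShadowArea K :=
  iInf_congr fun u => area_proj_image u.2 K

theorem coplanar {K : Set Point} {m : ℕ} {u : Fin m → Point} {B : Fin m → Set Point}
    (h : IsCovering K m u B) (hu : IsCoplanar m u) :
    Amin K / 2 ≤ ∑ i, area (u i) (B i) := by
  obtain ⟨hK, hc, hi, h1, hB, hcov⟩ := h
  obtain ⟨n, hn, hun⟩ := hu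
  rw [Amin_eq, Finset.sum_congr rfl fun i _ => area_eq (h1 i) (B i)]
  exact coplanar_half hK hc hi hn u h1 hun
    (fun i => (Subtype.val ⁻¹' B i : Set ↥(ℝ ∙ u i)ᗮ))
    (fun i => (hB i).preimage measurable_subtype_coe) hcov

theorem twoDirections {K : Set Point} {m : ℕ} {u : Fin m → Point} {B : Fin m → Set Point}
    (h : IsCovering K m u B) (hu : IsTwoDirectional m u) :
    Amin K / 2 ≤ ∑ i, area (u i) (B i) := by
  obtain ⟨a, b, hab⟩ := hu
  obtain ⟨n, hn, hna, hnb⟩ := exists_third a b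
  refine coplanar h ⟨n, hn, fun i => ?_⟩
  have hmem := Submodule.mem_span_singleton_self (R := ℝ) (u i)
  rcases hab i with h | h <;> rw [h] at hmem <;>
    obtain ⟨r, hr⟩ := Submodule.mem_span_singleton.1 hmem <;> rw [← hr, real_inner_smul_left]
  · rw [real_inner_comm, hna, mul_zero]
  · rw [real_inner_comm, hnb, mul_zero]

end Vale.Agent.P243
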