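import Vale.Agent.P243.Planar
import Mathlib.MeasureTheory.Integral.IntervalIntegral.Basic
import Mathlib.Analysis.SpecialFunctions.Integrals.Basic

/-!
The normalized three-dimensional inequality: a convex body of diameter one always contains a
convex set whose volume per unit diameter exceeds a third of the smallest shadow by a definite
factor.
-/

namespace Vale.Agent.P243.Thin

open MeasureTheory Set
open scoped Pointwise

/-- Space, split into a plane and an axis. -/
abbrev W : Type := R2 × ℝ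

/-- Squared Euclidean norm. -/
def wsq (x : W) : ℝ := nsq x.1 + x.2 ^ 2

lemma continuous_wsq : Continuous wsq := by unfold wsq nsq; fun_prop

lemma wsq_combo (p q : W) (s : ℝ) :
    wsq ((1 - s) • p + s • q) = (1 - s) * wsq p + s * wsq q - s * (1 - s) * wsq (p - q) := by
  simp only [wsq, nsq, Prod.fst_add, Prod.snd_add, Prod.smul_fst, Prod.smul_snd, Prod.fst_sub,
    Prod.snd_sub, smul_eq_mul]
  ring

lemma convex_wsq_le (q : W) (r : ℝ) : Convex ℝ {x : W | wsq (x - q) ≤ r} := by
  intro x hx y hy a b ha hb hab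
  obtain rfl : a = 1 - b := by linarith
  simp only [mem_ofPred_eq] at hx hy ⊢
  have h : (1 - b) • x + b • y - q = (1 - b) • (x - q) + b • (y - q) := by module
  rw [h, wsq_combo]
  have hn : 0 ≤ b * (1 - b) * wsq (x - q - (y - q)) :=
    mul_nonneg (mul_nonneg hb ha) (by unfold wsq; have := nsq_nonneg (x - q - (y - q)).1; positivity)
  nlinarith

variable {K : Set W}

/-- The shadow along the axis `(d, 1)`, drawn in the plane of the first factor. -/
def oblique (K : Set W) (d : R2) : Set R2 := (fun x => x.1 - x.2 • d) '' K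

lemma oblique_zero (K : Set W) : oblique K 0 = Prod.fst '' K := by simp [oblique]

/-- Length of a fibre. -/
noncomputable def fib (G : Set W) (y : R2) : ℝ := volume.real (Prod.mk y ⁻¹' G)

lemma isCompact_fibre {G : Set W} (hG : IsCompact G) (y : R2) :
    IsCompact (Prod.mk y ⁻¹' G) :=
  (hG.image continuous_snd).of_isClosed_subset (hG.isClosed.preimage (by fun_prop))
    fun z hz => ⟨(y, z), hz, rfl⟩

lemma le_fib {G : Set W} (hG : IsCompact G) {y : R2} {c s : ℝ} (hs : 0 ≤ s)
    (h : ∀ z ∈ Icc c (c + s), (y, z) ∈ G) : s ≤ fib G y := by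
  calc s = volume.real (Icc c (c + s)) := by
        rw [Measure.real, Real.volume_Icc, ENNReal.toReal_ofReal (by linarith)]; ring
    _ ≤ _ := measureReal_mono h (isCompact_fibre hG y).measure_lt_top.ne

lemma layer_subset {G : Set W} {s : ℝ} (hs : 0 < s) : {y | s ≤ fib G y} ⊆ Prod.fst '' G := by
  intro y hy
  by_contra hn
  have : Prod.mk y ⁻¹' G = ∅ := by
    rw [eq_empty_iff_forall_notMem]
    exact fun z hz => hn ⟨(y, z), hz, rfl⟩
  simp only [mem_ofPred_eq, fib, this, measureReal_empty] at hy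
  linarith

lemma volume_ge_layers {G : Set W} (hG : IsCompact G) {a b : ℝ} (ha : 0 ≤ a) {φ : ℝ → ℝ}
    (hφ : Continuous φ) (H : ∀ s ∈ Ioo a b, φ s ≤ volume.real {y | s ≤ fib G y}) :
    ENNReal.ofReal (∫ s in Ioo a b, φ s) ≤
      ∫⁻ s in Ioo a b, volume {y | s ≤ fib G y} := by
  have hI : IntegrableOn φ (Ioo a b) :=
    hφ.integrableOn_Icc.mono_set Ioo_subset_Icc_self
  calc ENNReal.ofReal (∫ s in Ioo a b, φ s)
      ≤ ENNReal.ofReal (∫ s in Ioo a b, max (φ s) 0) := by
        refine ENNReal.ofReal_le_ofReal (setIntegral_mono hI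
          ((hφ.max continuous_const).integrableOn_Icc.mono_set Ioo_subset_Icc_self)
          fun s => le_max_left _ _)
    _ = ∫⁻ s in Ioo a b, ENNReal.ofReal (max (φ s) 0) :=
        ofReal_integral_eq_lintegral_ofReal
          ((hφ.max continuous_const).integrableOn_Icc.mono_set Ioo_subset_Icc_self)
          (Filter.Eventually.of_forall fun s => le_max_right _ _)
    _ ≤ _ := by
        refine setLIntegral_mono' measurableSet_Ioo fun s hs => ?_
        have hfin : volume {y | s ≤ fib G y} ≠ ⊤ :=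
          ne_top_of_le_ne_top (hG.image continuous_fst).measure_lt_top.ne
            (measure_mono (layer_subset (ha.trans_lt hs.1)))
        rw [← ENNReal.ofReal_toReal hfin]
        exact ENNReal.ofReal_le_ofReal (max_le (H s hs) ENNReal.toReal_nonneg)

lemma volume_eq_layers {G : Set W} (hG : IsCompact G) :
    volume G = ∫⁻ s in Ioi 0, volume {y | s ≤ fib G y} := by
  have hm : Measurable fun y => fib G y :=
    (measurable_measure_prodMk_left hG.measurableSet).ennreal_toReal
  rw [← lintegral_eq_lintegral_meas_le volume (f := fun y => fib G y)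
    (Filter.Eventually.of_forall fun y => measureReal_nonneg) hm.aemeasurable]
  rw [show (volume : Measure W) = (volume : Measure R2).prod volume from rfl,
    Measure.prod_apply hG.measurableSet]
  exact lintegral_congr fun y =>
    (ofReal_measureReal (isCompact_fibre hG y).measure_lt_top.ne).symm

/-- Volume is bounded below by two blocks of layers. -/
lemma volume_ge_two {G : Set W} (hG : IsCompact G) {p q : ℝ} (hp : 0 ≤ p) {φ ψ : ℝ → ℝ}
    (hφ : Continuous φ) (hψ : Continuous ψ) (hφ0 : 0 ≤ ∫ s in Ioo 0 p, φ s)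
    (hψ0 : 0 ≤ ∫ s in Ioo p q, ψ s)
    (H1 : ∀ s ∈ Ioo 0 p, φ s ≤ volume.real {y | s ≤ fib G y})
    (H2 : ∀ s ∈ Ioo p q, ψ s ≤ volume.real {y | s ≤ fib G y}) :
    (∫ s in Ioo 0 p, φ s) + (∫ s in Ioo p q, ψ s) ≤ volume.real G := by
  rw [Measure.real, ← ENNReal.ofReal_le_iff_le_toReal hG.measure_lt_top.ne,
    ENNReal.ofReal_add hφ0 hψ0, volume_eq_layers hG]
  refine (add_le_add (volume_ge_layers hG le_rfl hφ H1) (volume_ge_layers hG hp hψ H2)).trans ?_
  rw [← lintegral_union measurableSet_Ioo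
    (Set.disjoint_left.2 fun x hx hy => lt_asymm hx.2 hy.1)]
  exact lintegral_mono_set fun x hx => hx.elim (fun h => h.1) fun h => hp.trans_lt h.1

lemma integral_parabola {a b : ℝ} (hab : a ≤ b) (c k : ℝ) :
    ∫ s in Ioo a b, (c * (1 - s) ^ 2 + k) =
      c * ((1 - a) ^ 3 - (1 - b) ^ 3) / 3 + k * (b - a) := by
  rw [← integral_Ioc_eq_integral_Ioo, ← intervalIntegral.integral_of_le hab,
    intervalIntegral.integral_add ((Continuous.intervalIntegrable (by fun_prop)) _ _)
      intervalIntegrable_const, intervalIntegral.integral_const_mul,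
    intervalIntegral.integral_comp_sub_left (fun x => x ^ 2) 1, integral_pow,
    intervalIntegral.integral_const]
  simp only [smul_eq_mul]
  push_cast
  ring

section Body

variable (hK : IsCompact K) (hc : Convex ℝ K) (h0 : ((0, 0) : W) ∈ K) (h1 : ((0, 1) : W) ∈ K)
  (hdiam : ∀ x ∈ K, ∀ q ∈ K, wsq (x - q) ≤ 1)

include hc h0 h1 in
lemma combo_mem {k : W} (hk : k ∈ K) {s σ : ℝ} (hs : s ∈ Icc (0:ℝ) 1) (hσ : σ ∈ Icc (0:ℝ) 1) :
    (1 - s) • k + s • ((0, σ) : W) ∈ K := by
  refine hc hk ?_ (sub_nonneg.2 hs.2) hs.1 (by ring)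
  have := hc h0 h1 (sub_nonneg.2 hσ.2) hσ.1 (by ring)
  simpa using this

include h0 h1 hdiam in
lemma combo_dist {k q : W} (hk : k ∈ K) (hq : q ∈ K) {s σ : ℝ} (hs : s ∈ Icc (0:ℝ) 1)
    (hσ : σ ∈ Icc (0:ℝ) 1) :
    wsq ((1 - s) • k + s • ((0, σ) : W) - q) ≤
      1 - s * (σ * (1 - σ)) - s * nsq ((1 - s) • k.1) := by
  have hm : ((0, σ) : W) - q = (1 - σ) • (((0, 0) : W) - q) + σ • (((0, 1) : W) - q) := by
    rw [show ((0, σ) : W) = (1 - σ) • ((0, 0) : W) + σ • ((0, 1) : W) by simp]
    module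
  have h2 : wsq (((0, σ) : W) - q) ≤ 1 - σ * (1 - σ) := by
    rw [hm, wsq_combo]
    have e : ((0, 0) : W) - q - (((0, 1) : W) - q) = ((0, -1) : W) := by simp
    rw [e]
    have ew : wsq ((0, -1) : W) = 1 := by simp [wsq, nsq]
    have := hdiam _ h0 q hq
    have := hdiam _ h1 q hq
    rw [ew]
    nlinarith [hσ.1, hσ.2]
  have h : (1 - s) • k + s • ((0, σ) : W) - q = (1 - s) • (k - q) + s • (((0, σ) : W) - q) := by
    module
  rw [h, wsq_combo]
  have h3 : (1 - s) ^ 2 * nsq k.1 ≤ (1 - s) * wsq (k - q - (((0, σ) : W) - q)) := by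
    have e : (k - q - (((0, σ) : W) - q)) = k - ((0, σ) : W) := by abel
    rw [e]
    simp only [wsq, Prod.fst_sub, Prod.snd_sub, sub_zero]
    have := nsq_nonneg k.1
    have := sq_nonneg (k.2 - σ)
    have hu : 0 ≤ 1 - s := sub_nonneg.2 hs.2
    nlinarith [mul_nonneg (mul_nonneg hu hs.1) (nsq_nonneg k.1),
      mul_nonneg hu (sq_nonneg (k.2 - σ))]
  rw [← nsq_smul] at h3
  have := hdiam k hk q hq
  nlinarith [hs.1, hs.2]

include hK hc h0 h1 in
lemma shadow_le_volume : volume.real (Prod.fst '' K) / 3 ≤ volume.real K := by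
  have hP := hK.image continuous_fst
  set P := volume.real (Prod.fst '' K)
  have hP0 : 0 ≤ P := measureReal_nonneg
  have key := volume_ge_two hK (p := 1) (q := 1) zero_le_one
    (φ := fun s => P * (1 - s) ^ 2 + 0) (ψ := fun _ => 0) (by fun_prop) (by fun_prop)
    (by rw [integral_parabola zero_le_one]; norm_num; positivity) (by simp) (fun s hs => ?_)
    (fun s hs => absurd (hs.1.trans hs.2) (lt_irrefl _))
  · rw [integral_parabola zero_le_one] at key
    simp at key
    linarith
  · have hsub : (1 - s) • (Prod.fst '' K) ⊆ {y | s ≤ fib K y} := by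
      rintro _ ⟨_, ⟨k, hk, rfl⟩, rfl⟩
      refine le_fib hK (c := (1 - s) * k.2) hs.1.le fun z hz => ?_
      have := combo_mem hc h0 h1 hk (s := s) (σ := (z - (1 - s) * k.2) / s)
        ⟨hs.1.le, hs.2.le⟩
        ⟨div_nonneg (by linarith [hz.1]) hs.1.le, (div_le_one hs.1).2 (by linarith [hz.2])⟩
      convert this using 1
      have := hs.1.ne'
      refine Prod.ext (by simp) ?_
      simp only [Prod.snd_add, Prod.smul_snd, smul_eq_mul]
      field_simp
      ring
    refine le_trans (le_of_eq ?_) (measureReal_mono hsub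
      (ne_top_of_le_ne_top hP.measure_lt_top.ne (measure_mono (layer_subset hs.1))))
    rw [real_smul_set (by linarith [hs.2])]
    ring

include hK hc h0 h1 hdiam in
/-- Near-diametral points can be removed cheaply if the shadow is not tiny. -/
lemma thick {far : R2} (hfar : far ∈ Prod.fst '' K) (hlong : ((1:ℝ) / 10000) ^ 2 ≤ nsq far) :
    let e : ℝ := ((1:ℝ) / 10 ^ 13) ^ 2
    ∃ G ⊆ K, IsCompact G ∧ Convex ℝ G ∧ (∀ x ∈ G, ∀ q ∈ G, wsq (x - q) ≤ (1 - e / 2) ^ 2) ∧
      volume.real (Prod.fst '' K) * (1 - 24 / 100 * e) / 3 ≤ volume.real G := by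
  intro e
  have he13 : e = ((1:ℝ) / 10 ^ 13) ^ 2 := rfl
  clear_value e
  have he : 0 < e := by rw [he13]; positivity
  set G := K ∩ ⋂ q ∈ K, {x : W | wsq (x - q) ≤ 1 - e} with hGdef
  have hG : IsCompact G := hK.inter_right (isClosed_biInter fun q _ =>
    isClosed_le (continuous_wsq.comp (by fun_prop)) continuous_const)
  refine ⟨G, inter_subset_left, hG, hc.inter (convex_iInter₂ fun q _ => convex_wsq_le q _),
    fun x hx q hq => ?_, ?_⟩
  · have h : wsq (x - q) ≤ 1 - e := mem_iInter₂.1 hx.2 q hq.1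
    nlinarith [sq_nonneg e]
  set P := Prod.fst '' K with hPdef
  have hP : IsCompact P := hK.image continuous_fst
  have hPc : Convex ℝ P := hc.linear_image (LinearMap.fst ℝ R2 ℝ)
  have hP0 : ((0:R2)) ∈ P := ⟨_, h0, rfl⟩
  set A := volume.real P
  have hA0 : 0 ≤ A := measureReal_nonneg
  -- a point is good as soon as its variance term reaches `e`
  have good : ∀ k ∈ K, ∀ t ∈ Icc (0:ℝ) 1, ∀ σ ∈ Icc (0:ℝ) 1,
      e ≤ t * (σ * (1 - σ)) + t * nsq ((1 - t) • k.1) → (1 - t) • k + t • ((0, σ) : W) ∈ G := by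
    intro k hk t ht σ hσ he'
    refine ⟨combo_mem hc h0 h1 hk ht hσ, mem_iInter₂.2 fun q hq => ?_⟩
    have h := combo_dist h0 h1 hdiam hk hq ht hσ
    simp only [mem_ofPred_eq]
    linarith
  -- each layer
  have layer : ∀ s ∈ Ioo (0:ℝ) 1,
      A * (1 - s) ^ 2 - 8 * e * volume.real (P ∩ {y | nsq y < e / (s * (1 - s) ^ 2)}) ≤
        volume.real {y | s ≤ fib G y} := by
    intro s hs
    have hu : 0 < 1 - s := sub_pos.2 hs.2
    set X := P ∩ {y | nsq y < e / (s * (1 - s) ^ 2)}
    set m := volume.real X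
    set Z := (1 - s) • X
    have hX : MeasurableSet X :=
      hP.measurableSet.inter (measurableSet_lt continuous_nsq.measurable measurable_const)
    set L := {y | s ≤ fib G y}
    have hLfin : volume L ≠ ⊤ := ne_top_of_le_ne_top
      (hG.image continuous_fst).measure_lt_top.ne (measure_mono (layer_subset hs.1))
    have hout : ((1 - s) • P) \ Z ⊆ L := by
      rintro _ ⟨⟨_, ⟨k, hk, rfl⟩, rfl⟩, hz⟩
      have hnot : e / (s * (1 - s) ^ 2) ≤ nsq k.1 := by
        by_contra hlt
        exact hz ⟨k.1, ⟨⟨k, hk, rfl⟩, not_le.1 hlt⟩, rfl⟩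
      rw [div_le_iff₀ (mul_pos hs.1 (pow_pos hu 2))] at hnot
      refine le_fib hG (c := (1 - s) * k.2) hs.1.le fun z hz' => ?_
      have hσ : (z - (1 - s) * k.2) / s ∈ Icc (0:ℝ) 1 :=
        ⟨div_nonneg (by linarith [hz'.1]) hs.1.le, (div_le_one hs.1).2 (by linarith [hz'.2])⟩
      have := good k hk s ⟨hs.1.le, hs.2.le⟩ _ hσ (by
        rw [nsq_smul]
        nlinarith [mul_nonneg hs.1.le (mul_nonneg hσ.1 (sub_nonneg.2 hσ.2))])
      convert this using 1
      have := hs.1.ne'
      refine Prod.ext (by simp) ?_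
      simp only [Prod.snd_add, Prod.smul_snd, smul_eq_mul]
      field_simp
      ring
    have hZm : MeasurableSet Z := hX.const_smul₀ _
    have hmain : A * (1 - s) ^ 2 ≤ volume.real L + volume.real Z := by
      calc A * (1 - s) ^ 2 = volume.real ((1 - s) • P) := by rw [real_smul_set hu.le]; ring
        _ ≤ volume.real (L ∪ Z) := by
            refine measureReal_mono (fun y hy => ?_) (measure_union_ne_top hLfin ?_)
            · by_cases h : y ∈ Z
              exacts [Or.inr h, Or.inl (hout ⟨hy, h⟩)]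
            · exact ne_top_of_le_ne_top (hP.smul (1 - s)).measure_lt_top.ne
                (measure_mono (smul_set_mono inter_subset_left))
        _ ≤ _ := measureReal_union_le _ _
    have hZ : volume.real Z = (1 - s) ^ 2 * m := real_smul_set hu.le _
    have hm : 0 ≤ m := measureReal_nonneg
    rcases le_or_gt 1 (s + 4 * e) with hbig | hsmall
    · nlinarith [mul_le_mul_of_nonneg_right
        (show (1 - s) ^ 2 ≤ 8 * e by nlinarith [hs.1]) hm]
    -- middle parts of slightly longer fibres are good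
    set μ := (1 - s - 4 * e) / (1 - s) with hμdef
    have hμ0 : 0 ≤ μ := div_nonneg (by linarith) hu.le
    have hμ1 : μ ≤ 1 := (div_le_one hu).2 (by linarith)
    have hin : μ • Z ⊆ L := by
      rintro _ ⟨_, ⟨_, ⟨⟨k, hk, rfl⟩, -⟩, rfl⟩, rfl⟩
      set t := s + 4 * e with ht
      have ht0 : 0 < t := by linarith [hs.1]
      refine le_fib hG (c := (1 - t) * k.2 + 2 * e) hs.1.le fun z hz' => ?_
      set σ := (z - (1 - t) * k.2) / t with hσdef
      have hσt : σ * t = z - (1 - t) * k.2 := by rw [hσdef, div_mul_cancel₀ _ ht0.ne']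
      have hσ1 : 2 * e ≤ σ * t := by rw [hσt]; linarith [hz'.1]
      have hσ2 : σ * t ≤ t - 2 * e := by rw [hσt]; linarith [hz'.2]
      have hσ : σ ∈ Icc (0:ℝ) 1 := ⟨by nlinarith, by nlinarith⟩
      have := good k hk t ⟨ht0.le, hsmall.le⟩ σ hσ (by
        have h1 : 0 ≤ t * nsq ((1 - t) • k.1) := mul_nonneg ht0.le (nsq_nonneg _)
        rcases le_total σ (1 / 2) with h | h
        · nlinarith [mul_le_mul_of_nonneg_left (show 1 / 2 ≤ 1 - σ by linarith)
            (mul_nonneg hσ.1 ht0.le)]
        · nlinarith [mul_le_mul_of_nonneg_right h (mul_nonneg (sub_nonneg.2 hσ.2) ht0.le)])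
      convert this using 1
      refine Prod.ext ?_ ?_
      · simp only [Prod.fst_add, Prod.smul_fst, smul_zero, add_zero, smul_smul, hμdef,
          div_mul_cancel₀ _ hu.ne', ht]
        ring_nf
      · simp only [Prod.snd_add, Prod.smul_snd, smul_eq_mul]
        linarith
    have hsub : μ • Z ⊆ Z := by
      have hcv : Convex ℝ Z := (hPc.inter (convex_nsq_lt _)).smul (1 - s)
      have hz0 : (0:R2) ∈ Z := ⟨0, ⟨hP0, by
        simpa [nsq] using div_pos he (mul_pos hs.1 (pow_pos hu 2))⟩, smul_zero _⟩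
      rintro _ ⟨z, hz, rfl⟩
      exact hcv.smul_mem_of_zero_mem hz0 hz ⟨hμ0, hμ1⟩
    have hμZm : MeasurableSet (μ • Z) := hZm.const_smul₀ _
    have hZfin : volume Z ≠ ⊤ := ne_top_of_le_ne_top (hP.smul (1 - s)).measure_lt_top.ne
      (measure_mono (smul_set_mono inter_subset_left))
    have hbetter : A * (1 - s) ^ 2 ≤ volume.real L + (volume.real Z - volume.real (μ • Z)) := by
      calc A * (1 - s) ^ 2 = volume.real ((1 - s) • P) := by rw [real_smul_set hu.le]; ring
        _ ≤ volume.real (L ∪ (Z \ μ • Z)) := by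
            refine measureReal_mono (fun y hy => ?_) (measure_union_ne_top hLfin
              (ne_top_of_le_ne_top hZfin (measure_mono sdiff_subset)))
            by_cases h : y ∈ Z
            · by_cases h' : y ∈ μ • Z
              exacts [Or.inl (hin h'), Or.inr ⟨h, h'⟩]
            · exact Or.inl (hout ⟨hy, h⟩)
        _ ≤ volume.real L + volume.real (Z \ μ • Z) := measureReal_union_le _ _
        _ = _ := by rw [measureReal_sdiff hsub hμZm hZfin]
    rw [real_smul_set hμ0, hZ] at hbetter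
    have h1 : (1 - μ ^ 2) * (1 - s) ^ 2 ≤ 8 * e := by
      have : (1 - μ) * (1 - s) = 4 * e := by rw [hμdef]; field_simp; ring
      calc (1 - μ ^ 2) * (1 - s) ^ 2 = (1 + μ) * (1 - s) * ((1 - μ) * (1 - s)) := by ring
        _ ≤ 2 * (4 * e) := by rw [this]; gcongr; nlinarith [hs.1]
        _ = _ := by ring
    nlinarith [mul_le_mul_of_nonneg_right h1 hm]
  -- integrate the layers
  set θ : ℝ := 1 / 400
  have hM : ∀ s ∈ Ioo θ (1 - θ),
      volume.real (P ∩ {y | nsq y < e / (s * (1 - s) ^ 2)}) ≤ A / 200 := by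
    intro s hs
    set R : ℝ := 160000 / 10 ^ 13
    have hle : e / (s * (1 - s) ^ 2) ≤ R ^ 2 := by
      have h1 : θ * θ ^ 2 ≤ s * (1 - s) ^ 2 := by
        have hθ : 0 ≤ θ := by norm_num [θ]
        gcongr
        · exact hθ.trans hs.1.le
        · exact hs.1.le
        · linarith [hs.2]
      refine (div_le_div_of_nonneg_left he.le (by norm_num [θ]) h1).trans ?_
      norm_num [he13, θ, R]
    refine (measureReal_mono (s₂ := P ∩ {y | nsq y < R ^ 2})
      (fun y hy => ⟨hy.1, hy.2.trans_le hle⟩)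
      (ne_top_of_le_ne_top hP.measure_lt_top.ne (measure_mono inter_subset_left))).trans
      ((near_small hP hPc hfar (R := R) (L := 1 / 10000) (by norm_num [R]) (by norm_num) hlong
        (by norm_num [R])).trans ?_)
    have : (24 : ℝ) * R / (1 / 10000) ≤ 1 / 200 := by norm_num [R]
    calc 24 * R / (1 / 10000) * A ≤ 1 / 200 * A := by gcongr
      _ = _ := by ring
  have hall : ∀ s : ℝ, volume.real (P ∩ {y | nsq y < e / (s * (1 - s) ^ 2)}) ≤ A :=
    fun s => real_mono_of_compact hP inter_subset_left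
  -- three blocks
  have hθ : (0:ℝ) ≤ θ := by norm_num [θ]
  have b1 := volume_ge_layers hG (a := 0) (b := θ) le_rfl
    (φ := fun s => A * (1 - s) ^ 2 + -(8 * e * A)) (by fun_prop) (fun s hs => by
      have := layer s ⟨hs.1, hs.2.trans (by norm_num [θ])⟩
      have := mul_le_mul_of_nonneg_left (hall s) (show 0 ≤ 8 * e by positivity)
      linarith)
  have b2 := volume_ge_layers hG (a := θ) (b := 1 - θ) hθ
    (φ := fun s => A * (1 - s) ^ 2 + -(8 * e * (A / 200))) (by fun_prop) (fun s hs => by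
      have := layer s ⟨hθ.trans_lt hs.1, hs.2.trans (by norm_num [θ])⟩
      have := mul_le_mul_of_nonneg_left (hM s hs) (show 0 ≤ 8 * e by positivity)
      linarith)
  have b3 := volume_ge_layers hG (a := 1 - θ) (b := 1) (by norm_num [θ])
    (φ := fun s => A * (1 - s) ^ 2 + -(8 * e * A)) (by fun_prop) (fun s hs => by
      have := layer s ⟨(show (0:ℝ) ≤ 1 - θ by norm_num [θ]).trans_lt hs.1, hs.2⟩
      have := mul_le_mul_of_nonneg_left (hall s) (show 0 ≤ 8 * e by positivity)
      linarith)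
  rw [integral_parabola hθ] at b1
  rw [integral_parabola (by norm_num [θ])] at b2
  rw [integral_parabola (by norm_num [θ])] at b3
  have hsum := (add_le_add (add_le_add b1 b2) b3).trans (le_of_eq_of_le
    (by rw [← lintegral_union measurableSet_Ioo, ← lintegral_union measurableSet_Ioo] <;>
      rw [Set.disjoint_left] <;> intro x hx hy
        <;> first
          | exact lt_asymm hx.2 hy.1
          | (rcases hx with hx | hx <;> linarith [hx.2, hy.1, show θ ≤ 1 - θ by norm_num [θ]]))
    ((lintegral_mono_set (t := Ioi 0) fun x hx => by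
      rcases hx with (hx | hx) | hx
      exacts [hx.1, hθ.trans_lt hx.1, (show (0:ℝ) ≤ 1 - θ by norm_num [θ]).trans_lt hx.1]).trans
      (volume_eq_layers hG).ge))
  have h := (ENNReal.ofReal_le_iff_le_toReal hG.measure_lt_top.ne).1
    ((ENNReal.ofReal_add_le.trans (add_le_add ENNReal.ofReal_add_le le_rfl)).trans hsum)
  refine le_trans ?_ h
  norm_num [θ]
  nlinarith [mul_nonneg he.le hA0]

end Body

end Vale.Agent.P243.Thin
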