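import Mathlib.MeasureTheory.Measure.Haar.InnerProductSpace
import Mathlib.Analysis.InnerProductSpace.Projection.FiniteDimensional

/-!
Cylinders and shadows in three-dimensional Euclidean space.
-/

namespace Vale.Agent.P243

open MeasureTheory
open scoped RealInnerProductSpace

/-- Three-dimensional Euclidean space. -/
abbrev Space : Type := EuclideanSpace ℝ (Fin 3)

/-- The cylinder `B + ℝ u` over a base `B` in the plane orthogonal to `u`. -/
def cylinder (u : Space) (B : Set ↥(ℝ ∙ u)ᗮ) : Set Space :=
  {x | (ℝ ∙ u)ᗮ.orthogonalProjectionOnto x ∈ B}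

/-- The smallest area of an orthogonal projection of `K` onto a plane. -/
noncomputable def minShadowArea (K : Set Space) : ENNReal :=
  ⨅ u : {u : Space // ‖u‖ = 1},
    volume ((ℝ ∙ (u : Space))ᗮ.orthogonalProjectionOnto '' K)

end Vale.Agent.P243
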