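import Vale.Agent.P243.Defs
import Mathlib.Analysis.Convex.Function
import Mathlib.Topology.Order.Compact
import Mathlib.MeasureTheory.Measure.Prod
import Mathlib.MeasureTheory.Measure.Lebesgue.Basic

/-!
Orthonormal frames of planes orthogonal to an axis.
-/

namespace Vale.Agent.P243

open MeasureTheory Module
open scoped RealInnerProductSpace

instance : Fact (finrank ℝ Space = 2 + 1) := ⟨by simp⟩

lemma exists_third (a b : Space) :
    ∃ c : Space, ‖c‖ = 1 ∧ ⟪c, a⟫ = 0 ∧ ⟪c, b⟫ = 0 := by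
  classical
  set S : Submodule ℝ Space := Submodule.span ℝ (({a, b} : Finset Space) : Set Space)
  have hS : finrank ℝ S ≤ 2 := (finrank_span_finset_le_card _).trans Finset.card_le_two
  have hne : Sᗮ ≠ ⊥ := by
    intro h
    have h1 := Submodule.finrank_add_finrank_orthogonal S
    rw [h, finrank_bot] at h1
    have : finrank ℝ Space = 3 := by simp
    omega
  obtain ⟨c, hc, hc0⟩ := Submodule.exists_mem_ne_zero_of_ne_bot hne
  refine ⟨‖c‖⁻¹ • c, by simp [norm_smul, hc0], ?_, ?_⟩ <;>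
    rw [real_inner_smul_left, Submodule.inner_left_of_mem_orthogonal
      (Submodule.subset_span (by simp)) hc, mul_zero]

/-- An orthonormal frame `(n, e)` of the plane orthogonal to `u`. -/
lemma exists_frame {u n e : Space} (hn : ‖n‖ = 1) (he : ‖e‖ = 1) (hne : ⟪n, e⟫ = 0)
    (hnu : ⟪n, u⟫ = 0) (heu : ⟪e, u⟫ = 0) (hu : ‖u‖ = 1) :
    ∃ Ψ : ℝ × ℝ → ↥(ℝ ∙ u)ᗮ, MeasurePreserving Ψ ∧ Function.Injective Ψ ∧
      ∀ x : Space, (ℝ ∙ u)ᗮ.orthogonalProjectionOnto x = Ψ (⟪x, n⟫, ⟪x, e⟫) := by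
  have hu0 : u ≠ 0 := fun h => by simp [h] at hu
  let n' : ↥(ℝ ∙ u)ᗮ := ⟨n, Submodule.mem_orthogonal_singleton_iff_inner_left.2 hnu⟩
  let e' : ↥(ℝ ∙ u)ᗮ := ⟨e, Submodule.mem_orthogonal_singleton_iff_inner_left.2 heu⟩
  have hv : Orthonormal ℝ ![n', e'] := by
    refine ⟨fun i => ?_, fun i j hij => ?_⟩
    · fin_cases i <;> simp [n', e', Submodule.coe_norm, hn, he]
    · fin_cases i <;> fin_cases j <;> simp [n', e', Submodule.coe_inner, hne] at hij ⊢
      exact (real_inner_comm n e).trans hne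
  have hcard : Fintype.card (Fin 2) = finrank ℝ ↥(ℝ ∙ u)ᗮ := by
    rw [Submodule.finrank_orthogonal_span_singleton (n := 2) hu0]; simp
  let b : OrthonormalBasis (Fin 2) ℝ ↥(ℝ ∙ u)ᗮ :=
    (basisOfOrthonormalOfCardEqFinrank hv hcard).toOrthonormalBasis
      (by rw [coe_basisOfOrthonormalOfCardEqFinrank]; exact hv)
  have hb : ⇑b = ![n', e'] := by
    simp only [b, Basis.coe_toOrthonormalBasis, coe_basisOfOrthonormalOfCardEqFinrank]
  have h1 := b.measurePreserving_repr_symm.comp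
    ((PiLp.volume_preserving_toLp (Fin 2)).comp (volume_preserving_finTwoArrow ℝ).symm)
  refine ⟨_, h1, ?_, fun x => ?_⟩
  · exact b.repr.symm.injective.comp ((WithLp.toLp_injective 2).comp
      (MeasurableEquiv.finTwoArrow (α := ℝ)).symm.injective)
  · refine (b.sum_repr' _).symm.trans (Eq.trans ?_ (b.sum_repr_symm _))
    simp only [Fin.sum_univ_two, hb, Submodule.coe_inner]
    have e1 : ⟪(n' : Space), ((ℝ ∙ u)ᗮ.orthogonalProjectionOnto x : Space)⟫ = ⟪x, n⟫ := by
      rw [← Submodule.coe_inner, Submodule.inner_orthogonalProjectionOnto_eq_of_mem_left,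
        real_inner_comm]
    have e2 : ⟪(e' : Space), ((ℝ ∙ u)ᗮ.orthogonalProjectionOnto x : Space)⟫ = ⟪x, e⟫ := by
      rw [← Submodule.coe_inner, Submodule.inner_orthogonalProjectionOnto_eq_of_mem_left,
        real_inner_comm]
    simp only [Matrix.cons_val_zero, Matrix.cons_val_one, e1, e2]
    rfl

/-- The slice `{⟪x, e⟫ : x ∈ K, ⟪x, n⟫ = t}`. -/
def slice (K : Set Space) (n e : Space) (t : ℝ) : Set ℝ :=
  (fun x => ⟪x, e⟫) '' (K ∩ {x | ⟪x, n⟫ = t})

/-- The length of a slice. -/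
noncomputable def sliceWidth (K : Set Space) (n e : Space) (t : ℝ) : ℝ :=
  sSup (slice K n e t) - sInf (slice K n e t)

variable {K : Set Space} {n e : Space}

lemma slice_compact (hK : IsCompact K) (t : ℝ) : IsCompact (slice K n e t) :=
  (hK.inter_right (isClosed_eq (by fun_prop) continuous_const)).image (by fun_prop)

lemma slice_convex (hc : Convex ℝ K) (t : ℝ) : Convex ℝ (slice K n e t) := by
  rintro _ ⟨x, ⟨hx, hxt⟩, rfl⟩ _ ⟨y, ⟨hy, hyt⟩, rfl⟩ a b ha hb hab
  refine ⟨a • x + b • y, ⟨hc hx hy ha hb hab, ?_⟩, ?_⟩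
  · simp only [Set.mem_ofPred_eq] at hxt hyt ⊢
    rw [inner_add_left, real_inner_smul_left, real_inner_smul_left, hxt, hyt, ← add_mul, hab,
      one_mul]
  · simp only [inner_add_left, real_inner_smul_left, smul_eq_mul]

/-- The first coordinates of points of `K` form a closed interval. -/
lemma range_eq_Icc (hK : IsCompact K) (hc : Convex ℝ K) (hi : (interior K).Nonempty)
    (hn : ‖n‖ = 1) :
    ∃ a b : ℝ, a < b ∧ (fun x => ⟪x, n⟫) '' K = Set.Icc a b := by
  obtain ⟨x, hx⟩ := hi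
  have hcomp : IsCompact ((fun x : Space => ⟪x, n⟫) '' K) := hK.image (by fun_prop)
  have hconn : IsConnected ((fun x : Space => ⟪x, n⟫) '' K) :=
    (hc.isConnected ⟨x, interior_subset hx⟩).image _ (by fun_prop)
  have heq := eq_Icc_of_connected_compact hconn hcomp
  refine ⟨_, _, ?_, heq⟩
  obtain ⟨ε, hε, hball⟩ := Metric.isOpen_iff.1 isOpen_interior x hx
  have hnn : ⟪n, n⟫ = 1 := by rw [real_inner_self_eq_norm_sq, hn, one_pow]
  have hxK : ⟪x + (ε / 2) • n, n⟫ ∈ (fun x : Space => ⟪x, n⟫) '' K := by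
    refine Set.mem_image_of_mem _ (interior_subset (hball ?_))
    rw [Metric.mem_ball, dist_eq_norm, add_sub_cancel_left, norm_smul, hn, mul_one,
      Real.norm_of_nonneg (by positivity)]
    linarith
  have hx' : ⟪x, n⟫ ∈ (fun x : Space => ⟪x, n⟫) '' K :=
    Set.mem_image_of_mem _ (interior_subset hx)
  rw [heq] at hxK hx'
  rw [inner_add_left, real_inner_smul_left, hnn] at hxK
  linarith [hxK.2, hx'.1]

lemma slice_nonempty {a b t : ℝ} (hab : (fun x => ⟪x, n⟫) '' K = Set.Icc a b)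
    (ht : t ∈ Set.Icc a b) : (slice K n e t).Nonempty := by
  rw [← hab] at ht
  obtain ⟨x, hx, hxt⟩ := ht
  exact ⟨_, x, ⟨hx, hxt⟩, rfl⟩

lemma sliceWidth_concave (hK : IsCompact K) (hc : Convex ℝ K) {a b : ℝ}
    (hab : (fun x => ⟪x, n⟫) '' K = Set.Icc a b) :
    ConcaveOn ℝ (Set.Icc a b) (sliceWidth K n e) := by
  refine ⟨convex_Icc a b, fun s hs t ht p q hp hq hpq => ?_⟩
  have hcs := slice_compact (n := n) (e := e) hK s
  have hct := slice_compact (n := n) (e := e) hK t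
  have hmem : ∀ i j : ℝ, i ∈ slice K n e s → j ∈ slice K n e t →
      p * i + q * j ∈ slice K n e (p • s + q • t) := by
    rintro _ _ ⟨x, ⟨hx, hxs⟩, rfl⟩ ⟨y, ⟨hy, hyt⟩, rfl⟩
    refine ⟨p • x + q • y, ⟨hc hx hy hp hq hpq, ?_⟩, ?_⟩
    · simp only [Set.mem_ofPred_eq, inner_add_left, real_inner_smul_left] at hxs hyt ⊢
      rw [hxs, hyt]; rfl
    · simp only [inner_add_left, real_inner_smul_left]
  have hne := slice_nonempty (e := e) hab hs
  have hne' := slice_nonempty (e := e) hab ht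
  have hcu := slice_compact (n := n) (e := e) hK (p • s + q • t)
  have h1 := le_csSup hcu.bddAbove (hmem _ _ (hcs.sSup_mem hne) (hct.sSup_mem hne'))
  have h2 := csInf_le hcu.bddBelow (hmem _ _ (hcs.sInf_mem hne) (hct.sInf_mem hne'))
  simp only [sliceWidth, smul_eq_mul] at h1 h2 ⊢
  nlinarith

lemma sliceWidth_nonneg (hK : IsCompact K) {a b t : ℝ}
    (hab : (fun x => ⟪x, n⟫) '' K = Set.Icc a b) (ht : t ∈ Set.Icc a b) :
    0 ≤ sliceWidth K n e t :=
  sub_nonneg.2 (csInf_le_csSup (slice_nonempty hab ht) (slice_compact hK t).bddBelow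
    (slice_compact hK t).bddAbove)

lemma volume_slice_le (hK : IsCompact K) (t : ℝ) :
    volume (slice K n e t) ≤ ENNReal.ofReal (sliceWidth K n e t) := by
  have h : slice K n e t ⊆ Set.Icc (sInf (slice K n e t)) (sSup (slice K n e t)) :=
    fun s hs => ⟨csInf_le (slice_compact hK t).bddBelow hs,
      le_csSup (slice_compact hK t).bddAbove hs⟩
  exact (measure_mono h).trans_eq Real.volume_Icc

end Vale.Agent.P243
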