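import Vale.Agent.P243.Core

/-!
The needle case: a convex body of diameter one that stays close to its diameter either has a
small section near an end of the diameter, which can be cut off, or has more volume than a third
of the smallest shadow.
-/

namespace Vale.Agent.P243.Thin

open MeasureTheory Set
open scoped Pointwise

/-- The horizontal section at height `c`. -/
def sec (K : Set W) (c : ℝ) : Set R2 := {y | (y, c) ∈ K}

/-- The shear moving the axis `(d, 1)` to the vertical. -/
def shear (d : R2) : W →ₗ[ℝ] W where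
  toFun x := (x.1 - x.2 • d, x.2)
  map_add' x y := by
    refine Prod.ext ?_ rfl
    simp only [Prod.fst_add, Prod.snd_add, add_smul]
    abel
  map_smul' c x := by
    refine Prod.ext ?_ rfl
    simp [smul_sub, smul_smul]

lemma shear_apply (d : R2) (x : W) : shear d x = (x.1 - x.2 • d, x.2) := rfl

lemma isCompact_shear {K : Set W} (hK : IsCompact K) (d : R2) : IsCompact (shear d '' K) :=
  hK.image (show Continuous fun x : W => (x.1 - x.2 • d, x.2) by fun_prop)

lemma fst_shear (K : Set W) (d : R2) : Prod.fst '' (shear d '' K) = oblique K d := by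
  rw [image_image]; rfl

lemma isCompact_sec {K : Set W} (hK : IsCompact K) (c : ℝ) : IsCompact (sec K c) :=
  (hK.image continuous_fst).of_isClosed_subset (hK.isClosed.preimage (by fun_prop))
    fun y hy => ⟨(y, c), hy, rfl⟩

lemma sec_subset (K : Set W) (c : ℝ) : sec K c ⊆ Prod.fst '' K := fun y hy => ⟨(y, c), hy, rfl⟩

lemma volume_shear {K : Set W} (hK : IsCompact K) (d : R2) :
    volume (shear d '' K) = volume K := by
  rw [show (volume : Measure W) = (volume : Measure R2).prod volume from rfl,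
    Measure.prod_apply_symm (isCompact_shear hK d).measurableSet,
    Measure.prod_apply_symm hK.measurableSet]
  refine lintegral_congr fun z => ?_
  have : (fun y => (y, z)) ⁻¹' (shear d '' K) =
      (fun y => y + z • d) ⁻¹' ((fun y => (y, z)) ⁻¹' K) := by
    ext y
    constructor
    · rintro ⟨x, hx, hxy⟩
      simp only [shear_apply, Prod.mk.injEq] at hxy
      obtain ⟨h1, h2⟩ := hxy
      show (y + z • d, z) ∈ K
      rw [← h1, ← h2, sub_add_cancel]
      exact hx
    · intro hy
      exact ⟨(y + z • d, z), hy, by simp [shear_apply]⟩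
  rw [this, measure_preimage_add_right]

lemma slab_le {K : Set W} (hK : IsCompact K) {p q M : ℝ} (hpq : p ≤ q) (hM0 : 0 ≤ M)
    (hM : ∀ z ∈ Icc p q, volume.real (sec K z) ≤ M) :
    volume.real (K ∩ {x | x.2 ∈ Icc p q}) ≤ (q - p) * M := by
  have hm : MeasurableSet (K ∩ {x : W | x.2 ∈ Icc p q}) :=
    hK.measurableSet.inter (measurableSet_Icc.preimage measurable_snd)
  refine ENNReal.toReal_le_of_le_ofReal (mul_nonneg (sub_nonneg.2 hpq) hM0) ?_
  rw [show (volume : Measure W) = (volume : Measure R2).prod volume from rfl,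
    Measure.prod_apply_symm hm]
  calc ∫⁻ z, volume ((fun y => (y, z)) ⁻¹' (K ∩ {x : W | x.2 ∈ Icc p q}))
      ≤ ∫⁻ z, (Icc p q).indicator (fun _ => ENNReal.ofReal M) z := by
        refine lintegral_mono fun z => ?_
        by_cases hz : z ∈ Icc p q
        · rw [indicator_of_mem hz]
          refine (measure_mono (t := sec K z) fun y hy => hy.1).trans ?_
          rw [← ofReal_measureReal (isCompact_sec hK z).measure_lt_top.ne]
          exact ENNReal.ofReal_le_ofReal (hM z hz)
        · rw [indicator_of_notMem hz, nonpos_iff_eq_zero]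
          convert measure_empty (μ := (volume : Measure R2)) using 2
          exact eq_empty_of_forall_notMem fun y hy => hz hy.2
    _ = ENNReal.ofReal ((q - p) * M) := by
        rw [lintegral_indicator measurableSet_Icc, setLIntegral_const, Real.volume_Icc, mul_comm,
          ← ENNReal.ofReal_mul (sub_nonneg.2 hpq)]

lemma integral_parabola' {M b : ℝ} (hb : 0 ≤ b) (c : ℝ) :
    ∫ s in Ioo 0 b, c * (M - s) ^ 2 = c * (M ^ 3 - (M - b) ^ 3) / 3 := by
  rw [← integral_Ioc_eq_integral_Ioo, ← intervalIntegral.integral_of_le hb,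
    intervalIntegral.integral_const_mul,
    intervalIntegral.integral_comp_sub_left (fun x => x ^ 2) M, integral_pow]
  push_cast
  ring

variable {K : Set W} {A : ℝ}

section Body

variable (hK : IsCompact K) (hc : Convex ℝ K) (h0 : ((0, 0) : W) ∈ K) (h1 : ((0, 1) : W) ∈ K)
  (hdiam : ∀ x ∈ K, ∀ q ∈ K, wsq (x - q) ≤ 1)

include h0 h1 hdiam in
lemma snd_mem {x : W} (hx : x ∈ K) : x.2 ∈ Icc (0:ℝ) 1 := by
  have a := hdiam x hx _ h0
  have b := hdiam x hx _ h1
  simp only [wsq, Prod.fst_sub, Prod.snd_sub, sub_zero] at a b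
  have := nsq_nonneg x.1
  constructor <;> nlinarith

include hK hc h0 h1 hdiam in
lemma top_le {c : ℝ} (h : c ∈ Ioo (0:ℝ) 1) :
    volume.real (K ∩ {x | c ≤ x.2}) ≤ (1 - c) * (volume.real (sec K c) / c ^ 2) := by
  refine le_trans (measureReal_mono (s₂ := K ∩ {x | x.2 ∈ Icc c 1})
    (fun x hx => ⟨hx.1, hx.2, (snd_mem h0 h1 hdiam hx.1).2⟩)
    (ne_top_of_le_ne_top hK.measure_lt_top.ne (measure_mono inter_subset_left)))
    (slab_le hK h.2.le (div_nonneg measureReal_nonneg (sq_nonneg c)) fun z hz => ?_)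
  have hz0 : 0 < z := h.1.trans_le hz.1
  have hr : c / z ≤ 1 := (div_le_one hz0).2 hz.1
  have hsub : (c / z) • sec K z ⊆ sec K c := by
    rintro _ ⟨y, hy, rfl⟩
    have := hc hy h0 (div_nonneg h.1.le hz0.le) (sub_nonneg.2 hr) (by ring)
    show ((c / z) • y, c) ∈ K
    simpa [hz0.ne'] using this
  have := measureReal_mono hsub (isCompact_sec hK c).measure_lt_top.ne (μ := volume)
  rw [real_smul_set (div_nonneg h.1.le hz0.le)] at this
  rw [le_div_iff₀ (pow_pos h.1 2)]
  rw [div_pow, div_mul_eq_mul_div, div_le_iff₀ (pow_pos hz0 2)] at this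
  have hz2 : z ^ 2 ≤ 1 := by nlinarith [hz.2]
  nlinarith [mul_le_mul_of_nonneg_left hz2
    (measureReal_nonneg : 0 ≤ volume.real (sec K c))]

include hK hc h0 h1 hdiam in
lemma bottom_le {c : ℝ} (h : c ∈ Ioo (0:ℝ) 1) :
    volume.real (K ∩ {x | x.2 ≤ c}) ≤ c * (volume.real (sec K c) / (1 - c) ^ 2) := by
  refine le_trans (measureReal_mono (s₂ := K ∩ {x | x.2 ∈ Icc 0 c})
    (fun x hx => ⟨hx.1, (snd_mem h0 h1 hdiam hx.1).1, hx.2⟩)
    (ne_top_of_le_ne_top hK.measure_lt_top.ne (measure_mono inter_subset_left)))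
    ((slab_le hK h.1.le (div_nonneg measureReal_nonneg (sq_nonneg _)) fun z hz => ?_).trans_eq
      (by rw [sub_zero]))
  have hz1 : 0 < 1 - z := by linarith [h.2, hz.2]
  have hc1 : 0 < 1 - c := by linarith [h.2]
  have hr : (1 - c) / (1 - z) ≤ 1 := (div_le_one hz1).2 (by linarith [hz.2])
  have hsub : ((1 - c) / (1 - z)) • sec K z ⊆ sec K c := by
    rintro _ ⟨y, hy, rfl⟩
    have h' := hc hy h1 (div_nonneg hc1.le hz1.le) (sub_nonneg.2 hr) (by ring)
    show (((1 - c) / (1 - z)) • y, c) ∈ K
    convert h' using 1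
    refine Prod.ext (by simp) ?_
    simp only [Prod.snd_add, Prod.smul_snd, smul_eq_mul]
    field_simp
    ring
  have := measureReal_mono hsub (isCompact_sec hK c).measure_lt_top.ne (μ := volume)
  rw [real_smul_set (div_nonneg hc1.le hz1.le)] at this
  rw [le_div_iff₀ (pow_pos hc1 2)]
  rw [div_pow, div_mul_eq_mul_div, div_le_iff₀ (pow_pos hz1 2)] at this
  have hz2 : (1 - z) ^ 2 ≤ 1 := by nlinarith [hz.1]
  nlinarith [mul_le_mul_of_nonneg_left hz2
    (measureReal_nonneg : 0 ≤ volume.real (sec K c))]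

include hK hc in
/-- Many long fibres in some direction make the volume large. -/
lemma volume_ge_sheared {d : R2} {O : Set R2} {δ a : ℝ} (hδ' : δ < 1 / 2)
    (ha : a ∈ Ioo (0:ℝ) 1) (hOne : O.Nonempty)
    (hO : ∀ y ∈ O, ∀ σ ∈ Icc δ (1 - δ), ((y, σ) : W) ∈ shear d '' K) :
    (1 - 2 * δ) * (volume.real (oblique K d) * (1 - a ^ 3) / 3 + a * volume.real O) ≤
      volume.real K := by
  set M := 1 - 2 * δ with hMdef
  have hM : 0 < M := by rw [hMdef]; linarith
  set K' := shear d '' K with hK'def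
  have hK' : IsCompact K' := isCompact_shear hK d
  have hc' : Convex ℝ K' := hc.linear_image (shear d)
  set P := volume.real (oblique K d)
  have hP : 0 ≤ P := measureReal_nonneg
  have hfin : ∀ s : ℝ, 0 < s → volume {y | s ≤ fib K' y} ≠ ⊤ := fun s hs =>
    ne_top_of_le_ne_top (hK'.image continuous_fst).measure_lt_top.ne
      (measure_mono (layer_subset hs))
  obtain ⟨c₀, hc₀⟩ := hOne
  have hb : 0 ≤ M * (1 - a) := mul_nonneg hM.le (by linarith [ha.2])
  have hbM : M * (1 - a) ≤ M := mul_le_of_le_one_right hM.le (by linarith [ha.1])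
  have key := volume_ge_two hK' (p := M * (1 - a)) (q := M) hb
    (φ := fun s => P / M ^ 2 * (M - s) ^ 2) (ψ := fun _ => volume.real O) (by fun_prop)
    (by fun_prop)
    (setIntegral_nonneg measurableSet_Ioo fun s _ => by positivity)
    (setIntegral_nonneg measurableSet_Ioo fun s _ => measureReal_nonneg)
    (fun s hs => ?_) (fun s hs => ?_)
  · rw [integral_parabola' hb, setIntegral_const, smul_eq_mul, Measure.real, Real.volume_Ioo,
      ENNReal.toReal_ofReal (by linarith)] at key
    have hV : volume.real K' = volume.real K := by rw [Measure.real, volume_shear hK]; rfl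
    rw [hV] at key
    refine le_trans (le_of_eq ?_) key
    field_simp
    ring
  · have ht1 : s / M ≤ 1 := (div_le_one hM).2 (hs.2.le.trans hbM)
    have ht0 : 0 ≤ s / M := div_nonneg hs.1.le hM.le
    have hsub : (fun y => (s / M) • c₀ + y) '' ((1 - s / M) • (Prod.fst '' K')) ⊆
        {y | s ≤ fib K' y} := by
      rintro _ ⟨_, ⟨_, ⟨k, hk, rfl⟩, rfl⟩, rfl⟩
      refine le_fib hK' (c := (1 - s / M) * k.2 + s / M * δ) hs.1.le fun z hz => ?_
      have hs0 := hs.1
      set σ := (z - (1 - s / M) * k.2) / (s / M) with hσdef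
      have hσ : σ * (s / M) = z - (1 - s / M) * k.2 := by
        rw [hσdef, div_mul_cancel₀ _ (div_pos hs0 hM).ne']
      have hsM : s / M * M = s := div_mul_cancel₀ _ hM.ne'
      have hmem : σ ∈ Icc δ (1 - δ) := by
        constructor
        · refine le_of_mul_le_mul_right ?_ (div_pos hs0 hM)
          rw [hσ]
          linarith [hz.1]
        · refine le_of_mul_le_mul_right ?_ (div_pos hs0 hM)
          rw [hσ]
          rw [show (1 - δ) * (s / M) = s / M * M + s / M * δ by rw [hMdef]; ring, hsM]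
          linarith [hz.2]
      have := hc' hk (hO c₀ hc₀ σ hmem) (sub_nonneg.2 ht1) ht0 (by ring)
      convert this using 1
      refine Prod.ext (by simp [add_comm]) ?_
      simp only [Prod.snd_add, Prod.smul_snd, smul_eq_mul]
      linarith
    refine le_trans (le_of_eq ?_) (measureReal_mono hsub (hfin s hs.1))
    rw [real_translate, real_smul_set (sub_nonneg.2 ht1), hK'def, fst_shear]
    field_simp
    ring
  · refine measureReal_mono (fun y hy => ?_) (hfin s (hb.trans_lt hs.1))
    refine le_fib hK' (c := δ) (hb.trans hs.1.le) fun z hz => hO y hy z ⟨hz.1, ?_⟩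
    rw [hMdef] at hs
    linarith [hz.2, hs.2]

include hK hc h0 h1 hdiam in
/-- Every normalized body contains a convex set of large volume for its diameter. -/
theorem exists_dense_part (hA : 0 < A) (hshadow : ∀ d, A ≤ volume.real (oblique K d)) :
    ∃ G ⊆ K, ∃ l : ℝ, 0 < l ∧ IsCompact G ∧ Convex ℝ G ∧
      (∀ x ∈ G, ∀ q ∈ G, wsq (x - q) ≤ l ^ 2) ∧
      (1 + ((1:ℝ) / 10 ^ 13) ^ 2 / 8) * A / 3 * l ≤ volume.real G := by
  by_cases hbig : (1 + (1:ℝ) / 10 ^ 5) * A / 3 ≤ volume.real K
  · exact ⟨K, subset_rfl, 1, one_pos, hK, hc, fun x hx q hq => by simpa using hdiam x hx q hq,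
      le_trans (by norm_num; linarith) hbig⟩
  push Not at hbig
  set P := Prod.fst '' K with hPdef
  have hPA : A ≤ volume.real P := by
    have := hshadow 0
    rwa [oblique_zero] at this
  by_cases hfar : ∃ far ∈ P, ((1:ℝ) / 10000) ^ 2 ≤ nsq far
  · obtain ⟨far, hf, hlong⟩ := hfar
    obtain ⟨G, hGK, hG, hGc, hGd, hGv⟩ := thick hK hc h0 h1 hdiam hf hlong
    refine ⟨G, hGK, _, by norm_num, hG, hGc, hGd, le_trans ?_ hGv⟩
    norm_num
    nlinarith
  push Not at hfar
  have hP : IsCompact P := hK.image continuous_fst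
  have hPc : Convex ℝ P := hc.linear_image (LinearMap.fst ℝ R2 ℝ)
  have hV := shadow_le_volume hK hc h0 h1
  set δ : ℝ := 1 / 10 ^ 6 with hδ
  set l : ℝ := 1 - 97 / 100 * δ with hl
  have hdist : ∀ x ∈ K, ∀ q ∈ K, (x.2 - q.2) ^ 2 ≤ (1 - δ) ^ 2 → wsq (x - q) ≤ l ^ 2 := by
    intro x hx q hq h
    have := nsq_sub_le x.1 q.1
    have := hfar _ ⟨x, hx, rfl⟩
    have := hfar _ ⟨q, hq, rfl⟩
    simp only [wsq, Prod.fst_sub, Prod.snd_sub]
    norm_num [hl, hδ] at *
    linarith
  have hcut : ∀ {H : Set W}, volume.real (K \ H) ≤ δ / (1 - δ) ^ 2 * (volume.real P / 4) →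
      MeasurableSet H →
      (1 + ((1:ℝ) / 10 ^ 13) ^ 2 / 8) * A / 3 * l ≤ volume.real (K ∩ H) := by
    intro H hH hHm
    have hsplit := measureReal_inter_add_sdiff (μ := volume) (s := K) hHm hK.measure_lt_top.ne
    norm_num [hl, hδ] at *
    linarith
  by_cases hQ1 : volume.real (sec K (1 - δ)) ≤ volume.real P / 4
  · refine ⟨K ∩ {x | x.2 ≤ 1 - δ}, inter_subset_left, l, by norm_num [hl, hδ],
      hK.inter_right (isClosed_le continuous_snd continuous_const),
      hc.inter (convex_halfSpace_le (LinearMap.snd ℝ R2 ℝ).isLinear _), fun x hx q hq => ?_,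
      hcut ?_ (measurableSet_le measurable_snd measurable_const)⟩
    · have h3 := snd_mem h0 h1 hdiam hx.1
      have h4 := snd_mem h0 h1 hdiam hq.1
      refine hdist x hx.1 q hq.1 ?_
      have h5 : x.2 ≤ 1 - δ := hx.2
      have h6 : q.2 ≤ 1 - δ := hq.2
      apply sq_le_sq'
      · linarith [h3.1]
      · linarith [h4.1]
    · refine (measureReal_mono (s₂ := K ∩ {x | 1 - δ ≤ x.2})
        (fun x hx => ⟨hx.1, le_of_not_ge fun (h : x.2 ≤ 1 - δ) => hx.2 h⟩)
        (ne_top_of_le_ne_top hK.measure_lt_top.ne (measure_mono inter_subset_left))).trans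
        ((top_le hK hc h0 h1 hdiam ⟨by norm_num [hδ], by norm_num [hδ]⟩).trans ?_)
      rw [sub_sub_cancel]
      calc δ * (volume.real (sec K (1 - δ)) / (1 - δ) ^ 2)
          ≤ δ * (volume.real P / 4 / (1 - δ) ^ 2) := mul_le_mul_of_nonneg_left
            (div_le_div_of_nonneg_right hQ1 (sq_nonneg _)) (by norm_num [hδ])
        _ = _ := by ring
  by_cases hQ0 : volume.real (sec K δ) ≤ volume.real P / 4
  · refine ⟨K ∩ {x | δ ≤ x.2}, inter_subset_left, l, by norm_num [hl, hδ],
      hK.inter_right (isClosed_le continuous_const continuous_snd),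
      hc.inter (convex_halfSpace_ge (LinearMap.snd ℝ R2 ℝ).isLinear _), fun x hx q hq => ?_,
      hcut ?_ (measurableSet_le measurable_const measurable_snd)⟩
    · have h3 := snd_mem h0 h1 hdiam hx.1
      have h4 := snd_mem h0 h1 hdiam hq.1
      refine hdist x hx.1 q hq.1 ?_
      have h5 : δ ≤ x.2 := hx.2
      have h6 : δ ≤ q.2 := hq.2
      apply sq_le_sq'
      · linarith [h4.2]
      · linarith [h3.2]
    · refine (measureReal_mono (s₂ := K ∩ {x | x.2 ≤ δ})
        (fun x hx => ⟨hx.1, le_of_not_ge fun (h : δ ≤ x.2) => hx.2 h⟩)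
        (ne_top_of_le_ne_top hK.measure_lt_top.ne (measure_mono inter_subset_left))).trans
        ((bottom_le hK hc h0 h1 hdiam ⟨by norm_num [hδ], by norm_num [hδ]⟩).trans ?_)
      calc δ * (volume.real (sec K δ) / (1 - δ) ^ 2)
          ≤ δ * (volume.real P / 4 / (1 - δ) ^ 2) := mul_le_mul_of_nonneg_left
            (div_le_div_of_nonneg_right hQ0 (sq_nonneg _)) (by norm_num [hδ])
        _ = _ := by ring
  push Not at hQ0 hQ1
  exfalso
  obtain ⟨w, hw⟩ := exists_overlap hP hPc (hA.trans_le hPA) (isCompact_sec hK δ)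
    (isCompact_sec hK (1 - δ)) (sec_subset K _) (sec_subset K _)
    (θ := 1 / 4) (by norm_num) (by linarith) (by linarith)
  set M := 1 - 2 * δ with hM
  have hMpos : 0 < M := by norm_num [hM, hδ]
  set d : R2 := (-1 / M) • w with hd
  set O := sec K δ ∩ (fun y => w + y) '' sec K (1 - δ) with hO
  set O' := (fun y => (-δ) • d + y) '' O with hO'
  have hOpos : 0 < volume.real O := lt_of_lt_of_le (by nlinarith) hw
  have hmem : ∀ y ∈ O', ∀ σ ∈ Icc δ (1 - δ), ((y, σ) : W) ∈ shear d '' K := by
    rintro _ ⟨y, ⟨hy0, q, hq, hqy⟩, rfl⟩ σ hσ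
    subst hqy
    have hconv := hc.linear_image (shear d)
    have e0 : shear d (w + q, δ) = ((-δ) • d + (w + q), δ) := by
      rw [shear_apply]; refine Prod.ext ?_ rfl; simp only [neg_smul]; abel
    have e1 : shear d (q, 1 - δ) = ((-δ) • d + (w + q), 1 - δ) := by
      rw [shear_apply]
      refine Prod.ext ?_ rfl
      have hw' : w = -(M • d) := by
        rw [hd, smul_smul, mul_div_cancel₀ _ hMpos.ne', neg_one_smul, neg_neg]
      show q - (1 - δ) • d = (-δ) • d + (w + q)
      rw [hw', hM]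
      module
    have p0 : (((-δ) • d + (w + q), δ) : W) ∈ shear d '' K := ⟨_, hy0, e0⟩
    have p1 : (((-δ) • d + (w + q), 1 - δ) : W) ∈ shear d '' K := ⟨_, hq, e1⟩
    have ht : (σ - δ) / M ∈ Icc (0:ℝ) 1 :=
      ⟨div_nonneg (by linarith [hσ.1]) hMpos.le, (div_le_one hMpos).2 (by linarith [hσ.2, hM])⟩
    have := hconv p0 p1 (sub_nonneg.2 ht.2) ht.1 (by ring)
    convert this using 1
    refine Prod.ext ?_ ?_
    · simp only [Prod.fst_add, Prod.smul_fst, ← add_smul, sub_add_cancel, one_smul]
    · simp only [Prod.snd_add, Prod.smul_snd, smul_eq_mul]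
      field_simp
      rw [hM]
      ring
  have hne : O'.Nonempty := (nonempty_of_measureReal_ne_zero hOpos.ne').image _
  have key := volume_ge_sheared hK hc (d := d) (O := O') (δ := δ) (a := 1 / 32)
    (by norm_num [hδ]) (by constructor <;> norm_num) hne hmem
  rw [show volume.real O' = volume.real O from real_translate _ _] at key
  have := hshadow d
  norm_num [hδ] at *
  linarith

end Body

end Vale.Agent.P243.Thin
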