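import Vale.Agent.P243.Bridge
import Vale.Agent.P243.Needle

/-!
A bound above one third for all coverings: the normalized inequality transported to space.
-/

namespace Vale.Agent.P243

open MeasureTheory Set Module
open scoped RealInnerProductSpace NNReal

/-- Coordinates with respect to the frame `(n, e, u)`. -/
noncomputable def frameMap (n e u : Point) (x : Thin.W) : Point :=
  x.1.1 • n + x.1.2 • e + x.2 • u

lemma continuous_frameMap (n e u : Point) : Continuous (frameMap n e u) := by
  unfold frameMap; fun_prop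

variable {n e u : Point}

/-- Orthonormality of a frame. -/
def IsFrame (n e u : Point) : Prop :=
  ‖n‖ = 1 ∧ ‖e‖ = 1 ∧ ‖u‖ = 1 ∧ ⟪n, e⟫ = 0 ∧ ⟪n, u⟫ = 0 ∧ ⟪e, u⟫ = 0

lemma exists_isFrame (hu : ‖u‖ = 1) : ∃ n e : Point, IsFrame n e u := by
  obtain ⟨n, hn, hnu, -⟩ := exists_third u u
  obtain ⟨e, he, hen, heu⟩ := exists_third n u
  exact ⟨n, e, hn, he, hu, (real_inner_comm e n).trans hen, hnu, heu⟩

lemma IsFrame.orthonormal (h : IsFrame n e u) : Orthonormal ℝ ![n, e, u] := by
  obtain ⟨hn, he, hu, hne, hnu, heu⟩ := h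
  refine ⟨fun i => ?_, fun i j hij => ?_⟩
  · fin_cases i <;> simp [hn, he, hu]
  · fin_cases i <;> fin_cases j <;> simp at hij ⊢ <;>
      first | assumption | (rw [real_inner_comm]; assumption)

lemma IsFrame.exists_basis (h : IsFrame n e u) :
    ∃ b : OrthonormalBasis (Fin 3) ℝ Point, ⇑b = ![n, e, u] := by
  have hcard : Fintype.card (Fin 3) = finrank ℝ Point := by simp
  refine ⟨(basisOfOrthonormalOfCardEqFinrank h.orthonormal hcard).toOrthonormalBasis
      (by rw [coe_basisOfOrthonormalOfCardEqFinrank]; exact h.orthonormal), ?_⟩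
  simp only [Basis.coe_toOrthonormalBasis, coe_basisOfOrthonormalOfCardEqFinrank]

lemma IsFrame.measurePreserving (h : IsFrame n e u) :
    MeasurePreserving (frameMap n e u) := by
  obtain ⟨b, hb⟩ := h.exists_basis
  have h1 := b.measurePreserving_repr_symm.comp ((PiLp.volume_preserving_toLp (Fin 3)).comp
    (((volume_preserving_piFinSuccAbove (fun _ : Fin 3 => ℝ) 2).symm _).comp
      (((MeasurePreserving.id volume).prod (volume_preserving_finTwoArrow ℝ).symm).comp
        Measure.measurePreserving_swap)))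
  have hfun : frameMap n e u = b.repr.symm ∘ WithLp.toLp 2 ∘
      (MeasurableEquiv.piFinSuccAbove (fun _ => ℝ) 2).symm ∘
        Prod.map id MeasurableEquiv.finTwoArrow.symm ∘ Prod.swap := by
    funext x
    refine Eq.trans ?_ (b.sum_repr_symm _)
    simp [frameMap, Fin.sum_univ_three, hb, Fin.insertNth, Fin.succAboveCases]
  rw [hfun]
  exact h1

lemma IsFrame.proj_frameMap (h : IsFrame n e u) (x : Thin.W) :
    ⟪frameMap n e u x, n⟫ = x.1.1 ∧ ⟪frameMap n e u x, e⟫ = x.1.2 ∧
      ⟪frameMap n e u x, u⟫ = x.2 := by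
  obtain ⟨hn, he, hu, hne, hnu, heu⟩ := h
  have hn' : ⟪n, n⟫ = 1 := by rw [real_inner_self_eq_norm_sq, hn, one_pow]
  have he' : ⟪e, e⟫ = 1 := by rw [real_inner_self_eq_norm_sq, he, one_pow]
  have hu' : ⟪u, u⟫ = 1 := by rw [real_inner_self_eq_norm_sq, hu, one_pow]
  have hen : ⟪e, n⟫ = 0 := (real_inner_comm n e).trans hne
  have hun : ⟪u, n⟫ = 0 := (real_inner_comm n u).trans hnu
  have hue : ⟪u, e⟫ = 0 := (real_inner_comm e u).trans heu
  simp [frameMap, inner_add_left, real_inner_smul_left, *]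

lemma IsFrame.norm_sq (h : IsFrame n e u) (x : Thin.W) :
    ‖frameMap n e u x‖ ^ 2 = Thin.wsq x := by
  obtain ⟨h1, h2, h3⟩ := h.proj_frameMap x
  rw [← real_inner_self_eq_norm_sq]
  conv_lhs => arg 2; unfold frameMap
  rw [real_inner_comm] at h1 h2 h3
  simp only [inner_add_left, real_inner_smul_left, h1, h2, h3, Thin.wsq, Thin.nsq]
  ring

lemma IsFrame.inverse (h : IsFrame n e u) (p : Point) :
    frameMap n e u ((⟪p, n⟫, ⟪p, e⟫), ⟪p, u⟫) = p := by
  obtain ⟨b, hb⟩ := h.exists_basis
  conv_rhs => rw [← b.sum_repr' p]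
  simp [frameMap, Fin.sum_univ_three, hb, real_inner_comm p]

lemma frameMap_sub (n e u : Point) (x y : Thin.W) :
    frameMap n e u (x - y) = frameMap n e u x - frameMap n e u y := by
  simp only [frameMap, Prod.fst_sub, Prod.snd_sub, sub_smul]
  abel

/-- A subset of a covering of diameter at most `l` has volume at most `l` times the base sum. -/
lemma volume_le_bases {m : ℕ} {v : Fin m → Point} {B : Fin m → Set Point}
    (hv : ∀ i, ‖v i‖ = 1) (hB : ∀ i, MeasurableSet (B i)) {G : Set Point} (hG : IsCompact G)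
    {l : ℝ} (hdiam : ∀ p ∈ G, ∀ q ∈ G, dist p q ≤ l) (hcov : G ⊆ ⋃ i, cyl (v i) (B i)) :
    volume G ≤ ENNReal.ofReal l * ∑ i, area (v i) (B i) := by
  have hone : ∀ i, volume (G ∩ cyl (v i) (B i)) ≤ ENNReal.ofReal l * area (v i) (B i) := by
    intro i
    obtain ⟨n, e, h⟩ := exists_isFrame (hv i)
    have h' := h
    obtain ⟨hn, he, hu, hne, hnu, heu⟩ := h'
    obtain ⟨Ψ, hΨ, -, hproj⟩ := exists_frame hn he hne hnu heu hu
    have hBm : MeasurableSet (Subtype.val ⁻¹' B i : Set ↥(ℝ ∙ v i)ᗮ) :=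
      (hB i).preimage measurable_subtype_coe
    have hpm : Measurable (proj (v i)) :=
      ((plane (v i)).starProjection).continuous.measurable
    have hS : MeasurableSet (G ∩ cyl (v i) (B i)) := hG.measurableSet.inter (hpm (hB i))
    rw [area_eq (hv i), ← hΨ.measure_preimage hBm.nullMeasurableSet,
      ← h.measurePreserving.measure_preimage hS.nullMeasurableSet,
      show (volume : Measure Thin.W) = (volume : Measure (ℝ × ℝ)).prod volume from rfl,
      Measure.prod_apply (h.measurePreserving.measurable hS)]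
    refine (lintegral_mono (g := (Ψ ⁻¹' (Subtype.val ⁻¹' B i)).indicator
      fun _ => ENNReal.ofReal l) fun y => ?_).trans_eq
      (by rw [lintegral_indicator (hΨ.measurable hBm), setLIntegral_const])
    by_cases hy : y ∈ Ψ ⁻¹' (Subtype.val ⁻¹' B i)
    · rw [indicator_of_mem hy]
      refine (Real.volume_le_diam _).trans (Metric.ediam_le fun z hz z' hz' => ?_)
      rw [edist_dist]
      refine ENNReal.ofReal_le_ofReal ?_
      have hd := hdiam _ hz.1 _ hz'.1
      rw [dist_eq_norm, ← frameMap_sub] at hd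
      have hs := h.norm_sq ((y, z) - (y, z'))
      simp [Thin.wsq, Thin.nsq] at hs
      rw [Real.dist_eq]
      calc |z - z'| = √((z - z') ^ 2) := (Real.sqrt_sq_eq_abs _).symm
        _ = _ := by rw [← hs, Real.sqrt_sq (norm_nonneg _)]
        _ ≤ l := by simpa using hd
    · rw [indicator_of_notMem hy, nonpos_iff_eq_zero]
      convert measure_empty (μ := (volume : Measure ℝ)) using 2
      refine eq_empty_of_forall_notMem fun z hz => hy ?_
      obtain ⟨h1, h2, -⟩ := h.proj_frameMap (y, z)
      have hm : proj (v i) (frameMap n e (v i) (y, z)) ∈ B i := hz.2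
      have : proj (v i) (frameMap n e (v i) (y, z)) =
          ((ℝ ∙ v i)ᗮ.orthogonalProjectionOnto (frameMap n e (v i) (y, z)) : Point) := rfl
      rw [this, hproj, h1, h2] at hm
      exact hm
  calc volume G = volume (⋃ i, G ∩ cyl (v i) (B i)) := by
        rw [← inter_iUnion, inter_eq_left.2 hcov]
    _ ≤ ∑ i, volume (G ∩ cyl (v i) (B i)) := measure_iUnion_fintype_le _ _
    _ ≤ _ := by
        rw [Finset.mul_sum]
        exact Finset.sum_le_sum fun i _ => hone i

/-- An affine copy of coordinates: origin `a`, scale `D`. -/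
noncomputable def chart (n e u a : Point) (D : ℝ) (x : Thin.W) : Point :=
  a + D • frameMap n e u x

lemma volume_chart_image (h : IsFrame n e u) (a : Point) {D : ℝ} (hD : 0 ≤ D) {G : Set Thin.W}
    (hG : IsCompact G) :
    volume (chart n e u a D '' G) = ENNReal.ofReal (D ^ 3) * volume G := by
  have hc : MeasurableSet (frameMap n e u '' G) :=
    (hG.image (continuous_frameMap n e u)).measurableSet
  have hinj : Function.Injective (frameMap n e u) := fun x y hxy => by
    obtain ⟨a1, a2, a3⟩ := h.proj_frameMap x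
    obtain ⟨b1, b2, b3⟩ := h.proj_frameMap y
    exact Prod.ext (Prod.ext (by rw [← a1, hxy, b1]) (by rw [← a2, hxy, b2]))
      (by rw [← a3, hxy, b3])
  have e1 : chart n e u a D '' G =
      (fun p => a + p) '' ((fun p => D • p) '' (frameMap n e u '' G)) := by
    rw [image_image, image_image]; rfl
  rw [e1, image_add_left, measure_preimage_add, image_smul,
    Measure.addHaar_smul_of_nonneg volume hD, show finrank ℝ Point = 3 by simp,
    ← h.measurePreserving.measure_preimage hc.nullMeasurableSet, hinj.preimage_image]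

/-- A shadow is no larger than the oblique section of the same direction. -/
lemma Amin_le_oblique (h : IsFrame n e u) (a : Point) {D : ℝ} (hD : 0 ≤ D) {K : Set Point}
    {K' : Set Thin.W} (hK' : IsCompact K') (hK : K ⊆ chart n e u a D '' K') (d : Thin.R2) :
    Amin K ≤ ENNReal.ofReal (D ^ 2) * volume (Thin.oblique K' d) := by
  obtain ⟨hn, he, hu, hne, hnu, heu⟩ := id h
  obtain ⟨Ψ, hΨ, hinj, hproj⟩ := exists_frame hn he hne hnu heu hu
  set w : Point := frameMap n e u (d, 1) with hw
  have hw0 : w ≠ 0 := fun h0 => by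
    have := (h.proj_frameMap (d, 1)).2.2
    rw [← hw, h0, inner_zero_left] at this
    exact zero_ne_one this
  set v : Point := ‖w‖⁻¹ • w
  have hv : ‖v‖ = 1 := by simp [v, norm_smul, hw0]
  refine (iInf_le _ ⟨v, hv⟩).trans ?_
  set O := Thin.oblique K' d
  have hO : IsCompact O := hK'.image (by fun_prop)
  set S : Set Point := {p | p ∈ plane u ∧ ((⟪p, n⟫, ⟪p, e⟫) : Thin.R2) ∈ O}
  set f : Point → Point := fun p => proj v (a + D • p)
  have hsub : proj v '' K ⊆ f '' S := by
    rintro _ ⟨x, hx, rfl⟩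
    obtain ⟨⟨y, z⟩, hyz, rfl⟩ := hK hx
    set q : Thin.R2 := y - z • d with hq
    obtain ⟨h1, h2, h3⟩ := h.proj_frameMap (q, 0)
    refine ⟨frameMap n e u (q, 0),
      ⟨Submodule.mem_orthogonal_singleton_iff_inner_left.2 h3, ?_⟩, ?_⟩
    · rw [h1, h2]
      exact ⟨(y, z), hyz, rfl⟩
    · have hdiff : chart n e u a D (y, z) = a + D • frameMap n e u (q, 0) + (D * z * ‖w‖) • v := by
        simp only [v, smul_smul, chart, hw]
        rw [mul_assoc, mul_inv_cancel₀ (norm_ne_zero_iff.2 hw0), mul_one]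
        simp only [frameMap, hq, Prod.fst_sub, Prod.snd_sub, Prod.smul_fst, Prod.smul_snd,
          smul_eq_mul]
        module
      have hz : proj v v = 0 :=
        Submodule.starProjection_orthogonal_apply_eq_zero (Submodule.mem_span_singleton_self v)
      show proj v _ = proj v _
      rw [hdiff, proj, proj]
      simp only [map_add, map_smul, show (plane v).starProjection v = 0 from hz, smul_zero,
        add_zero]
  have hLip : LipschitzWith D.toNNReal f := LipschitzWith.of_dist_le_mul fun p q => by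
    simp only [f, proj, dist_eq_norm, ← map_sub, add_sub_add_left_eq_sub, ← smul_sub]
    refine ((plane v).norm_starProjection_apply_le _).trans ?_
    rw [norm_smul, Real.norm_of_nonneg hD, Real.coe_toNNReal D hD]
  have hS : μHE[2] S = volume O := by
    have hSm : MeasurableSet S :=
      ((plane u).closed_of_finiteDimensional.inter
        (hO.isClosed.preimage (by fun_prop))).measurableSet
    have : S = S ∩ {p | p ∈ plane u} := (inter_eq_left.2 fun p hp => hp.1).symm
    rw [this, ← area, area_eq hu, ← hΨ.measure_preimage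
      (hSm.preimage measurable_subtype_coe).nullMeasurableSet]
    congr 1
    ext q
    have hq : ((⟪(Ψ q : Point), n⟫, ⟪(Ψ q : Point), e⟫) : Thin.R2) = q := hinj
      ((hproj _).symm.trans
        (Submodule.orthogonalProjectionOnto_mem_subspace_eq_self (Ψ q)))
    constructor
    · intro hp
      exact hq ▸ hp.2
    · exact fun hp => ⟨(Ψ q).2, hq.symm ▸ hp⟩
  calc area v (proj v '' K) ≤ μHE[2] (f '' S) :=
        measure_mono (inter_subset_left.trans hsub)
    _ ≤ ENNReal.ofReal (D ^ 2) * μHE[2] S := by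
        simp only [Measure.euclideanHausdorffMeasure_def, Measure.smul_apply, ENNReal.smul_def,
          smul_eq_mul]
        rw [mul_left_comm]
        refine mul_le_mul_right ((hLip.hausdorffMeasure_image_le (by norm_num) S).trans_eq ?_) _
        rw [ENNReal.ofReal_pow hD, Nat.cast_ofNat, ENNReal.rpow_two]
        rfl
    _ = _ := by rw [hS]

theorem above_third {K : Set Point} {m : ℕ} {v : Fin m → Point} {B : Fin m → Set Point}
    (hcovering : IsCovering K m v B) :
    ENNReal.ofReal (1 / 3 + 1 / 10 ^ 28) * Amin K ≤ ∑ i, area (v i) (B i) := by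
  obtain ⟨hK, hc, hi, hv, hB, hcov⟩ := hcovering
  obtain ⟨x₀, hx₀⟩ := hi
  have hne : K.Nonempty := ⟨x₀, interior_subset hx₀⟩
  obtain ⟨⟨a, b⟩, ⟨ha, hb⟩, hmax⟩ := (hK.prod hK).exists_isMaxOn (hne.prod hne)
    (f := fun p : Point × Point => dist p.1 p.2) (by fun_prop)
  have hmax' : ∀ p ∈ K, ∀ q ∈ K, dist p q ≤ dist a b :=
    fun p hp q hq => hmax (a := (p, q)) ⟨hp, hq⟩
  have hD : 0 < dist a b := by
    refine dist_pos.2 fun hab => ?_
    have hsub : K ⊆ {a} := fun p hp => by
      have := hmax' p hp a ha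
      rw [hab, dist_self] at this
      exact mem_singleton_iff.2 ((dist_le_zero.1 this).trans hab.symm |>.trans rfl)
    have := interior_mono hsub hx₀
    rwa [interior_singleton] at this
  set D := dist a b with hDdef
  set u : Point := D⁻¹ • (b - a) with hu'
  have hu : ‖u‖ = 1 := by
    rw [hu', norm_smul, ← dist_eq_norm, dist_comm, ← hDdef, Real.norm_of_nonneg (by positivity),
      inv_mul_cancel₀ hD.ne']
  obtain ⟨n, e, h⟩ := exists_isFrame hu
  set Φ := chart n e u a D with hΦ
  set K' : Set Thin.W := Φ ⁻¹' K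
  have hKsub : K ⊆ Φ '' K' := fun p hp => by
    have hp' : Φ ((⟪D⁻¹ • (p - a), n⟫, ⟪D⁻¹ • (p - a), e⟫), ⟪D⁻¹ • (p - a), u⟫) = p := by
      rw [hΦ, chart, h.inverse, smul_smul, mul_inv_cancel₀ hD.ne', one_smul, add_sub_cancel]
    exact ⟨_, by rw [mem_preimage, hp']; exact hp, hp'⟩
  have hdist : ∀ x y : Thin.W, dist (Φ x) (Φ y) ^ 2 = D ^ 2 * Thin.wsq (x - y) := fun x y => by
    simp only [hΦ, chart, dist_add_left]
    rw [dist_eq_norm, ← smul_sub, norm_smul, Real.norm_of_nonneg hD.le, mul_pow, ← frameMap_sub,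
      h.norm_sq]
  have h0 : ((0, 0) : Thin.W) ∈ K' := by
    show Φ (0, 0) ∈ K
    simpa [hΦ, chart, frameMap] using ha
  have h1 : ((0, 1) : Thin.W) ∈ K' := by
    show Φ (0, 1) ∈ K
    simpa [hΦ, chart, frameMap, hu', smul_smul, mul_inv_cancel₀ hD.ne'] using hb
  have hdiam : ∀ x ∈ K', ∀ y ∈ K', Thin.wsq (x - y) ≤ 1 := fun x hx y hy => by
    have := pow_le_pow_left₀ dist_nonneg (hmax' _ hx _ hy) 2
    rw [hdist] at this
    exact le_of_mul_le_mul_left (by rwa [mul_one]) (pow_pos hD 2)
  have hΦc : Continuous Φ := by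
    rw [hΦ]; unfold chart frameMap; fun_prop
  have hbound : K' ⊆ (Icc (-1 : ℝ) 1 ×ˢ Icc (-1 : ℝ) 1) ×ˢ Icc (-1 : ℝ) 1 := fun x hx => by
    have := hdiam x hx _ h0
    simp only [Thin.wsq, Thin.nsq, Prod.mk_zero_zero, sub_zero] at this
    refine ⟨⟨⟨?_, ?_⟩, ⟨?_, ?_⟩⟩, ⟨?_, ?_⟩⟩ <;> nlinarith
  have hK' : IsCompact K' := ((isCompact_Icc.prod isCompact_Icc).prod isCompact_Icc).of_isClosed_subset
    (hK.isClosed.preimage hΦc) hbound
  have hc' : Convex ℝ K' := fun x hx y hy p q hp hq hpq => by
    show Φ _ ∈ K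
    have := hc hx hy hp hq hpq
    convert this using 1
    simp only [hΦ, chart, frameMap, Prod.fst_add, Prod.snd_add, Prod.smul_fst, Prod.smul_snd,
      smul_eq_mul]
    conv_lhs => rw [← one_smul ℝ a, ← hpq]
    module
  have hfin : Amin K ≠ ⊤ := ne_top_of_le_ne_top (ENNReal.mul_ne_top ENNReal.ofReal_ne_top
    (hK'.image (f := fun x : Thin.W => x.1 - x.2 • (0 : Thin.R2)) (by fun_prop)).measure_lt_top.ne)
    (Amin_le_oblique h a hD.le hK' hKsub 0)
  rcases eq_or_ne (Amin K) 0 with hz | hz
  · simp [hz]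
  set A := (Amin K).toReal / D ^ 2
  have hA : 0 < A := div_pos (ENNReal.toReal_pos hz hfin) (pow_pos hD 2)
  have hshadow : ∀ d, A ≤ volume.real (Thin.oblique K' d) := fun d => by
    have hO : volume (Thin.oblique K' d) ≠ ⊤ :=
      (hK'.image (f := fun x : Thin.W => x.1 - x.2 • d) (by fun_prop)).measure_lt_top.ne
    have := ENNReal.toReal_mono (ENNReal.mul_ne_top ENNReal.ofReal_ne_top hO)
      (Amin_le_oblique h a hD.le hK' hKsub d)
    rw [ENNReal.toReal_mul, ENNReal.toReal_ofReal (by positivity)] at this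
    rw [div_le_iff₀ (pow_pos hD 2), mul_comm]
    exact this
  obtain ⟨G, hGK, l, hl, hG, -, hGd, hGv⟩ :=
    Thin.exists_dense_part hK' hc' h0 h1 hdiam hA hshadow
  have hkey := volume_le_bases hv hB (hG.image hΦc) (l := D * l)
    (fun p hp q hq => by
      obtain ⟨x, hx, rfl⟩ := hp
      obtain ⟨y, hy, rfl⟩ := hq
      refine (pow_le_pow_iff_left₀ dist_nonneg (by positivity) two_ne_zero).1 ?_
      rw [hdist, mul_pow]
      exact mul_le_mul_of_nonneg_left (hGd x hx y hy) (sq_nonneg D))
    ((image_mono hGK).trans ((image_preimage_subset Φ K).trans hcov))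
  rw [hΦ, volume_chart_image h a hD.le hG] at hkey
  rcases eq_or_ne (∑ i, area (v i) (B i)) ⊤ with htop | htop
  · simp [htop]
  have hkey' := ENNReal.toReal_mono (ENNReal.mul_ne_top ENNReal.ofReal_ne_top htop) hkey
  rw [ENNReal.toReal_mul, ENNReal.toReal_mul, ENNReal.toReal_ofReal (by positivity),
    ENNReal.toReal_ofReal (by positivity)] at hkey'
  rw [← ENNReal.toReal_le_toReal (ENNReal.mul_ne_top ENNReal.ofReal_ne_top hfin) htop,
    ENNReal.toReal_mul, ENNReal.toReal_ofReal (by positivity)]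
  have hV : volume.real G = (volume G).toReal := rfl
  rw [hV] at hGv
  have h2 : D ^ 3 * ((1 + ((1:ℝ) / 10 ^ 13) ^ 2 / 8) * A / 3 * l) ≤
      D * l * (∑ i, area (v i) (B i)).toReal :=
    le_trans (mul_le_mul_of_nonneg_left hGv (by positivity)) hkey'
  have h3 : (1 + ((1:ℝ) / 10 ^ 13) ^ 2 / 8) * (Amin K).toReal / 3 ≤
      (∑ i, area (v i) (B i)).toReal := by
    refine le_of_mul_le_mul_left (le_trans (le_of_eq ?_) h2) (mul_pos hD hl)
    simp only [A]
    field_simp
  refine le_trans ?_ h3
  have hAm : 0 ≤ (Amin K).toReal := ENNReal.toReal_nonneg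
  norm_num
  nlinarith

end Vale.Agent.P243
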