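import Mathlib.MeasureTheory.Measure.Lebesgue.EqHaar
import Mathlib.MeasureTheory.Integral.Layercake
import Mathlib.MeasureTheory.Measure.Haar.Unique
import Mathlib.Analysis.Convex.Basic

/-!
Planar convex sets: slices near a point are small, and difference sets are not large.
-/

namespace Vale.Agent.P243.Thin

open MeasureTheory Set
open scoped Pointwise

/-- The plane. -/
abbrev R2 : Type := ℝ × ℝ

instance : (volume : Measure R2).IsAddHaarMeasure := Measure.prod.instIsAddHaarMeasure _ _

/-- Squared Euclidean norm on the plane. -/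
def nsq (y : R2) : ℝ := y.1 ^ 2 + y.2 ^ 2

lemma nsq_nonneg (y : R2) : 0 ≤ nsq y := by unfold nsq; positivity

lemma continuous_nsq : Continuous nsq := by unfold nsq; fun_prop

lemma nsq_smul (c : ℝ) (y : R2) : nsq (c • y) = c ^ 2 * nsq y := by
  simp [nsq]; ring

lemma nsq_sub_le (x y : R2) : nsq (x - y) ≤ 2 * nsq x + 2 * nsq y := by
  simp only [nsq, Prod.fst_sub, Prod.snd_sub]
  nlinarith [sq_nonneg (x.1 + y.1), sq_nonneg (x.2 + y.2)]

lemma convex_nsq_lt (r : ℝ) : Convex ℝ {y : R2 | nsq y < r} := by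
  intro x hx y hy a b ha hb hab
  simp only [mem_ofPred_eq, nsq, Prod.fst_add, Prod.snd_add, Prod.smul_fst, Prod.smul_snd,
    smul_eq_mul] at hx hy ⊢
  have h : (a * x.1 + b * y.1) ^ 2 + (a * x.2 + b * y.2) ^ 2 ≤
      a * (x.1 ^ 2 + x.2 ^ 2) + b * (y.1 ^ 2 + y.2 ^ 2) := by
    obtain rfl : b = 1 - a := by linarith
    nlinarith [mul_nonneg (mul_nonneg ha hb) (sq_nonneg (x.1 - y.1)),
      mul_nonneg (mul_nonneg ha hb) (sq_nonneg (x.2 - y.2))]
  rcases eq_or_lt_of_le ha with h0 | h0
  · have : b = 1 := by linarith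
    nlinarith
  · nlinarith

lemma real_smul_set {r : ℝ} (hr : 0 ≤ r) (s : Set R2) :
    volume.real (r • s) = r ^ 2 * volume.real s := by
  rw [Measure.real, Measure.addHaar_smul_of_nonneg volume hr, ENNReal.toReal_mul,
    ENNReal.toReal_ofReal (by positivity)]
  simp [Measure.real]

lemma real_translate (v : R2) (s : Set R2) :
    volume.real ((fun y => v + y) '' s) = volume.real s := by
  rw [Measure.real, image_add_left, measure_preimage_add, Measure.real]

variable {P : Set R2}

lemma real_mono_of_compact (hP : IsCompact P) {s : Set R2} (h : s ⊆ P) :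
    volume.real s ≤ volume.real P :=
  measureReal_mono h hP.measure_lt_top.ne

/-- If `P` reaches far from the origin, little of it is close to the origin. -/
lemma near_small (hP : IsCompact P) (hc : Convex ℝ P) {far : R2} (hfar : far ∈ P) {R L : ℝ}
    (hR : 0 < R) (hL : 0 < L) (hfarL : L ^ 2 ≤ nsq far) (_hRL : 6 * R ≤ L) :
    volume.real (P ∩ {y | nsq y < R ^ 2}) ≤ 24 * R / L * volume.real P := by
  classical
  set Q := P ∩ {y | nsq y < R ^ 2} with hQ
  have hQm : MeasurableSet Q :=
    hP.measurableSet.inter (measurableSet_lt continuous_nsq.measurable measurable_const)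
  set τ := 3 * R / L with hτ
  have hτ0 : 0 < τ := by positivity
  set n := ⌈L / (6 * R)⌉₊ with hn
  have hn1 : L / (6 * R) ≤ n := Nat.le_ceil _
  have hn2 : (n : ℝ) < L / (6 * R) + 1 := Nat.ceil_lt_add_one (by positivity)
  let T : ℕ → Set R2 := fun j => (fun y => (j * τ) • far + y) '' ((1 - j * τ) • Q)
  have hlam : ∀ j ∈ Finset.range n, (j : ℝ) * τ ≤ 1 / 2 := by
    intro j hj
    have : (j : ℝ) + 1 ≤ n := by exact_mod_cast Finset.mem_range.1 hj
    have h2 : (j : ℝ) ≤ L / (6 * R) := by linarith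
    calc (j : ℝ) * τ ≤ L / (6 * R) * τ := by gcongr
      _ = 1 / 2 := by rw [hτ]; field_simp; ring
  have hTsub : ∀ j ∈ Finset.range n, T j ⊆ P := by
    rintro j hj _ ⟨_, ⟨q, hq, rfl⟩, rfl⟩
    exact hc hfar hq.1 (by positivity) (by linarith [hlam j hj]) (by ring)
  have hTball : ∀ j ∈ Finset.range n, ∀ y ∈ T j, nsq (y - ((j : ℝ) * τ) • far) < R ^ 2 := by
    rintro j hj _ ⟨_, ⟨q, hq, rfl⟩, rfl⟩
    simp only [add_sub_cancel_left, nsq_smul]
    have h1 : nsq q < R ^ 2 := hq.2
    have h2 := hlam j hj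
    have h3 : (0:ℝ) ≤ j * τ := by positivity
    calc (1 - (j : ℝ) * τ) ^ 2 * nsq q ≤ 1 * nsq q :=
          mul_le_mul_of_nonneg_right (by nlinarith) (nsq_nonneg q)
      _ < R ^ 2 := by linarith
  have hdisj : Set.PairwiseDisjoint ↑(Finset.range n) T := by
    intro i hi j hj hij
    rw [Function.onFun, Set.disjoint_left]
    intro y hyi hyj
    have h1 := hTball i hi y hyi
    have h2 := hTball j hj y hyj
    have h3 : nsq (((i : ℝ) * τ) • far - ((j : ℝ) * τ) • far) ≤
        2 * nsq (y - ((j : ℝ) * τ) • far) + 2 * nsq (y - ((i : ℝ) * τ) • far) := by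
      refine le_trans (le_of_eq ?_) (nsq_sub_le _ _)
      congr 1
      abel
    rw [← sub_smul, nsq_smul, ← sub_mul, mul_pow] at h3
    have h4 : (1:ℝ) ≤ ((i : ℝ) - j) ^ 2 := by
      have : 1 ≤ ((i : ℤ) - j) ^ 2 := by
        have : ((i : ℤ) - j) ≠ 0 := by omega
        have := sq_pos_of_ne_zero this
        omega
      exact_mod_cast this
    have h5 : (τ * L) ^ 2 = 9 * R ^ 2 := by rw [hτ]; field_simp; ring
    have h6 : τ ^ 2 * L ^ 2 ≤ ((i : ℝ) - j) ^ 2 * τ ^ 2 * nsq far := by
      have := mul_le_mul (le_mul_of_one_le_left (sq_nonneg τ) h4) hfarL (sq_nonneg L)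
        (by positivity)
      linarith
    nlinarith
  have hTm : ∀ j ∈ Finset.range n, MeasurableSet (T j) := by
    intro j hj
    simp only [T, image_add_left]
    exact (measurable_const_add _) (hQm.const_smul₀ _)
  have key : (n : ℝ) * (volume.real Q / 4) ≤ volume.real P := by
    calc (n : ℝ) * (volume.real Q / 4) = ∑ j ∈ Finset.range n, volume.real Q / 4 := by simp
      _ ≤ ∑ j ∈ Finset.range n, volume.real (T j) := by
          refine Finset.sum_le_sum fun j hj => ?_
          simp only [T, real_translate, real_smul_set (show 0 ≤ 1 - (j:ℝ) * τ by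
            linarith [hlam j hj])]
          have h2 := hlam j hj
          have h3 : (0:ℝ) ≤ volume.real Q := measureReal_nonneg
          have : 1 / 4 ≤ (1 - (j:ℝ) * τ) ^ 2 := by nlinarith
          nlinarith
      _ = volume.real (⋃ j ∈ Finset.range n, T j) := by
          rw [measureReal_biUnion_finset hdisj hTm
            (fun j hj => ne_top_of_le_ne_top hP.measure_lt_top.ne (measure_mono (hTsub j hj)))]
      _ ≤ volume.real P := real_mono_of_compact hP (iUnion₂_subset hTsub)
  have h1 : L / (6 * R) * (volume.real Q / 4) ≤ volume.real P :=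
    le_trans (mul_le_mul_of_nonneg_right hn1 (by positivity)) key
  calc volume.real Q = 24 * R / L * (L / (6 * R) * (volume.real Q / 4)) := by field_simp; ring
    _ ≤ 24 * R / L * volume.real P := by gcongr

lemma isCompact_diff (hP : IsCompact P) : IsCompact (P - P) := by
  rw [← image2_sub, ← image_prod]
  exact (hP.prod hP).image continuous_sub

lemma diff_set_le (hP : IsCompact P) (hc : Convex ℝ P) (hpos : 0 < volume.real P) :
    volume.real (P - P) ≤ 16 * volume.real P := by
  have hD : IsCompact (P - P) := isCompact_diff hP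
  have hPm := hP.measurableSet
  set Δ := (1 / 2 : ℝ) • (P - P)
  have hΔ : IsCompact Δ := hD.smul _
  have hlow : ∀ w ∈ Δ, volume.real P / 4 ≤ volume.real (P ∩ (fun y => w + y) '' P) := by
    rintro _ ⟨_, ⟨p, hp, q, hq, rfl⟩, rfl⟩
    have hsub : (fun y => (1 / 2 : ℝ) • p + y) '' ((1 / 2 : ℝ) • P) ⊆
        P ∩ (fun y => (1 / 2 : ℝ) • (p - q) + y) '' P := by
      rintro _ ⟨_, ⟨r, hr, rfl⟩, rfl⟩
      refine ⟨hc hp hr (by norm_num) (by norm_num) (by norm_num),
        (1 / 2 : ℝ) • q + (1 / 2 : ℝ) • r, hc hq hr (by norm_num) (by norm_num) (by norm_num), ?_⟩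
      simp only [smul_sub]
      abel
    refine le_trans (le_of_eq ?_) (measureReal_mono hsub
      (ne_top_of_le_ne_top hP.measure_lt_top.ne (measure_mono inter_subset_left)))
    rw [real_translate, real_smul_set (by norm_num)]
    ring
  have h2 : ∫⁻ w, volume (P ∩ (fun y => w + y) '' P) = volume P * volume P := by
    have hm : MeasurableSet {q : R2 × R2 | q.2 ∈ P ∧ q.2 - q.1 ∈ P} :=
      (hPm.preimage measurable_snd).inter (hPm.preimage (measurable_snd.sub measurable_fst))
    have e1 : ∀ w, Prod.mk w ⁻¹' {q : R2 × R2 | q.2 ∈ P ∧ q.2 - q.1 ∈ P} =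
        P ∩ (fun y => w + y) '' P := fun w => by
      ext y
      simp only [mem_preimage, mem_ofPred_eq, image_add_left, mem_inter_iff, neg_add_eq_sub]
    calc ∫⁻ w, volume (P ∩ (fun y => w + y) '' P)
        = (volume.prod volume) {q : R2 × R2 | q.2 ∈ P ∧ q.2 - q.1 ∈ P} := by
          rw [Measure.prod_apply hm]
          simp only [e1]
      _ = ∫⁻ y, volume ((fun w => (w, y)) ⁻¹' {q : R2 × R2 | q.2 ∈ P ∧ q.2 - q.1 ∈ P}) :=
          Measure.prod_apply_symm hm
      _ = ∫⁻ y, P.indicator (fun _ => volume P) y := by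
          refine lintegral_congr fun y => ?_
          by_cases hy : y ∈ P
          · rw [indicator_of_mem hy]
            have : (fun w => (w, y)) ⁻¹' {q : R2 × R2 | q.2 ∈ P ∧ q.2 - q.1 ∈ P} =
                (fun w => y - w) ⁻¹' P := by
              ext w; simp [hy]
            rw [this]
            exact (Measure.measurePreserving_sub_left volume y).measure_preimage hPm.nullMeasurableSet
          · rw [indicator_of_notMem hy]
            have : (fun w => (w, y)) ⁻¹' {q : R2 × R2 | q.2 ∈ P ∧ q.2 - q.1 ∈ P} = ∅ := by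
              ext w; simp [hy]
            rw [this, measure_empty]
      _ = volume P * volume P := by rw [lintegral_indicator hPm, setLIntegral_const]
  have h3 : ENNReal.ofReal (volume.real P / 4) * volume Δ ≤ volume P * volume P := by
    rw [← h2, ← setLIntegral_const]
    refine (setLIntegral_mono' hΔ.measurableSet fun w hw => ?_).trans (setLIntegral_le_lintegral _ _)
    rw [← ENNReal.ofReal_toReal (ne_top_of_le_ne_top hP.measure_lt_top.ne
      (measure_mono (inter_subset_left : P ∩ (fun y => w + y) '' P ⊆ P)))]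
    exact ENNReal.ofReal_le_ofReal (hlow w hw)
  have h4 := ENNReal.toReal_mono
    (ENNReal.mul_ne_top hP.measure_lt_top.ne hP.measure_lt_top.ne) h3
  rw [ENNReal.toReal_mul, ENNReal.toReal_mul, ENNReal.toReal_ofReal (by positivity)] at h4
  have h5 : volume.real Δ = volume.real (P - P) / 4 := by
    rw [real_smul_set (by norm_num)]; ring
  have h6 : volume.real P / 4 * (volume.real (P - P) / 4) ≤ volume.real P * volume.real P := by
    rw [← h5]; exact h4
  nlinarith

/-- Two large subsets of `P` overlap substantially after a suitable translation. -/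
lemma exists_overlap (hP : IsCompact P) (hc : Convex ℝ P) (hpos : 0 < volume.real P)
    {Q₀ Q₁ : Set R2} (h₀ : IsCompact Q₀) (h₁ : IsCompact Q₁) (hs₀ : Q₀ ⊆ P) (hs₁ : Q₁ ⊆ P)
    {θ : ℝ} (hθ : 0 < θ) (hb₀ : θ * volume.real P ≤ volume.real Q₀)
    (hb₁ : θ * volume.real P ≤ volume.real Q₁) :
    ∃ w : R2, θ ^ 2 * volume.real P / 32 ≤ volume.real (Q₀ ∩ (fun y => w + y) '' Q₁) := by
  by_contra hno
  push Not at hno
  set c := θ ^ 2 * volume.real P / 32
  have hm : MeasurableSet {q : R2 × R2 | q.2 ∈ Q₀ ∧ q.2 - q.1 ∈ Q₁} :=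
    (h₀.measurableSet.preimage measurable_snd).inter
      (h₁.measurableSet.preimage (measurable_snd.sub measurable_fst))
  have e1 : ∀ w, Prod.mk w ⁻¹' {q : R2 × R2 | q.2 ∈ Q₀ ∧ q.2 - q.1 ∈ Q₁} =
      Q₀ ∩ (fun y => w + y) '' Q₁ := fun w => by
    ext y
    simp only [mem_preimage, mem_ofPred_eq, image_add_left, mem_inter_iff, neg_add_eq_sub]
  have h2 : ∫⁻ w, volume (Q₀ ∩ (fun y => w + y) '' Q₁) = volume Q₁ * volume Q₀ := by
    calc ∫⁻ w, volume (Q₀ ∩ (fun y => w + y) '' Q₁)
        = (volume.prod volume) {q : R2 × R2 | q.2 ∈ Q₀ ∧ q.2 - q.1 ∈ Q₁} := by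
          rw [Measure.prod_apply hm]
          simp only [e1]
      _ = ∫⁻ y, volume ((fun w => (w, y)) ⁻¹' {q : R2 × R2 | q.2 ∈ Q₀ ∧ q.2 - q.1 ∈ Q₁}) :=
          Measure.prod_apply_symm hm
      _ = ∫⁻ y, Q₀.indicator (fun _ => volume Q₁) y := by
          refine lintegral_congr fun y => ?_
          by_cases hy : y ∈ Q₀
          · rw [indicator_of_mem hy]
            have : (fun w => (w, y)) ⁻¹' {q : R2 × R2 | q.2 ∈ Q₀ ∧ q.2 - q.1 ∈ Q₁} =
                (fun w => y - w) ⁻¹' Q₁ := by
              ext w; simp [hy]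
            rw [this]
            exact (Measure.measurePreserving_sub_left volume y).measure_preimage
              h₁.measurableSet.nullMeasurableSet
          · rw [indicator_of_notMem hy]
            have : (fun w => (w, y)) ⁻¹' {q : R2 × R2 | q.2 ∈ Q₀ ∧ q.2 - q.1 ∈ Q₁} = ∅ := by
              ext w; simp [hy]
            rw [this, measure_empty]
      _ = _ := by rw [lintegral_indicator h₀.measurableSet, setLIntegral_const]
  have hD : IsCompact (P - P) := isCompact_diff hP
  have h3 : volume Q₁ * volume Q₀ ≤ ENNReal.ofReal c * volume (P - P) := by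
    rw [← h2, ← setLIntegral_const]
    rw [← lintegral_indicator hD.measurableSet]
    refine lintegral_mono fun w => ?_
    by_cases hw : w ∈ P - P
    · rw [indicator_of_mem hw, ← ENNReal.ofReal_toReal (ne_top_of_le_ne_top
        h₀.measure_lt_top.ne (measure_mono
          (inter_subset_left : Q₀ ∩ (fun y => w + y) '' Q₁ ⊆ Q₀)))]
      exact ENNReal.ofReal_le_ofReal (hno w).le
    · rw [indicator_of_notMem hw]
      have : Q₀ ∩ (fun y => w + y) '' Q₁ = ∅ := by
        rw [eq_empty_iff_forall_notMem]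
        rintro _ ⟨hy, z, hz, rfl⟩
        exact hw ⟨w + z, hs₀ hy, z, hs₁ hz, add_sub_cancel_right w z⟩
      rw [this, measure_empty]
  have h4 := ENNReal.toReal_mono
    (ENNReal.mul_ne_top ENNReal.ofReal_ne_top hD.measure_lt_top.ne) h3
  rw [ENNReal.toReal_mul, ENNReal.toReal_mul, ENNReal.toReal_ofReal (by positivity)] at h4
  have h5 := diff_set_le hP hc hpos
  have h6 : θ * volume.real P * (θ * volume.real P) ≤ volume.real Q₁ * volume.real Q₀ := by
    gcongr
  have h7 : volume.real Q₁ * volume.real Q₀ ≤ c * (16 * volume.real P) :=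
    h4.trans (mul_le_mul_of_nonneg_left h5 (by positivity))
  simp only [c] at h7
  nlinarith [mul_pos (mul_pos hθ hθ) (mul_pos hpos hpos)]

end Vale.Agent.P243.Thin
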