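import Vale.Agent.P243.Bridge
import Mathlib.MeasureTheory.Measure.Lebesgue.Integral
import Mathlib.MeasureTheory.Measure.Haar.Unique
import Mathlib.Analysis.SpecialFunctions.Integrals.Basic

/-!
Relative areas of bases, computed in linear coordinates that are constant along the axis.
-/

namespace Vale.Agent.P243

open MeasureTheory Module
open scoped RealInnerProductSpace

/-- If `φ` is a linear coordinate system on the quotient by the axis `d`, then relative areas of
bases can be computed in these coordinates. -/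
lemma relative_area_le (d : Point) (φ : Point →ₗ[ℝ] ℝ × ℝ) (hd : d ≠ 0) (hφ : φ d = 0)
    (hker : ∀ x, φ x = 0 → ⟪x, d⟫ = 0 → x = 0) (K : Set Point) (hK : IsCompact K)
    (S T : Set (ℝ × ℝ)) (hS : MeasurableSet S) (hT : MeasurableSet T) (hTK : T ⊆ φ '' K)
    (hT0 : volume T ≠ 0) :
    MeasurableSet (φ ⁻¹' S) ∧
    area (‖d‖⁻¹ • d) (proj (‖d‖⁻¹ • d) '' K) ≠ 0 ∧
    area (‖d‖⁻¹ • d) (proj (‖d‖⁻¹ • d) '' K) ≠ ⊤ ∧
    area (‖d‖⁻¹ • d) (φ ⁻¹' S) / area (‖d‖⁻¹ • d) (proj (‖d‖⁻¹ • d) '' K)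
      ≤ volume S / volume T := by
  set u : Point := ‖d‖⁻¹ • d with hu_def
  have hn : ‖d‖ ≠ 0 := norm_ne_zero_iff.2 hd
  have hu : ‖u‖ = 1 := by simp [hu_def, norm_smul, hn]
  have hu0 : u ≠ 0 := fun h => by simp [h] at hu
  have hφu : φ u = 0 := by rw [hu_def, map_smul, hφ, smul_zero]
  have hfin : finrank ℝ ↥(ℝ ∙ u)ᗮ = 2 :=
    Submodule.finrank_orthogonal_span_singleton (n := 2) hu0
  let L : ↥(ℝ ∙ u)ᗮ →ₗ[ℝ] ℝ × ℝ := φ.comp (ℝ ∙ u)ᗮ.subtype
  have hinj : Function.Injective L := by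
    rw [← LinearMap.ker_eq_bot, LinearMap.ker_eq_bot']
    intro x hx
    have h1 : ⟪(x : Point), ‖d‖⁻¹ • d⟫ = 0 :=
      Submodule.mem_orthogonal_singleton_iff_inner_left.1 x.2
    generalize hy : (x : Point) = y at h1
    rw [real_inner_smul_right] at h1
    subst hy
    exact Subtype.ext (hker _ hx ((mul_eq_zero.1 h1).resolve_left (inv_ne_zero hn)))
  let e0 : ↥(ℝ ∙ u)ᗮ ≃ₗ[ℝ] ℝ × ℝ :=
    LinearMap.linearEquivOfInjective L hinj (by rw [hfin]; simp)
  let e : ↥(ℝ ∙ u)ᗮ ≃L[ℝ] ℝ × ℝ := e0.toContinuousLinearEquiv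
  have he : ∀ x : ↥(ℝ ∙ u)ᗮ, e x = φ (x : Point) := fun x => rfl
  have hm : MeasurableSet (φ ⁻¹' S) := φ.continuous_of_finiteDimensional.measurable hS
  -- the two areas as multiples of the coordinate areas
  have : (Measure.map e (volume : Measure ↥(ℝ ∙ u)ᗮ)).IsAddHaarMeasure :=
    e.isAddHaarMeasure_map _
  have : (volume : Measure (ℝ × ℝ)).IsAddHaarMeasure := by
    rw [Measure.volume_eq_prod]; infer_instance
  set c := Measure.addHaarScalarFactor (Measure.map e (volume : Measure ↥(ℝ ∙ u)ᗮ))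
    (volume : Measure (ℝ × ℝ)) with hc_def
  have hmap : Measure.map e (volume : Measure ↥(ℝ ∙ u)ᗮ) = c • (volume : Measure (ℝ × ℝ)) :=
    Measure.isAddLeftInvariant_eq_smul _ _
  have hc : c ≠ 0 := (Measure.addHaarScalarFactor_pos_of_isAddHaarMeasure _ _).ne'
  have hpre : ∀ s : Set (ℝ × ℝ), MeasurableSet s →
      volume (e ⁻¹' s) = (c : ENNReal) * volume s := by
    intro s hs
    rw [← Measure.map_apply e.continuous.measurable hs, hmap]
    simp
  have hB : area u (φ ⁻¹' S) = (c : ENNReal) * volume S := by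
    rw [area_eq hu, ← hpre S hS]
    rfl
  have hP : (c : ENNReal) * volume T ≤ area u (proj u '' K) := by
    rw [area_proj_image hu, ← hpre T hT]
    refine measure_mono fun x hx => ?_
    obtain ⟨y, hy, hyx⟩ := hTK hx
    refine ⟨y, hy, hinj ?_⟩
    show φ ((ℝ ∙ u)ᗮ.orthogonalProjectionOnto y : Point) = φ (x : Point)
    rw [← he x, ← hyx]
    have hmem : y - ((ℝ ∙ u)ᗮ.orthogonalProjectionOnto y : Point) ∈ (ℝ ∙ u) := by
      have h2 := Submodule.sub_starProjection_mem_orthogonal (K := (ℝ ∙ u)ᗮ) y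
      rw [Submodule.orthogonal_orthogonal] at h2
      exact h2
    obtain ⟨r, hr⟩ := Submodule.mem_span_singleton.1 hmem
    have h3 : φ (y - ((ℝ ∙ u)ᗮ.orthogonalProjectionOnto y : Point)) = 0 := by
      rw [← hr, map_smul, hφu, smul_zero]
    rw [map_sub, sub_eq_zero] at h3
    exact h3.symm
  have hc' : (c : ENNReal) ≠ 0 := by simpa using hc
  have hne : area u (proj u '' K) ≠ 0 := fun h => by
    rw [h, nonpos_iff_eq_zero, mul_eq_zero] at hP
    exact hP.elim hc' hT0
  have htop : area u (proj u '' K) ≠ ⊤ := by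
    rw [area_proj_image hu]
    exact (hK.image (ContinuousLinearMap.continuous _)).measure_lt_top.ne
  refine ⟨hm, hne, htop, ?_⟩
  rw [hB]
  calc (c : ENNReal) * volume S / area u (proj u '' K)
      ≤ (c : ENNReal) * volume S / ((c : ENNReal) * volume T) := ENNReal.div_le_div_left hP _
    _ = volume S / volume T := ENNReal.mul_div_mul_left _ _ hc' ENNReal.coe_ne_top

/-- The area between two affine functions over an interval, as an upper bound. -/
lemma volume_trapezoid_le {p q a b a' b' : ℝ} (hpq : p ≤ q)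
    (h : ∀ x ∈ Set.Icc p q, a * x + b ≤ a' * x + b') :
    volume {z : ℝ × ℝ | z.1 ∈ Set.Icc p q ∧ z.2 ∈ Set.Icc (a * z.1 + b) (a' * z.1 + b')}
      ≤ ENNReal.ofReal ((a' - a) * (q ^ 2 - p ^ 2) / 2 + (b' - b) * (q - p)) := by
  refine ENNReal.le_of_forall_pos_le_add fun ε hε _ => ?_
  set δ : ℝ := (ε : ℝ) / (2 * (q - p) + 1) with hδ
  have hden : 0 < 2 * (q - p) + 1 := by linarith
  have hδ0 : 0 < δ := div_pos (by exact_mod_cast hε) hden
  have hsub : {z : ℝ × ℝ | z.1 ∈ Set.Icc p q ∧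
      z.2 ∈ Set.Icc (a * z.1 + b) (a' * z.1 + b')} ⊆
      regionBetween (fun x => a * x + b - δ) (fun x => a' * x + b' + δ) (Set.Icc p q) :=
    fun z hz => ⟨hz.1, by simp only; linarith [hz.2.1], by simp only; linarith [hz.2.2]⟩
  refine (measure_mono hsub).trans ?_
  rw [Measure.volume_eq_prod, volume_regionBetween_eq_integral
    (Continuous.integrableOn_Icc (by fun_prop)) (Continuous.integrableOn_Icc (by fun_prop))
    measurableSet_Icc (fun x hx => by linarith [h x hx]), integral_Icc_eq_integral_Ioc,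
    ← intervalIntegral.integral_of_le hpq]
  have hint : ∫ x in p..q,
      ((fun x => a' * x + b' + δ) - fun x => a * x + b - δ) x
      = (a' - a) * (q ^ 2 - p ^ 2) / 2 + (b' - b) * (q - p) + 2 * δ * (q - p) := by
    have : ∀ x, ((fun x => a' * x + b' + δ) - fun x => a * x + b - δ) x
        = (a' - a) * x + (b' - b + 2 * δ) := fun x => by simp only [Pi.sub_apply]; ring
    simp only [this]
    rw [intervalIntegral.integral_add (Continuous.intervalIntegrable (by fun_prop) _ _)
      (Continuous.intervalIntegrable (by fun_prop) _ _), intervalIntegral.integral_const_mul,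
      integral_id, intervalIntegral.integral_const, smul_eq_mul]
    ring
  rw [hint]
  refine ENNReal.ofReal_add_le.trans ?_
  refine add_le_add le_rfl ?_
  rw [← ENNReal.ofReal_coe_nnreal]
  refine ENNReal.ofReal_le_ofReal ?_
  calc 2 * δ * (q - p) ≤ δ * (2 * (q - p) + 1) := by nlinarith
    _ = ε := by rw [hδ]; field_simp

/-- The area between two affine functions over an interval, open version. -/
lemma volume_open_trapezoid {p q a b a' b' : ℝ} (hpq : p ≤ q)
    (h : ∀ x ∈ Set.Icc p q, a * x + b ≤ a' * x + b') :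
    MeasurableSet {z : ℝ × ℝ | z.1 ∈ Set.Icc p q ∧
      z.2 ∈ Set.Ioo (a * z.1 + b) (a' * z.1 + b')} ∧
    volume {z : ℝ × ℝ | z.1 ∈ Set.Icc p q ∧ z.2 ∈ Set.Ioo (a * z.1 + b) (a' * z.1 + b')}
      = ENNReal.ofReal ((a' - a) * (q ^ 2 - p ^ 2) / 2 + (b' - b) * (q - p)) := by
  have hset : {z : ℝ × ℝ | z.1 ∈ Set.Icc p q ∧ z.2 ∈ Set.Ioo (a * z.1 + b) (a' * z.1 + b')} =
      regionBetween (fun x => a * x + b) (fun x => a' * x + b') (Set.Icc p q) := rfl
  rw [hset]
  refine ⟨measurableSet_regionBetween (by fun_prop) (by fun_prop) measurableSet_Icc, ?_⟩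
  rw [Measure.volume_eq_prod, volume_regionBetween_eq_integral
    (Continuous.integrableOn_Icc (by fun_prop)) (Continuous.integrableOn_Icc (by fun_prop))
    measurableSet_Icc h, integral_Icc_eq_integral_Ioc, ← intervalIntegral.integral_of_le hpq]
  congr 1
  have : ∀ x, ((fun x => a' * x + b') - fun x => a * x + b) x
      = (a' - a) * x + (b' - b) := fun x => by simp only [Pi.sub_apply]; ring
  simp only [this]
  rw [intervalIntegral.integral_add (Continuous.intervalIntegrable (by fun_prop) _ _)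
    (Continuous.intervalIntegrable (by fun_prop) _ _), intervalIntegral.integral_const_mul,
    integral_id, intervalIntegral.integral_const, smul_eq_mul]
  ring

end Vale.Agent.P243
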