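import Vale.Agent.P243.RelArea

/-!
A covering of a tetrahedron by four cylinders with relative area below one half.

In barycentric coordinates `(a, b, c, e)` there is a covering of relative area exactly `1/2` by
three cylinders. A strip `3/10 ≤ a + b ≤ 1/3` can be removed from the base of the cylinder
parallel to the edge `CE` and covered more cheaply by a fourth cylinder.
-/

namespace Vale.Agent.P243

open MeasureTheory
open scoped RealInnerProductSpace

namespace RelExample

/-- The standard simplex. -/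
def body : Set Point :=
  {x | 0 ≤ x 0 ∧ 0 ≤ x 1 ∧ 0 ≤ x 2 ∧ x 0 + x 1 + x 2 ≤ 1}

/-- The four axes (not normalized). -/
noncomputable def axis : Fin 4 → Point :=
  ![WithLp.toLp 2 ![1, -2, 0], WithLp.toLp 2 ![-2, 1, 1],
    WithLp.toLp 2 ![0, 0, 1], WithLp.toLp 2 ![-1, 1, -3]]

/-- A linear coordinate. -/
noncomputable def coord (i : Fin 3) : Point →ₗ[ℝ] ℝ where
  toFun x := x i
  map_add' _ _ := rfl
  map_smul' _ _ := rfl

@[simp] lemma coord_apply (i : Fin 3) (x : Point) : coord i x = x i := rfl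

/-- Coordinates constant along the four axes. -/
noncomputable def chart : Fin 4 → Point →ₗ[ℝ] ℝ × ℝ :=
  ![(coord 2).prod ((2 : ℝ) • coord 0 + coord 1 + coord 2),
    (coord 0 + coord 1 + coord 2).prod (coord 1 - coord 2),
    (coord 0).prod (coord 1),
    (coord 0 + coord 1).prod (coord 0 - (2 : ℝ) • coord 1 - coord 2)]

/-- A closed trapezoid. -/
def trap (p q a b a' b' : ℝ) : Set (ℝ × ℝ) :=
  {z | z.1 ∈ Set.Icc p q ∧ z.2 ∈ Set.Icc (a * z.1 + b) (a' * z.1 + b')}

/-- An open trapezoid. -/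
def otrap (p q a b a' b' : ℝ) : Set (ℝ × ℝ) :=
  {z | z.1 ∈ Set.Icc p q ∧ z.2 ∈ Set.Ioo (a * z.1 + b) (a' * z.1 + b')}

lemma measurableSet_trap (p q a b a' b' : ℝ) : MeasurableSet (trap p q a b a' b') :=
  measurableSet_region_between_cc (f := fun x => a * x + b) (g := fun x => a' * x + b')
    (by fun_prop) (by fun_prop) measurableSet_Icc

/-- One of the two symmetric wedges of the third base. -/
def wedge : Set (ℝ × ℝ) :=
  trap (1/6) (1/3) (-1) (1/3) (-(1/2)) (1/4) ∪ trap (1/3) (1/2) 0 0 (-(1/2)) (1/4)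

/-- The bases, in chart coordinates. -/
def base : Fin 4 → Set (ℝ × ℝ) :=
  ![trap 0 (1/3) 1 (1/2) (-2) (3/2),
    trap (2/3) 1 (-1) (1/2) 2 (-(3/2)),
    trap 0 (3/10) 0 0 (-1) (3/10) ∪ wedge ∪ Prod.swap ⁻¹' wedge,
    trap (3/10) (1/3) 0 (-(19/18)) 0 (1/18)]

/-- Sets inside the shadows, in chart coordinates. -/
def shadow : Fin 4 → Set (ℝ × ℝ) :=
  ![otrap 0 1 1 0 (-1) 2, otrap 0 1 (-1) 0 1 0, otrap 0 1 0 0 (-1) 1,
    otrap 0 1 (-1) (-1) 1 0]

/-- Areas of the shadows. -/
noncomputable def shadowArea : Fin 4 → ℝ := ![1, 1, 1/2, 2]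

/-- Upper bounds for the areas of the bases. -/
noncomputable def baseArea : Fin 4 → ℝ := ![1/6, 1/6, 131/1800, 1/27]

lemma axis_ne (i : Fin 4) : axis i ≠ 0 := by
  intro h
  fin_cases i
  · have := congrArg (fun x : Point => x 0) h; simp [axis] at this
  · have := congrArg (fun x : Point => x 0) h; simp [axis] at this
  · have := congrArg (fun x : Point => x 2) h; simp [axis] at this
  · have := congrArg (fun x : Point => x 0) h; simp [axis] at this

lemma chart_axis (i : Fin 4) : chart i (axis i) = 0 := by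
  fin_cases i <;> simp [chart, axis, Prod.ext_iff] <;> norm_num

lemma inner_point (x y : Point) : ⟪x, y⟫ = x 0 * y 0 + x 1 * y 1 + x 2 * y 2 := by
  simp [PiLp.inner_apply, Fin.sum_univ_three]; ring

lemma chart_ker (i : Fin 4) (x : Point) (h : chart i x = 0) (h' : ⟪x, axis i⟫ = 0) : x = 0 := by
  rw [inner_point] at h'
  fin_cases i <;> simp [chart, axis, Prod.ext_iff] at h h' <;>
    (ext j; fin_cases j <;> simp <;> linarith [h.1, h.2])

lemma hcont (i : Fin 3) : Continuous (fun x : Point => x i) := by fun_prop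

lemma isCompact_body : IsCompact body := by
  refine Metric.isCompact_of_isClosed_isBounded ?_ ?_
  · exact (isClosed_le continuous_const (hcont 0)).inter
      ((isClosed_le continuous_const (hcont 1)).inter
        ((isClosed_le continuous_const (hcont 2)).inter
          (isClosed_le (((hcont 0).add (hcont 1)).add (hcont 2)) continuous_const)))
  · refine (Metric.isBounded_closedBall (x := (0 : Point)) (r := 2)).subset fun x hx => ?_
    obtain ⟨h0, h1, h2, h3⟩ := hx
    rw [mem_closedBall_zero_iff]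
    have := inner_point x x
    rw [real_inner_self_eq_norm_sq] at this
    nlinarith [norm_nonneg x]

lemma convex_body : Convex ℝ body := by
  rintro x ⟨a0, a1, a2, a3⟩ y ⟨b0, b1, b2, b3⟩ s t hs ht hst
  refine ⟨?_, ?_, ?_, ?_⟩ <;>
    simp only [PiLp.add_apply, PiLp.smul_apply, smul_eq_mul]
  · positivity
  · positivity
  · positivity
  · nlinarith [mul_le_mul_of_nonneg_left a3 hs, mul_le_mul_of_nonneg_left b3 ht]

lemma interior_body : (interior body).Nonempty := by
  refine ⟨WithLp.toLp 2 ![1/4, 1/4, 1/4], interior_maximal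
    (t := {x : Point | 0 < x 0} ∩ ({x | 0 < x 1} ∩ ({x | 0 < x 2} ∩
      {x | x 0 + x 1 + x 2 < 1}))) ?_ ?_ ?_⟩
  · rintro x ⟨h0, h1, h2, h3⟩
    exact ⟨le_of_lt h0, le_of_lt h1, le_of_lt h2, le_of_lt h3⟩
  · exact (isOpen_lt continuous_const (hcont 0)).inter
      ((isOpen_lt continuous_const (hcont 1)).inter
        ((isOpen_lt continuous_const (hcont 2)).inter
          (isOpen_lt (((hcont 0).add (hcont 1)).add (hcont 2)) continuous_const)))
  · simp; norm_num

lemma shadow_subset (i : Fin 4) : shadow i ⊆ chart i '' body := by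
  rintro ⟨u, v⟩ hz
  fin_cases i <;> simp [shadow, otrap] at hz <;> obtain ⟨⟨hu0, hu1⟩, hv0, hv1⟩ := hz
  · rcases le_total v 1 with hv | hv
    · refine ⟨WithLp.toLp 2 ![0, v - u, u], ?_, ?_⟩
      · simp [body]; refine ⟨?_, ?_, ?_⟩ <;> linarith
      · simp [chart]
    · refine ⟨WithLp.toLp 2 ![v - 1, 2 - v - u, u], ?_, ?_⟩
      · simp [body]; refine ⟨?_, ?_, ?_, ?_⟩ <;> linarith
      · simp [chart]; ring
  · rcases le_total 0 v with hv | hv
    · refine ⟨WithLp.toLp 2 ![u - v, v, 0], ?_, ?_⟩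
      · simp [body]; refine ⟨?_, ?_, ?_⟩ <;> linarith
      · simp [chart]
    · refine ⟨WithLp.toLp 2 ![u + v, 0, -v], ?_, ?_⟩
      · simp [body]; refine ⟨?_, ?_, ?_⟩ <;> linarith
      · simp [chart]
  · refine ⟨WithLp.toLp 2 ![u, v, 0], ?_, ?_⟩
    · simp [body]; refine ⟨?_, ?_, ?_⟩ <;> linarith
    · simp [chart]
  · obtain ⟨r, hr⟩ : ∃ r, r = (u - v) / (1 + 2 * u) := ⟨_, rfl⟩
    have hden : 0 < 1 + 2 * u := by linarith
    have hr0 : 0 ≤ r := by rw [hr]; exact div_nonneg (by linarith) hden.le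
    have hr1 : r ≤ 1 := by rw [hr, div_le_one hden]; linarith
    have hr' : r * (1 + 2 * u) = u - v := by rw [hr, div_mul_cancel₀ _ hden.ne']
    refine ⟨WithLp.toLp 2 ![u * (1 - r), u * r, (1 - u) * r], ?_, ?_⟩
    · simp [body]; refine ⟨?_, ?_, ?_, ?_⟩ <;> nlinarith
    · simp [chart]; constructor <;> linarith

lemma shadow_measure (i : Fin 4) :
    MeasurableSet (shadow i) ∧ volume (shadow i) = ENNReal.ofReal (shadowArea i) := by
  fin_cases i
  all_goals
    refine ⟨?_, ?_⟩
  all_goals simp only [shadow, shadowArea, otrap]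
  · exact (volume_open_trapezoid (by norm_num) (fun x hx => by linarith [hx.1, hx.2])).1
  · show volume (otrap 0 1 1 0 (-1) 2) = ENNReal.ofReal 1
    rw [otrap, (volume_open_trapezoid (by norm_num) (fun x hx => by linarith [hx.1, hx.2])).2]
    norm_num
  · exact (volume_open_trapezoid (by norm_num) (fun x hx => by linarith [hx.1, hx.2])).1
  · show volume (otrap 0 1 (-1) 0 1 0) = ENNReal.ofReal 1
    rw [otrap, (volume_open_trapezoid (by norm_num) (fun x hx => by linarith [hx.1, hx.2])).2]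
    norm_num
  · exact (volume_open_trapezoid (by norm_num) (fun x hx => by linarith [hx.1, hx.2])).1
  · show volume (otrap 0 1 0 0 (-1) 1) = ENNReal.ofReal (1/2)
    rw [otrap, (volume_open_trapezoid (by norm_num) (fun x hx => by linarith [hx.1, hx.2])).2]
    norm_num
  · exact (volume_open_trapezoid (by norm_num) (fun x hx => by linarith [hx.1, hx.2])).1
  · show volume (otrap 0 1 (-1) (-1) 1 0) = ENNReal.ofReal 2
    rw [otrap, (volume_open_trapezoid (by norm_num) (fun x hx => by linarith [hx.1, hx.2])).2]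
    norm_num

lemma measurableSet_wedge : MeasurableSet wedge :=
  (measurableSet_trap _ _ _ _ _ _).union (measurableSet_trap _ _ _ _ _ _)

lemma measurableSet_base (i : Fin 4) : MeasurableSet (base i) := by
  fin_cases i
  · exact measurableSet_trap _ _ _ _ _ _
  · exact measurableSet_trap _ _ _ _ _ _
  · exact ((measurableSet_trap _ _ _ _ _ _).union measurableSet_wedge).union
      (measurable_swap measurableSet_wedge)
  · exact measurableSet_trap _ _ _ _ _ _

lemma trap_le {p q a b a' b' v : ℝ} (hpq : p ≤ q)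
    (h : ∀ x ∈ Set.Icc p q, a * x + b ≤ a' * x + b')
    (hv : (a' - a) * (q ^ 2 - p ^ 2) / 2 + (b' - b) * (q - p) = v) :
    volume (trap p q a b a' b') ≤ ENNReal.ofReal v :=
  hv ▸ volume_trapezoid_le hpq h

lemma wedge_le : volume wedge ≤ ENNReal.ofReal (1/72) := by
  refine (measure_union_le _ _).trans ?_
  rw [show (1/72 : ℝ) = 1/144 + 1/144 by norm_num,
    ENNReal.ofReal_add (by norm_num) (by norm_num)]
  exact add_le_add
    (trap_le (by norm_num) (fun x hx => by linarith [hx.1, hx.2]) (by norm_num))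
    (trap_le (by norm_num) (fun x hx => by linarith [hx.1, hx.2]) (by norm_num))

lemma base_le (i : Fin 4) : volume (base i) ≤ ENNReal.ofReal (baseArea i) := by
  fin_cases i
  · exact trap_le (v := 1/6) (by norm_num) (fun x hx => by linarith [hx.1, hx.2]) (by norm_num)
  · exact trap_le (v := 1/6) (by norm_num) (fun x hx => by linarith [hx.1, hx.2]) (by norm_num)
  · show volume (trap 0 (3/10) 0 0 (-1) (3/10) ∪ wedge ∪ Prod.swap ⁻¹' wedge)
      ≤ ENNReal.ofReal (131/1800)
    have hswap : volume (Prod.swap ⁻¹' wedge) = volume wedge := by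
      rw [Measure.volume_eq_prod]
      exact (Measure.measurePreserving_swap (μ := volume) (ν := volume)).measure_preimage
        measurableSet_wedge.nullMeasurableSet
    rw [show (131/1800 : ℝ) = 9/200 + 1/72 + 1/72 by norm_num,
      ENNReal.ofReal_add (by norm_num) (by norm_num),
      ENNReal.ofReal_add (by norm_num) (by norm_num)]
    refine (measure_union_le _ _).trans (add_le_add ((measure_union_le _ _).trans
      (add_le_add (trap_le (by norm_num) (fun x hx => by linarith [hx.1, hx.2]) (by norm_num))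
        wedge_le)) ?_)
    rw [hswap]; exact wedge_le
  · exact trap_le (v := 1/27) (by norm_num) (fun x hx => by linarith [hx.1, hx.2]) (by norm_num)

lemma mem_wedge {a b : ℝ} (hb : 0 ≤ b) (h1 : 1/3 ≤ a + b) (h2 : a + 2 * b ≤ 1/2) :
    (a, b) ∈ wedge := by
  rcases le_total a (1/3) with ha | ha
  · left; simp [trap]; refine ⟨⟨?_, ?_⟩, ?_, ?_⟩ <;> linarith
  · right; simp [trap]; refine ⟨⟨?_, ?_⟩, ?_, ?_⟩ <;> linarith

/-- The covering property, in the chart coordinates. -/
lemma covers (x : Point) (hx : x ∈ body) : ∃ i, chart i x ∈ base i := by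
  obtain ⟨h0, h1, h2, h3⟩ := hx
  by_cases hA : x 0 + x 1 ≤ 3/10
  · refine ⟨2, Or.inl (Or.inl ?_)⟩
    simp [trap, chart]
    refine ⟨⟨h0, ?_⟩, h1, ?_⟩ <;> linarith
  by_cases hB : 1/3 ≤ x 0 + x 1 ∧ x 0 + 2 * x 1 ≤ 1/2
  · exact ⟨2, Or.inl (Or.inr (mem_wedge (a := x 0) (b := x 1) h1 hB.1 hB.2))⟩
  by_cases hC : 1/3 ≤ x 0 + x 1 ∧ x 1 + 2 * x 0 ≤ 1/2
  · exact ⟨2, Or.inr (mem_wedge (a := x 1) (b := x 0) h0 (by linarith [hC.1]) hC.2)⟩
  -- first cylinder
  by_cases hD : x 2 + 1/2 ≤ 2 * x 0 + x 1 + x 2 ∧ 2 * x 0 + x 1 + x 2 ≤ -2 * x 2 + 3/2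
  · refine ⟨0, ?_⟩
    simp [base, trap, chart]
    refine ⟨⟨h2, ?_⟩, ?_, ?_⟩ <;> linarith [hD.1, hD.2]
  by_cases hE : -(x 0 + x 1 + x 2) + 1/2 ≤ x 1 - x 2 ∧
      x 1 - x 2 ≤ 2 * (x 0 + x 1 + x 2) - 3/2
  · refine ⟨1, ?_⟩
    simp [base, trap, chart]
    refine ⟨⟨?_, h3⟩, ?_, ?_⟩ <;> linarith [hE.1, hE.2]
  -- otherwise the point lies in the strip covered by the fourth cylinder
  push Not at hA hB hC hD hE
  have hstrip : x 0 + x 1 ≤ 1/3 := by
    by_contra hcon
    push Not at hcon
    have hB' := hB hcon.le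
    have hC' := hC hcon.le
    have hD' := hD (by linarith)
    have hE' := hE (by linarith)
    linarith
  refine ⟨3, ?_⟩
  simp [base, trap, chart]
  rcases lt_or_ge (2 * x 0 + x 1 + x 2) (x 2 + 1/2) with hd | hd <;>
    rcases lt_or_ge (x 1 - x 2) (-(x 0 + x 1 + x 2) + 1/2) with he | he
  · refine ⟨⟨?_, ?_⟩, ?_, ?_⟩ <;> linarith
  · have hE' := hE he
    refine ⟨⟨?_, ?_⟩, ?_, ?_⟩ <;> linarith
  · have hD' := hD hd
    refine ⟨⟨?_, ?_⟩, ?_, ?_⟩ <;> linarith
  · have hD' := hD hd
    have hE' := hE he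
    linarith

/-- The covering with relative area below one half. -/
theorem relative_counterexample :
    ∃ (K : Set Point) (u : Fin 4 → Point) (B : Fin 4 → Set Point),
      IsCovering K 4 u B ∧
      (∀ i, area (u i) (proj (u i) '' K) ≠ 0 ∧ area (u i) (proj (u i) '' K) ≠ ⊤) ∧
      ∑ i, area (u i) (B i) / area (u i) (proj (u i) '' K) ≤ ENNReal.ofReal (199/400) := by
  have key := fun i => relative_area_le (axis i) (chart i) (axis_ne i) (chart_axis i)
    (chart_ker i) body isCompact_body (base i) (shadow i) (measurableSet_base i)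
    (shadow_measure i).1 (shadow_subset i) (by
      rw [(shadow_measure i).2]
      fin_cases i <;> simp [shadowArea])
  refine ⟨body, fun i => ‖axis i‖⁻¹ • axis i, fun i => chart i ⁻¹' base i,
    ⟨isCompact_body, convex_body, interior_body, fun i => ?_, fun i => (key i).1, ?_⟩,
    fun i => ⟨(key i).2.1, (key i).2.2.1⟩, ?_⟩
  · simp [norm_smul, norm_ne_zero_iff.2 (axis_ne i)]
  · intro x hx
    obtain ⟨i, hi⟩ := covers x hx
    refine Set.mem_iUnion.2 ⟨i, ?_⟩
    show chart i (proj (‖axis i‖⁻¹ • axis i) x) ∈ base i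
    have hmem : x - proj (‖axis i‖⁻¹ • axis i) x ∈ (ℝ ∙ (‖axis i‖⁻¹ • axis i)) := by
      have h2 := Submodule.sub_starProjection_mem_orthogonal
        (K := (ℝ ∙ (‖axis i‖⁻¹ • axis i))ᗮ) x
      rw [Submodule.orthogonal_orthogonal] at h2
      exact h2
    obtain ⟨r, hr⟩ := Submodule.mem_span_singleton.1 hmem
    have h3 : chart i (x - proj (‖axis i‖⁻¹ • axis i) x) = 0 := by
      rw [← hr, map_smul, map_smul, chart_axis, smul_zero, smul_zero]
    rw [map_sub, sub_eq_zero] at h3
    rwa [← h3]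
  · have hterm : ∀ i, area (‖axis i‖⁻¹ • axis i) (chart i ⁻¹' base i) /
        area (‖axis i‖⁻¹ • axis i) (proj (‖axis i‖⁻¹ • axis i) '' body) ≤
          ENNReal.ofReal (baseArea i / shadowArea i) := by
      intro i
      refine (key i).2.2.2.trans ?_
      rw [(shadow_measure i).2, ENNReal.ofReal_div_of_pos (by fin_cases i <;> simp [shadowArea])]
      exact ENNReal.div_le_div_right (base_le i) _
    refine (Finset.sum_le_sum fun i _ => hterm i).trans ?_
    rw [← ENNReal.ofReal_sum_of_nonneg (fun i _ => by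
      fin_cases i <;> simp [baseArea, shadowArea] <;> norm_num)]
    refine ENNReal.ofReal_le_ofReal ?_
    simp [Fin.sum_univ_four, baseArea, shadowArea]
    norm_num

end RelExample

end Vale.Agent.P243
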