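import Mathlib.MeasureTheory.Measure.Haar.InnerProductSpace
import Mathlib.Geometry.Euclidean.Volume.Measure
import Mathlib.Analysis.InnerProductSpace.Projection.FiniteDimensional

/-!
Cylinders and shadows in three-dimensional Euclidean space, stated inside the ambient space.
-/

namespace Vale.Agent.P243

open MeasureTheory

/-- Points of three-dimensional Euclidean space. -/
abbrev Point : Type := EuclideanSpace ℝ (Fin 3)

/-- The plane through the origin orthogonal to `u`. -/
noncomputable def plane (u : Point) : Submodule ℝ Point := (ℝ ∙ u)ᗮ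

/-- Area of `B ∩ plane u`: the two-dimensional Euclidean Hausdorff measure, normalized to agree
with Lebesgue measure on planes. -/
noncomputable def area (u : Point) (B : Set Point) : ENNReal :=
  Measure.euclideanHausdorffMeasure 2 (B ∩ {x | x ∈ plane u})

/-- Orthogonal projection onto `plane u`. -/
noncomputable def proj (u : Point) (x : Point) : Point :=
  (plane u).starProjection x

/-- The cylinder `(B ∩ plane u) + ℝ u`. -/
noncomputable def cyl (u : Point) (B : Set Point) : Set Point := {x | proj u x ∈ B}

/-- The smallest area of an orthogonal projection of `K` onto a plane. -/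
noncomputable def Amin (K : Set Point) : ENNReal :=
  ⨅ u : {u : Point // ‖u‖ = 1}, area u (proj u '' K)

/-- `K` is a convex body, the `u i` are unit vectors, the bases `B i` are measurable and the
cylinders over them cover `K`. -/
def IsCovering (K : Set Point) (m : ℕ) (u : Fin m → Point) (B : Fin m → Set Point) : Prop :=
  IsCompact K ∧ Convex ℝ K ∧ (interior K).Nonempty ∧ (∀ i, ‖u i‖ = 1) ∧
    (∀ i, MeasurableSet (B i)) ∧ K ⊆ ⋃ i, cyl (u i) (B i)

/-- All axes are orthogonal to one unit vector, i.e. parallel to a common plane. -/
def IsCoplanar (m : ℕ) (u : Fin m → Point) : Prop :=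
  ∃ n : Point, ‖n‖ = 1 ∧ ∀ i, inner ℝ (u i) n = 0

/-- At most two axis directions occur. -/
def IsTwoDirectional (m : ℕ) (u : Fin m → Point) : Prop :=
  ∃ a b : Point, ∀ i, (ℝ ∙ u i) = (ℝ ∙ a) ∨ (ℝ ∙ u i) = (ℝ ∙ b)

end Vale.Agent.P243
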