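import Mathlib.Analysis.Convex.Topology
import Mathlib.Analysis.LocallyConvex.Separation
import Mathlib.Analysis.Normed.Module.Convex
import Mathlib.Topology.Order.Compact

/-!
Polynomial identities for three by three matrices, used in the study of the ellipsoid inside a
symmetric convex body whose smallest shadow is largest.
-/

namespace Vale.Agent.P243.Sym

open Set

/-- Coordinate vectors. -/
abbrev V : Type := Fin 3 → ℝ

/-- Matrices, as lists of rows. -/
abbrev Mat : Type := Fin 3 → Fin 3 → ℝ

/-- The dot product. -/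
def dot (x y : V) : ℝ := x 0 * y 0 + x 1 * y 1 + x 2 * y 2

/-- The cross product. -/
def crs (x y : V) : V :=
  ![x 1 * y 2 - x 2 * y 1, x 2 * y 0 - x 0 * y 2, x 0 * y 1 - x 1 * y 0]

/-- Matrix times vector. -/
def mv (R : Mat) (x : V) : V := fun k => dot (R k) x

/-- Transposed matrix times vector. -/
def tm (R : Mat) (n : V) : V := fun a => n 0 * R 0 a + n 1 * R 1 a + n 2 * R 2 a

/-- The determinant. -/
def det3 (R : Mat) : ℝ := dot (R 0) (crs (R 1) (R 2))

/-- The matrix `x xᵀ`. -/
def outer (x : V) : Mat := fun a b => x a * x b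

/-- The unit matrix. -/
def one3 : Mat := fun a b => if a = b then 1 else 0

/-- `RᵀR`. -/
def gram (R : Mat) : Mat := fun a b => R 0 a * R 0 b + R 1 a * R 1 b + R 2 a * R 2 b

/-- The trace of a product. -/
def pair (P Q : Mat) : ℝ := ∑ a, ∑ b, P a b * Q a b

/-- The bilinear form sending `(vvᵀ, wwᵀ)` to `|R (v × w)|²`. -/
def crossForm (R M N : Mat) : ℝ :=
  ∑ p : Fin 3, ∑ q : Fin 3, gram R p q *
    (M (p + 1) (q + 1) * N (p + 2) (q + 2) - M (p + 1) (q + 2) * N (p + 2) (q + 1)
      - M (p + 2) (q + 1) * N (p + 1) (q + 2) + M (p + 2) (q + 2) * N (p + 1) (q + 1))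

lemma crossForm_outer (R : Mat) (v w : V) :
    crossForm R (outer v) (outer w) = dot (mv R (crs v w)) (mv R (crs v w)) := by
  simp only [crossForm, Fin.sum_univ_three, gram, outer, dot, mv, crs, Fin.isValue,
    Matrix.cons_val_zero, Matrix.cons_val_one, Matrix.cons_val,
    show (0 : Fin 3) + 1 = 1 from rfl, show (0 : Fin 3) + 2 = 2 from rfl,
    show (1 : Fin 3) + 1 = 2 from rfl, show (1 : Fin 3) + 2 = 0 from rfl,
    show (2 : Fin 3) + 1 = 0 from rfl, show (2 : Fin 3) + 2 = 1 from rfl]
  ring

lemma crossForm_comm (R M N : Mat) : crossForm R M N = crossForm R N M := by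
  unfold crossForm
  exact Finset.sum_congr rfl fun p _ => Finset.sum_congr rfl fun q _ => by ring

lemma crossForm_combo (R M N N' : Mat) (s t : ℝ) :
    crossForm R M (s • N + t • N') = s * crossForm R M N + t * crossForm R M N' := by
  simp only [crossForm, Finset.mul_sum, ← Finset.sum_add_distrib, Pi.add_apply, Pi.smul_apply,
    smul_eq_mul]
  exact Finset.sum_congr rfl fun p _ => Finset.sum_congr rfl fun q _ => by ring

lemma crossForm_smul (R M N : Mat) (s t : ℝ) :
    crossForm R (s • M) (t • N) = s * t * crossForm R M N := by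
  simp only [crossForm, Finset.mul_sum, Pi.smul_apply, smul_eq_mul]
  exact Finset.sum_congr rfl fun p _ => Finset.sum_congr rfl fun q _ => by ring

/-- The transport of cross products. -/
lemma det_smul_crs (R : Mat) (n m : V) :
    det3 R • crs n m = mv R (crs (tm R n) (tm R m)) := by
  funext k
  fin_cases k <;> simp [det3, dot, mv, crs, tm] <;> ring

lemma dot_tm (R : Mat) (n x : V) : dot (tm R n) x = dot n (mv R x) := by
  simp only [dot, tm, mv]; ring

lemma crossForm_complement {R P : Mat} {c : ℝ} (hsym : ∀ a b, P a b = P b a)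
    (htr : P 0 0 + P 1 1 + P 2 2 = 1)
    (hG : ∀ a b, gram R a 0 * P 0 b + gram R a 1 * P 1 b + gram R a 2 * P 2 b = c * P a b) :
    crossForm R (one3 - P) (one3 - P) =
      2 * c * pair P P + (1 - pair P P) * (gram R 0 0 + gram R 1 1 + gram R 2 2) := by
  have key : c * pair P P = ∑ a, ∑ b, (gram R a 0 * P 0 b + gram R a 1 * P 1 b
      + gram R a 2 * P 2 b) * P a b := by
    simp only [hG, pair, Finset.mul_sum]
    exact Finset.sum_congr rfl fun a _ => Finset.sum_congr rfl fun b _ => by ring
  rw [mul_assoc, key]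
  simp only [pair, crossForm, Fin.sum_univ_three, one3, Pi.sub_apply, Fin.isValue,
    show (0 : Fin 3) + 1 = 1 from rfl, show (0 : Fin 3) + 2 = 2 from rfl,
    show (1 : Fin 3) + 1 = 2 from rfl, show (1 : Fin 3) + 2 = 0 from rfl,
    show (2 : Fin 3) + 1 = 0 from rfl, show (2 : Fin 3) + 2 = 1 from rfl]
  have h22 : P 2 2 = 1 - P 0 0 - P 1 1 := by linarith
  rw [hsym 1 0, hsym 2 0, hsym 2 1, h22]
  simp
  ring

lemma dot_self_nonneg (x : V) : 0 ≤ dot x x := by
  unfold dot; nlinarith [sq_nonneg (x 0), sq_nonneg (x 1), sq_nonneg (x 2)]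

lemma dot_crs_sq (x y : V) :
    dot (crs x y) (crs x y) = dot x x * dot y y - dot x y ^ 2 := by
  simp [dot, crs]; ring

lemma crs_dot_left (x y : V) : dot x (crs x y) = 0 := by simp [dot, crs]; ring

lemma crs_dot_right (x y : V) : dot y (crs x y) = 0 := by simp [dot, crs]; ring

/-- Bessel's inequality for two vectors. -/
lemma bessel {x y r : V} (hx : dot x x = 1) (hy : dot y y = 1) (hxy : dot x y = 0) :
    dot r x ^ 2 + dot r y ^ 2 ≤ dot r r := by
  set z : V := r - dot r x • x - dot r y • y
  have h := dot_self_nonneg z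
  have e : dot z z = dot r r - 2 * dot r x * dot r x - 2 * dot r y * dot r y
      + dot r x ^ 2 * dot x x + dot r y ^ 2 * dot y y + 2 * dot r x * dot r y * dot x y := by
    simp [z, dot]; ring
  rw [e, hx, hy, hxy] at h
  nlinarith

lemma det_sq_le (R : Mat) :
    det3 R ^ 2 ≤ dot (mv R ![1,0,0]) (mv R ![1,0,0]) * dot (mv R ![0,1,0]) (mv R ![0,1,0])
      * dot (mv R ![0,0,1]) (mv R ![0,0,1]) := by
  set a := mv R ![1,0,0]; set b := mv R ![0,1,0]; set c := mv R ![0,0,1]
  have e : det3 R = dot a (crs b c) := by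
    simp [det3, a, b, c, dot, mv, crs]; ring
  rw [e]
  calc dot a (crs b c) ^ 2 ≤ dot a a * dot (crs b c) (crs b c) := by
        nlinarith [dot_self_nonneg (crs a (crs b c)), dot_crs_sq a (crs b c)]
    _ ≤ dot a a * (dot b b * dot c c) :=
        mul_le_mul_of_nonneg_left (by nlinarith [dot_crs_sq b c]) (dot_self_nonneg a)
    _ = _ := by ring

end Vale.Agent.P243.Sym
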