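import Vale.Agent.P243.SymAlg

/-!
The ellipsoid in a symmetric convex body with the largest smallest shadow, and two contact
normals of it that span a wide angle.
-/

namespace Vale.Agent.P243.Sym

open Set
open scoped Topology Pointwise

lemma exists_step {α : Type*} [TopologicalSpace α] {S : Set α} (hS : IsCompact S)
    {a b h : α → ℝ} (ha : Continuous a) (hb : Continuous b) (hh : Continuous h)
    (ha0 : ∀ y ∈ S, a y ≤ 0) (hab : ∀ y ∈ S, a y = 0 → b y < 0) :
    ∃ ε₀ : ℝ, 0 < ε₀ ∧ ε₀ ≤ 1 ∧
      ∀ ε : ℝ, 0 < ε → ε ≤ ε₀ → ∀ y ∈ S, a y + ε * b y + ε ^ 2 * h y < 0 := by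
  rcases S.eq_empty_or_nonempty with rfl | hne
  · exact ⟨1, one_pos, le_rfl, fun _ _ _ y hy => absurd hy (notMem_empty y)⟩
  obtain ⟨y₀, hy₀, hmin⟩ := hS.exists_isMinOn hne
    (f := fun y => max (-a y) (-b y)) (by fun_prop)
  set δ := max (-a y₀) (-b y₀)
  have hδ : 0 < δ := by
    rcases (ha0 y₀ hy₀).lt_or_eq with h' | h'
    · exact lt_max_of_lt_left (by linarith)
    · exact lt_max_of_lt_right (by linarith [hab y₀ hy₀ h'])
  obtain ⟨y₁, hy₁, hmax⟩ := hS.exists_isMaxOn hne (f := fun y => |b y| + |h y|) (by fun_prop)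
  set B := |b y₁| + |h y₁| + 1
  have hB : 0 < B := by positivity
  refine ⟨min 1 (δ / B / 2), lt_min one_pos (by positivity), min_le_left _ _, ?_⟩
  intro ε hε hεle y hy
  have hε1 : ε ≤ 1 := hεle.trans (min_le_left _ _)
  have hεB : ε * B < δ := by
    have h2 : ε * (B * 2) ≤ δ := by
      have := hεle.trans (min_le_right _ _)
      rwa [div_div, le_div_iff₀ (by positivity)] at this
    nlinarith [mul_pos hε hB]
  have hbh : |b y| + |h y| ≤ |b y₁| + |h y₁| := hmax hy
  have hmy : δ ≤ max (-a y) (-b y) := hmin hy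
  rcases le_max_iff.1 hmy with h' | h'
  · have h1 : ε * b y + ε ^ 2 * h y ≤ ε * (|b y| + |h y|) := by
      nlinarith [le_abs_self (b y), le_abs_self (h y), abs_nonneg (h y),
        mul_le_mul_of_nonneg_right hε1 (abs_nonneg (h y)), sq_nonneg ε]
    nlinarith
  · have h1 : ε * h y ≤ ε * B := by nlinarith [le_abs_self (h y), abs_nonneg (b y)]
    nlinarith [ha0 y hy]

/-- The unit sphere. -/
def sph : Set V := {x | dot x x = 1}

lemma continuous_dot {α : Type*} [TopologicalSpace α] {f g : α → V} (hf : Continuous f)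
    (hg : Continuous g) : Continuous fun a => dot (f a) (g a) := by
  unfold dot; fun_prop

lemma continuous_mv {α : Type*} [TopologicalSpace α] {R : α → Mat} {x : α → V}
    (hR : Continuous R) (hx : Continuous x) : Continuous fun a => mv (R a) (x a) := by
  unfold mv dot; fun_prop

lemma continuous_tm {α : Type*} [TopologicalSpace α] {R : α → Mat} {x : α → V}
    (hR : Continuous R) (hx : Continuous x) : Continuous fun a => tm (R a) (x a) := by
  unfold tm; fun_prop

lemma isCompact_sph : IsCompact sph := by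
  refine (isCompact_univ_pi fun _ => isCompact_Icc (a := (-1:ℝ)) (b := 1)).of_isClosed_subset
    (isClosed_eq (continuous_dot continuous_id continuous_id) continuous_const) fun x hx i _ => ?_
  simp only [sph, mem_ofPred_eq, dot] at hx
  constructor <;> fin_cases i <;>
    simp <;> nlinarith [sq_nonneg (x 0), sq_nonneg (x 1), sq_nonneg (x 2)]

/-- The squared operator norm. -/
noncomputable def opSq (R : Mat) : ℝ := sSup ((fun x => dot (mv R x) (mv R x)) '' sph)

lemma continuous_opSq : Continuous opSq := by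
  refine isCompact_sph.continuous_sSup (f := fun R x => dot (mv R x) (mv R x)) ?_
  exact continuous_dot (continuous_mv continuous_fst continuous_snd)
    (continuous_mv continuous_fst continuous_snd)

lemma exists_opSq (R : Mat) :
    ∃ x ∈ sph, dot (mv R x) (mv R x) = opSq R ∧
      ∀ y ∈ sph, dot (mv R y) (mv R y) ≤ opSq R := by
  have hc : Continuous fun x => dot (mv R x) (mv R x) :=
    continuous_dot (continuous_mv continuous_const continuous_id)
      (continuous_mv continuous_const continuous_id)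
  obtain ⟨x, hx, hmax⟩ := isCompact_sph.exists_isMaxOn
    ⟨![1, 0, 0], by simp [sph, dot]⟩ hc.continuousOn
  have heq : opSq R = dot (mv R x) (mv R x) :=
    IsGreatest.csSup_eq ⟨⟨x, hx, rfl⟩, by rintro _ ⟨y, hy, rfl⟩; exact hmax hy⟩
  exact ⟨x, hx, heq.symm, fun y hy => heq ▸ hmax hy⟩

lemma mv_bound (R : Mat) (x : V) : dot (mv R x) (mv R x) ≤ opSq R * dot x x := by
  rcases (dot_self_nonneg x).eq_or_lt with h | h
  · have hx : x = 0 := by
      funext i
      simp only [dot] at h
      fin_cases i <;> simp <;> nlinarith [sq_nonneg (x 0), sq_nonneg (x 1), sq_nonneg (x 2)]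
    simp [hx, mv, dot]
  · obtain ⟨-, -, -, hle⟩ := exists_opSq R
    set r := √(dot x x)
    have hr : 0 < r := Real.sqrt_pos.2 h
    have hr2 : r ^ 2 = dot x x := Real.sq_sqrt h.le
    have e1 : dot (r⁻¹ • x) (r⁻¹ • x) = 1 := by
      rw [show dot (r⁻¹ • x) (r⁻¹ • x) = r⁻¹ ^ 2 * dot x x by simp [dot]; ring, inv_pow, hr2,
        inv_mul_cancel₀ h.ne']
    have e2 : dot (mv R (r⁻¹ • x)) (mv R (r⁻¹ • x)) = r⁻¹ ^ 2 * dot (mv R x) (mv R x) := by
      simp [dot, mv]; ring
    have := hle _ (show r⁻¹ • x ∈ sph from e1)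
    rw [e2, inv_pow, hr2, inv_mul_le_iff₀ h] at this
    linarith

/-- A maximizing direction is an eigenvector of `RᵀR`. -/
lemma gram_eigen {R : Mat} {x : V} (hx : x ∈ sph) (he : dot (mv R x) (mv R x) = opSq R)
    (z : V) : dot (mv R z) (mv R x) = opSq R * dot z x := by
  set n := opSq R
  set b := n * dot z x - dot (mv R z) (mv R x)
  set a := n * dot z z - dot (mv R z) (mv R z)
  have key : ∀ t : ℝ, 0 ≤ 2 * t * b + t ^ 2 * a := by
    intro t
    have h := mv_bound R (x + t • z)
    have e1 : dot (x + t • z) (x + t • z) = dot x x + 2 * t * dot z x + t ^ 2 * dot z z := by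
      simp [dot]; ring
    have e2 : dot (mv R (x + t • z)) (mv R (x + t • z)) = dot (mv R x) (mv R x)
        + 2 * t * dot (mv R z) (mv R x) + t ^ 2 * dot (mv R z) (mv R z) := by
      simp [dot, mv]; ring
    rw [e1, e2, show dot x x = 1 from hx, he] at h
    simp only [a, b]
    linarith
  suffices b = 0 by simp only [b] at this; linarith
  by_contra hb
  have h1 : (0:ℝ) < |a| + 1 := by positivity
  have := key (-b / (|a| + 1))
  have e : 2 * (-b / (|a| + 1)) * b + (-b / (|a| + 1)) ^ 2 * a
      = b ^ 2 / (|a| + 1) ^ 2 * (a - 2 * (|a| + 1)) := by field_simp; ring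
  rw [e] at this
  have h2 : 0 < b ^ 2 / (|a| + 1) ^ 2 := by positivity
  nlinarith [le_abs_self a, abs_nonneg a]

/-- `R (1 + ε S)`. -/
def perturb (R S : Mat) (ε : ℝ) : Mat := fun k b => R k b + ε * tm S (R k) b

lemma mv_perturb (R S : Mat) (ε : ℝ) (x : V) :
    mv (perturb R S ε) x = mv R x + ε • mv R (mv S x) := by
  funext k; simp [mv, perturb, dot, tm]; ring

lemma tm_perturb (R S : Mat) (ε : ℝ) (n : V) :
    tm (perturb R S ε) n = tm R n + ε • tm S (tm R n) := by
  funext k; simp [perturb, tm]; ring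

lemma det_perturb (R S : Mat) (ε : ℝ) :
    ∃ τ σ δ : ℝ, τ = S 0 0 + S 1 1 + S 2 2 ∧
      det3 (perturb R S ε) = det3 R * (1 + ε * τ + ε ^ 2 * σ + ε ^ 3 * δ) ∧
      σ = (S 0 0 * S 1 1 - S 0 1 * S 1 0) + (S 0 0 * S 2 2 - S 0 2 * S 2 0)
        + (S 1 1 * S 2 2 - S 1 2 * S 2 1) ∧ δ = det3 S := by
  refine ⟨_, _, _, rfl, ?_, rfl, rfl⟩
  simp [det3, perturb, dot, crs, tm]; ring

lemma decompose (S : Mat) : S = ∑ a, ∑ b, S a b • (fun i j => if i = a ∧ j = b then (1:ℝ) else 0) := by
  funext i j
  simp only [Finset.sum_apply, Fin.sum_univ_three]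
  fin_cases i <;> fin_cases j <;> simp

variable (Φ : Set V)

/-- Matrices carrying the unit ball into the body with polar `Φ`. -/
def admissible : Set Mat := {R | ∀ n ∈ Φ, dot (tm R n) (tm R n) ≤ 1}

lemma continuous_outer : Continuous outer := by unfold outer; fun_prop

/-- The closed convex hull of the rank one matrices of a set of vectors. -/
def hull (X : Set V) : Set Mat := closure (convexHull ℝ (outer '' X))

lemma isCompact_hull {X : Set V} (hX : IsCompact X) : IsCompact (hull X) :=
  (isBounded_convexHull.2 (hX.image continuous_outer).isBounded).isCompact_closure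

lemma hull_subset {X : Set V} {s : Set Mat} (hc : Convex ℝ s) (hcl : IsClosed s)
    (h : outer '' X ⊆ s) : hull X ⊆ s :=
  closure_minimal (convexHull_min h hc) hcl

lemma opSq_cube (R : Mat) : det3 R ^ 2 ≤ opSq R ^ 3 := by
  obtain ⟨x, -, hx, hle⟩ := exists_opSq R
  have h0 : 0 ≤ opSq R := hx ▸ dot_self_nonneg _
  refine (det_sq_le R).trans ?_
  rw [show opSq R ^ 3 = opSq R * opSq R * opSq R by ring]
  gcongr <;> first | exact dot_self_nonneg _ | exact mul_nonneg h0 h0 | skip
  all_goals exact hle _ (by simp [sph, dot])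

/-- Directions in which the unit ball is stretched most. -/
noncomputable def top (R : Mat) : Set V := sph ∩ {x | dot (mv R x) (mv R x) = opSq R}

/-- Transported normals of the contact points. -/
def contact (R : Mat) : Set V := tm R '' Φ ∩ {y | dot y y = 1}

lemma isCompact_top (R : Mat) : IsCompact (top R) :=
  isCompact_sph.inter_right (isClosed_eq
    (continuous_dot (continuous_mv continuous_const continuous_id)
      (continuous_mv continuous_const continuous_id)) continuous_const)

lemma isCompact_contact (hΦ : IsCompact Φ) (R : Mat) : IsCompact (contact Φ R) :=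
  (hΦ.image (continuous_tm continuous_const continuous_id)).inter_right
    (isClosed_eq (continuous_dot continuous_id continuous_id) continuous_const)

lemma exists_direction {Vc X : Set V} (hVc : IsCompact Vc) (hXc : IsCompact X)
    (hV1 : ∀ y ∈ Vc, dot y y = 1) (hX1 : ∀ x ∈ X, dot x x = 1)
    (hno : ¬∃ M ∈ hull Vc, ∃ P ∈ hull X, (2:ℝ) • M = one3 - P) :
    ∃ S : Mat, (∀ y ∈ Vc, dot y (mv S y) < 0) ∧
      ∀ x ∈ X, dot x (mv S x) < S 0 0 + S 1 1 + S 2 2 := by
  push Not at hno
  obtain ⟨f, u, v, hu, huv, hv⟩ := geometric_hahn_banach_compact_closed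
    (s := (2:ℝ) • (hull Vc)) (t := (fun P : Mat => one3 - P) '' (hull X))
    ((convex_convexHull ℝ _).closure.smul 2)
    ((isCompact_hull hVc).smul _)
    (by
      have hcv : Convex ℝ (hull X) := (convex_convexHull ℝ _).closure
      rintro _ ⟨P, hP, rfl⟩ _ ⟨Q, hQ, rfl⟩ s t hs ht hst
      refine ⟨s • P + t • Q, hcv hP hQ hs ht hst, ?_⟩
      obtain rfl : t = 1 - s := by linarith
      module)
    ((isCompact_hull hXc).image (by fun_prop)).isClosed
    (Set.disjoint_left.2 (by rintro _ ⟨M, hM, rfl⟩ ⟨P, hP, h⟩; exact hno M hM P hP h.symm))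
  set e : Fin 3 → Fin 3 → Mat := fun a b i j => if i = a ∧ j = b then 1 else 0
  set S : Mat := fun a b => f (e a b) - u / 2 * one3 a b
  have hf : ∀ Q : Mat, f Q = ∑ a, ∑ b, Q a b * f (e a b) := fun Q => by
    conv_lhs => rw [decompose Q]
    simp only [map_sum, map_smul, smul_eq_mul, e]
  have hq : ∀ y, dot y (mv S y) = f (outer y) - u / 2 * dot y y := fun y => by
    rw [hf]
    simp [S, dot, mv, outer, one3, Fin.sum_univ_three]
    ring
  have hSV : ∀ y ∈ Vc, dot y (mv S y) < 0 := by
    intro y hy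
    have := hu _ ⟨_, subset_closure (subset_convexHull ℝ _ ⟨y, hy, rfl⟩), rfl⟩
    rw [map_smul, smul_eq_mul] at this
    rw [hq, hV1 y hy]
    linarith
  have hSX : ∀ x ∈ X, dot x (mv S x) < S 0 0 + S 1 1 + S 2 2 := by
    intro x hx
    have := hv _ ⟨_, subset_closure (subset_convexHull ℝ _ ⟨x, hx, rfl⟩), rfl⟩
    rw [map_sub] at this
    have e1 : f one3 = f (e 0 0) + f (e 1 1) + f (e 2 2) := by
      rw [hf]; simp [Fin.sum_univ_three, one3]
    rw [hq, hX1 x hx]
    simp only [S, one3]
    simp
    linarith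
  exact ⟨S, hSV, hSX⟩

lemma det_step_bound {ε τ σ δ : ℝ} (hε : 0 < ε) (hε1 : ε ≤ 1) :
    1 + 2 * ε * τ - 2 * (1 + |τ|) * (|σ| + |δ|) * ε ^ 2 ≤
      (1 + ε * τ + ε ^ 2 * σ + ε ^ 3 * δ) ^ 2 := by
  set d := 1 + ε * τ + ε ^ 2 * σ + ε ^ 3 * δ
  have a1 : |1 + ε * τ| ≤ 1 + |τ| := by
    refine (abs_add_le _ _).trans ?_
    rw [abs_one, abs_mul, abs_of_pos hε]
    nlinarith [abs_nonneg τ]
  have a2 : |ε ^ 2 * σ + ε ^ 3 * δ| ≤ ε ^ 2 * (|σ| + |δ|) := by
    refine (abs_add_le _ _).trans ?_
    rw [abs_mul, abs_mul, abs_of_nonneg (sq_nonneg ε), abs_of_nonneg (pow_nonneg hε.le 3)]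
    nlinarith [mul_le_mul_of_nonneg_right hε1 (mul_nonneg (sq_nonneg ε) (abs_nonneg δ))]
  have a3 : -((1 + |τ|) * (ε ^ 2 * (|σ| + |δ|))) ≤
      (1 + ε * τ) * (ε ^ 2 * σ + ε ^ 3 * δ) := by
    refine le_trans (neg_le_neg ?_) (neg_abs_le _)
    rw [abs_mul]
    exact mul_le_mul a1 a2 (abs_nonneg _) (by positivity)
  have e1 : d ^ 2 = (1 + ε * τ) ^ 2 + 2 * ((1 + ε * τ) * (ε ^ 2 * σ + ε ^ 3 * δ))
      + (ε ^ 2 * σ + ε ^ 3 * δ) ^ 2 := by simp only [d]; ring
  rw [e1]
  nlinarith [sq_nonneg (ε * τ), sq_nonneg (ε ^ 2 * σ + ε ^ 3 * δ)]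

lemma exists_improvement (hΦ : IsCompact Φ) {R : Mat} (hR : R ∈ admissible Φ)
    (hdet : det3 R ≠ 0) {S : Mat} (hSV : ∀ y ∈ contact Φ R, dot y (mv S y) < 0)
    (hSX : ∀ x ∈ top R, dot x (mv S x) < S 0 0 + S 1 1 + S 2 2) :
    ∃ R' ∈ admissible Φ, 0 < opSq R' ∧ det3 R ^ 2 / opSq R < det3 R' ^ 2 / opSq R' := by
  set n := opSq R with hndef
  have hn : 0 < n := by
    by_contra h
    have := opSq_cube R
    have : opSq R ^ 3 ≤ 0 := by nlinarith [sq_nonneg (opSq R), not_lt.1 h]
    nlinarith [show 0 < det3 R ^ 2 by positivity]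
  set Y := tm R '' Φ
  have hY : IsCompact Y := hΦ.image (continuous_tm continuous_const continuous_id)
  have hY1 : ∀ y ∈ Y, dot y y ≤ 1 := by rintro _ ⟨m, hm, rfl⟩; exact hR m hm
  set τ := S 0 0 + S 1 1 + S 2 2
  obtain ⟨_, σ, δ, -, -, hσ, hδ⟩ := det_perturb R S 0
  set C := 2 * (1 + |τ|) * (|σ| + |δ|) with hC
  obtain ⟨ε₁, hε₁, hε₁1, hstep1⟩ := exists_step hY (a := fun y => dot y y - 1)
    (b := fun y => 2 * dot y (mv S y)) (h := fun y => dot (tm S y) (tm S y))
    ((continuous_dot continuous_id continuous_id).sub continuous_const)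
    (continuous_const.mul (continuous_dot continuous_id
      (continuous_mv continuous_const continuous_id)))
    (continuous_dot (continuous_tm continuous_const continuous_id)
      (continuous_tm continuous_const continuous_id))
    (fun y hy => by linarith [hY1 y hy])
    (fun y hy h => by linarith [hSV y ⟨hy, show dot y y = 1 by linarith⟩])
  have hmvR : Continuous fun x => mv R x := continuous_mv continuous_const continuous_id
  have hmvS : Continuous fun x => mv R (mv S x) :=
    continuous_mv continuous_const (continuous_mv continuous_const continuous_id)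
  obtain ⟨ε₂, hε₂, hε₂1, hstep2⟩ := exists_step isCompact_sph
    (a := fun x => dot (mv R x) (mv R x) - n)
    (b := fun x => 2 * dot (mv R x) (mv R (mv S x)) - 2 * n * τ)
    (h := fun x => dot (mv R (mv S x)) (mv R (mv S x)) + n * C)
    ((continuous_dot hmvR hmvR).sub continuous_const)
    ((continuous_const.mul (continuous_dot hmvR hmvS)).sub continuous_const)
    ((continuous_dot hmvS hmvS).add continuous_const)
    (fun x hx => by
      have := mv_bound R x
      rw [show dot x x = 1 from hx, mul_one, ← hndef] at this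
      linarith)
    (fun x hx h => by
      have hxX : x ∈ top R := ⟨hx, show _ = n by linarith⟩
      have hg : dot (mv R (mv S x)) (mv R x) = n * dot (mv S x) x :=
        gram_eigen hx (show _ = n by linarith) (mv S x)
      have := mul_lt_mul_of_pos_left (hSX x hxX) hn
      have c1 : dot (mv R x) (mv R (mv S x)) = dot (mv R (mv S x)) (mv R x) := by
        simp [dot]; ring
      have c2 : dot (mv S x) x = dot x (mv S x) := by simp [dot]; ring
      rw [c1, hg, c2]
      linarith)
  set ε := min ε₁ ε₂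
  have hε : 0 < ε := lt_min hε₁ hε₂
  have hε1 : ε ≤ 1 := (min_le_left _ _).trans hε₁1
  set R' := perturb R S ε with hR'
  obtain ⟨τ', σ', δ', hτ', hdet', hσ', hδ'⟩ := det_perturb R S ε
  rw [show σ' = σ by rw [hσ', hσ], show δ' = δ by rw [hδ', hδ], show τ' = τ from hτ'] at hdet'
  set d := 1 + ε * τ + ε ^ 2 * σ + ε ^ 3 * δ with hdef
  have hd : 1 + 2 * ε * τ - C * ε ^ 2 ≤ d ^ 2 := det_step_bound hε hε1
  obtain ⟨x', hx', hxe', -⟩ := exists_opSq R'
  have hlt : opSq R' < n * d ^ 2 := by
    have := hstep2 ε hε (min_le_right _ _) x' hx'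
    rw [← hxe', hR', mv_perturb]
    have e2 : ∀ p q : V, dot (p + ε • q) (p + ε • q)
        = dot p p + 2 * ε * dot p q + ε ^ 2 * dot q q := fun p q => by simp [dot]; ring
    rw [e2]
    nlinarith [mul_le_mul_of_nonneg_left hd hn.le]
  have hadm' : R' ∈ admissible Φ := by
    intro m hm
    have := hstep1 ε hε (min_le_left _ _) _ ⟨m, hm, rfl⟩
    rw [hR', tm_perturb]
    set y := tm R m
    have e2 : dot (y + ε • tm S y) (y + ε • tm S y) = dot y y + 2 * ε * dot y (mv S y)
        + ε ^ 2 * dot (tm S y) (tm S y) := by simp [dot, tm, mv]; ring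
    rw [e2]
    linarith
  have hd2 : 0 < d ^ 2 := by
    have : 0 ≤ opSq R' := hxe' ▸ dot_self_nonneg _
    exact pos_of_mul_pos_right (lt_of_le_of_lt this hlt) hn.le
  have hop' : 0 < opSq R' := by
    by_contra h
    have h0 : opSq R' = 0 := le_antisymm (not_lt.1 h) (hxe' ▸ dot_self_nonneg _)
    have := opSq_cube R'
    rw [h0, hdet'] at this
    have h2 : 0 < (det3 R * d) ^ 2 := by
      rw [mul_pow]; exact mul_pos (by positivity) hd2
    rw [zero_pow (by norm_num)] at this
    exact absurd this (not_le.2 h2)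
  have hbetter : det3 R ^ 2 / n < det3 R' ^ 2 / opSq R' := by
    rw [hdet', div_lt_div_iff₀ hn hop', mul_pow]
    have := mul_lt_mul_of_pos_left hlt (show 0 < det3 R ^ 2 by positivity)
    linarith
  exact ⟨R', hadm', hop', hbetter⟩

lemma quadratic_ge {R P : Mat} (hP : P ∈ hull (top R)) :
    2 * opSq R ≤ crossForm R (one3 - P) (one3 - P) := by
  set n := opSq R with hndef
  -- properties of `P`
  have hhull : ∀ {s : Set Mat}, Convex ℝ s → IsClosed s → outer '' (top R) ⊆ s → P ∈ s :=
    fun hc hcl h => hull_subset hc hcl h hP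
  have hsym : ∀ a b, P a b = P b a := fun a b => hhull (s := {Q : Mat | Q a b = Q b a})
    (fun Q hQ Q' hQ' s t _ _ _ => by simp only [mem_ofPred_eq] at *; simp [hQ, hQ'])
    (isClosed_eq (by fun_prop) (by fun_prop))
    (by rintro _ ⟨x, -, rfl⟩; simp [outer, mul_comm])
  have htr : P 0 0 + P 1 1 + P 2 2 = 1 := hhull (s := {Q : Mat | Q 0 0 + Q 1 1 + Q 2 2 = 1})
    (fun Q hQ Q' hQ' s t _ _ hst => by
      simp only [mem_ofPred_eq] at *; simp; linear_combination s * hQ + t * hQ' + hst)
    (isClosed_eq (by fun_prop) (by fun_prop))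
    (by rintro _ ⟨x, hx, rfl⟩; exact hx.1)
  have hG : ∀ a b, gram R a 0 * P 0 b + gram R a 1 * P 1 b + gram R a 2 * P 2 b = n * P a b :=
    fun a b => hhull
      (s := {Q : Mat | gram R a 0 * Q 0 b + gram R a 1 * Q 1 b + gram R a 2 * Q 2 b = n * Q a b})
      (fun Q hQ Q' hQ' s t _ _ _ => by
        simp only [mem_ofPred_eq] at *; simp; linear_combination s * hQ + t * hQ')
      (isClosed_eq (by fun_prop) (by fun_prop))
      (by
        rintro _ ⟨x, hx, rfl⟩
        have := gram_eigen hx.1 hx.2 (fun i => if i = a then 1 else 0)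
        simp only [dot, mv] at this
        simp only [mem_ofPred_eq, gram, outer]
        fin_cases a <;> simp at this ⊢ <;> linear_combination (x b) * this)
  have hPP : pair P P ≤ 1 := by
    have step : ∀ Q : Mat, (∀ x ∈ (top R), pair Q (outer x) ≤ 1) → pair Q P ≤ 1 := fun Q hQ =>
      hhull (s := {N : Mat | pair Q N ≤ 1})
        (fun N hN N' hN' s t hs ht hst => by
          simp only [mem_ofPred_eq, pair, Fin.sum_univ_three] at *
          simp
          nlinarith)
        (isClosed_le (by unfold pair; fun_prop) continuous_const)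
        (by rintro _ ⟨x, hx, rfl⟩; exact hQ x hx)
    refine step P fun x hx => ?_
    have h1 : pair (outer x) P ≤ 1 := step _ fun y hy => by
      have e : pair (outer x) (outer y) = dot x y ^ 2 := by
        simp [pair, outer, dot, Fin.sum_univ_three]; ring
      rw [e]
      nlinarith [dot_self_nonneg (crs x y), dot_crs_sq x y, show dot x x = 1 from hx.1,
        show dot y y = 1 from hy.1]
    have e : pair P (outer x) = pair (outer x) P :=
      Finset.sum_congr rfl fun a _ => Finset.sum_congr rfl fun b _ => mul_comm _ _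
    rwa [e]
  -- the lower bound on the quadratic form
  have htrace : pair P P = 1 ∨ 2 * n ≤ gram R 0 0 + gram R 1 1 + gram R 2 2 := by
    by_cases htwo : ∃ x ∈ (top R), ∃ x' ∈ (top R), outer x ≠ outer x'
    · right
      obtain ⟨x, hx, x', hx', hne⟩ := htwo
      set t := dot x x'
      have hxx : dot x x = 1 := hx.1
      have hyy : dot x' x' = 1 := hx'.1
      have hsq : 0 < 1 - t ^ 2 := by
        by_contra h
        have h0 := dot_crs_sq x x'
        rw [hxx, hyy] at h0
        have hc := dot_self_nonneg (crs x x')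
        have ht : t ^ 2 = 1 := by nlinarith [not_lt.1 h]
        apply hne
        have hz : dot (x' - t • x) (x' - t • x) = 0 := by
          rw [show dot (x' - t • x) (x' - t • x) = dot x' x' - 2 * t * dot x x'
            + t ^ 2 * dot x x by simp [dot]; ring, hxx, hyy]
          show 1 - 2 * t * t + t ^ 2 * 1 = 0
          linear_combination -ht
        have hzero : ∀ i, x' i = t * x i := fun i => by
          simp only [dot, Pi.sub_apply, Pi.smul_apply, smul_eq_mul] at hz
          fin_cases i <;> simp <;>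
            nlinarith [sq_nonneg (x' 0 - t * x 0), sq_nonneg (x' 1 - t * x 1),
              sq_nonneg (x' 2 - t * x 2)]
        funext a b
        simp only [outer, hzero]
        linear_combination -(x a * x b) * ht
      set k := (√(1 - t ^ 2))⁻¹
      set y : V := k • (x' - t • x)
      have hk : k ^ 2 * (1 - t ^ 2) = 1 := by
        rw [inv_pow, Real.sq_sqrt hsq.le, inv_mul_cancel₀ hsq.ne']
      have hy1 : dot y y = 1 := by
        rw [show dot y y = k ^ 2 * (dot x' x' - 2 * t * dot x x' + t ^ 2 * dot x x) by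
          simp [y, dot]; ring, hxx, hyy, show dot x x' = t from rfl]
        linear_combination hk
      have hxy : dot x y = 0 := by
        rw [show dot x y = k * (dot x x' - t * dot x x) by simp [y, dot]; ring, hxx]
        show k * (t - t * 1) = 0
        ring
      have hyn : dot (mv R y) (mv R y) = n := by
        have g1 := gram_eigen hx'.1 hx'.2 y
        have g2 := gram_eigen hx.1 hx.2 y
        rw [show dot (mv R y) (mv R y) = k * (dot (mv R y) (mv R x') - t * dot (mv R y) (mv R x))
          by simp [y, dot, mv]; ring, g1, g2]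
        have c : dot y y = k * (dot y x' - t * dot y x) := by simp [y, dot]; ring
        rw [← hndef, show k * (n * dot y x' - t * (n * dot y x)) = n * (k * (dot y x' - t * dot y x))
          by ring, ← c, hy1, mul_one]
      have b0 := bessel (r := R 0) hxx hy1 hxy
      have b1 := bessel (r := R 1) hxx hy1 hxy
      have b2 := bessel (r := R 2) hxx hy1 hxy
      have hxn : dot (mv R x) (mv R x) = n := hx.2
      simp only [dot, mv] at hyn hxn b0 b1 b2
      simp only [gram]
      linarith
    · left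
      push Not at htwo
      have hXne : (top R).Nonempty := by
        obtain ⟨x, hx, he, -⟩ := exists_opSq R
        exact ⟨x, hx, he⟩
      obtain ⟨x, hx⟩ := hXne
      have hPx : P = outer x := hhull (s := {outer x}) (convex_singleton _) isClosed_singleton
        (by rintro _ ⟨y, hy, rfl⟩; exact (htwo x hx y hy).symm)
      have h1 : dot x x = 1 := hx.1
      rw [hPx, show pair (outer x) (outer x) = dot x x ^ 2 by
        simp [pair, outer, dot, Fin.sum_univ_three]; ring, h1, one_pow]
  rw [crossForm_complement hsym htr hG]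
  rcases htrace with h | h
  · rw [h]; linarith
  · nlinarith [mul_le_mul_of_nonneg_left h (sub_nonneg.2 hPP)]

/-- The main extremal fact: some admissible matrix has two contact normals whose transported
cross product is long. -/
theorem exists_wide_pair (hΦ : IsCompact Φ) {r : ℝ} (hr : 0 < r)
    (hball : ∀ n ∈ Φ, r ^ 2 * dot n n ≤ 1) (hadm : Bornology.IsBounded (admissible Φ)) :
    ∃ R ∈ admissible Φ, det3 R ≠ 0 ∧ ∃ n ∈ Φ, ∃ m ∈ Φ,
      opSq R / 2 ≤ det3 R ^ 2 * dot (crs n m) (crs n m) := by
  classical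
  -- maximize `det² / opSq`
  have hadc : IsClosed (admissible Φ) := by
    simp only [admissible, ofPred_forall]
    exact isClosed_iInter fun n => isClosed_iInter fun _ => isClosed_le
      (continuous_dot (continuous_tm continuous_id continuous_const)
        (continuous_tm continuous_id continuous_const)) continuous_const
  have hdetc : Continuous det3 := by
    unfold det3
    refine continuous_dot (by fun_prop) ?_
    simp only [crs]; fun_prop
  set D := admissible Φ ∩ {R | r ^ 6 ≤ det3 R ^ 2}
  have hD : IsCompact D :=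
    (hadm.subset inter_subset_left).isCompact_closure.of_isClosed_subset
      (hadc.inter (isClosed_le continuous_const (hdetc.pow 2))) subset_closure
  have hoppos : ∀ R ∈ D, 0 < opSq R := by
    intro R hR
    by_contra h
    have h0 : opSq R ^ 3 ≤ 0 := by
      nlinarith [sq_nonneg (opSq R), not_lt.1 h]
    have : r ^ 6 ≤ det3 R ^ 2 := hR.2
    nlinarith [opSq_cube R, pow_pos hr 6]
  set R₀ : Mat := r • one3
  have hR₀ : R₀ ∈ D := by
    constructor
    · intro n hn
      have := hball n hn
      simp [R₀, tm, one3, dot] at this ⊢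
      linarith
    · show r ^ 6 ≤ det3 R₀ ^ 2
      simp [R₀, det3, one3, dot, crs]
      ring_nf
      exact le_rfl
  obtain ⟨R, hR, hmax⟩ := hD.exists_isMaxOn ⟨R₀, hR₀⟩
    (f := fun R => det3 R ^ 2 / opSq R)
    (ContinuousOn.div (hdetc.pow 2).continuousOn continuous_opSq.continuousOn
      fun R hR => (hoppos R hR).ne')
  have hn := hoppos R hR
  set n := opSq R with hndef
  have hdet : det3 R ≠ 0 := fun h => by
    have : r ^ 6 ≤ det3 R ^ 2 := hR.2
    rw [h] at this
    nlinarith [pow_pos hr 6]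
  have hF₀ : r ^ 4 ≤ det3 R ^ 2 / n := by
    refine le_trans ?_ (hmax hR₀)
    obtain ⟨x, hx, hxe, -⟩ := exists_opSq R₀
    show r ^ 4 ≤ det3 R₀ ^ 2 / opSq R₀
    have hop : opSq R₀ = r ^ 2 := by
      rw [← hxe]
      have h1 : dot x x = 1 := hx
      simp [R₀, mv, one3, dot] at h1 ⊢
      linear_combination (r ^ 2) * h1
    rw [hop, le_div_iff₀ (pow_pos hr 2)]
    have : r ^ 6 ≤ det3 R₀ ^ 2 := hR₀.2
    linarith
  have hmeet : ∃ M ∈ hull (contact Φ R), ∃ P ∈ hull (top R), (2:ℝ) • M = one3 - P := by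
    by_contra hno
    obtain ⟨S, hSV, hSX⟩ := exists_direction (isCompact_contact Φ hΦ R) (isCompact_top R)
      (fun y hy => hy.2) (fun x hx => hx.1) hno
    obtain ⟨R', hadm', hop', hbetter⟩ := exists_improvement Φ hΦ hR.1 hdet hSV hSX
    have hmem : R' ∈ D := by
      refine ⟨hadm', ?_⟩
      show r ^ 6 ≤ det3 R' ^ 2
      have h4 : r ^ 4 ≤ det3 R' ^ 2 / opSq R' := hF₀.trans hbetter.le
      rw [le_div_iff₀ hop'] at h4
      have h3 := opSq_cube R'
      have h2 : r ^ 2 ≤ opSq R' := by
        by_contra h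
        have hlt := pow_lt_pow_left₀ (not_le.1 h) hop'.le two_ne_zero
        have := mul_lt_mul_of_pos_left hlt hop'
        have e1 : opSq R' * opSq R' ^ 2 = opSq R' ^ 3 := by ring
        have e2 : opSq R' * (r ^ 2) ^ 2 = r ^ 4 * opSq R' := by ring
        linarith
      calc r ^ 6 = r ^ 4 * r ^ 2 := by ring
        _ ≤ r ^ 4 * opSq R' := by gcongr
        _ ≤ _ := h4
    exact absurd (hmax hmem) (not_le.2 hbetter)
  obtain ⟨M, hM, P, hP, hMP⟩ := hmeet
  have hlow : n / 2 ≤ crossForm R M M := by
    have h4 := quadratic_ge hP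
    rw [← hMP, crossForm_smul] at h4
    linarith
  -- some pair is at least as good
  have hVne : (contact Φ R).Nonempty := by
    by_contra h
    rw [not_nonempty_iff_eq_empty] at h
    simp [hull, h] at hM
  have hcont : Continuous fun q : V × V => crossForm R (outer q.1) (outer q.2) := by
    unfold crossForm outer; fun_prop
  obtain ⟨⟨v, w⟩, ⟨hv, hw⟩, hvw⟩ := ((isCompact_contact Φ hΦ R).prod (isCompact_contact Φ hΦ R)).exists_isMaxOn (hVne.prod hVne)
    hcont.continuousOn
  have hupper : ∀ (Q : Mat) (κ : ℝ), (∀ y ∈ (contact Φ R), crossForm R Q (outer y) ≤ κ) →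
      crossForm R Q M ≤ κ := fun Q κ hQ => by
    refine hull_subset (s := {N : Mat | crossForm R Q N ≤ κ}) ?_ ?_ ?_ hM
    rotate_left 2
    · rintro _ ⟨y, hy, rfl⟩; exact hQ y hy
    · intro N hN N' hN' s t hs ht hst
      simp only [mem_ofPred_eq] at *
      rw [crossForm_combo]
      calc _ ≤ s * κ + t * κ := by gcongr
        _ = κ := by rw [← add_mul, hst, one_mul]
    · exact isClosed_le (by unfold crossForm; fun_prop) continuous_const
  have hup : crossForm R M M ≤ crossForm R (outer v) (outer w) := by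
    refine hupper _ _ fun y hy => ?_
    rw [crossForm_comm]
    exact hupper _ _ fun z hz => hvw (a := (y, z)) ⟨hy, hz⟩
  obtain ⟨⟨n₁, hn₁, hv₁⟩, -⟩ := hv
  obtain ⟨⟨n₂, hn₂, hw₂⟩, -⟩ := hw
  refine ⟨R, hR.1, hdet, n₁, hn₁, n₂, hn₂, hlow.trans (hup.trans (le_of_eq ?_))⟩
  rw [crossForm_outer, show v = tm R n₁ from hv₁.symm, show w = tm R n₂ from hw₂.symm,
    ← det_smul_crs]
  simp [dot]; ring

end Vale.Agent.P243.Sym
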