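import Vale.Agent.P243.Lift
import Mathlib.MeasureTheory.Measure.Lebesgue.VolumeOfBalls
import Mathlib.MeasureTheory.Measure.Lebesgue.Complex

/-!
Cylinder coverings of an ellipsoid: a shell in one more dimension has constant line integrals,
which bounds the total base area below by the smallest shadow of the ellipsoid.
-/

namespace Vale.Agent.P243.Sym

open MeasureTheory Set Module
open scoped RealInnerProductSpace ENNReal
open Thin (R2 W nsq)

lemma volume_disc_closed {r : ℝ} (hr : 0 ≤ r) :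
    volume {q : R2 | nsq q ≤ r} = ENNReal.ofReal (Real.pi * r) := by
  have hm : MeasurableSet {q : R2 | nsq q ≤ r} :=
    measurableSet_le Thin.continuous_nsq.measurable measurable_const
  rw [← Complex.volume_preserving_equiv_real_prod.measure_preimage hm.nullMeasurableSet]
  have : Complex.measurableEquivRealProd ⁻¹' {q : R2 | nsq q ≤ r} =
      Metric.closedBall 0 √r := by
    ext z
    simp only [mem_preimage, mem_ofPred_eq, Complex.measurableEquivRealProd_apply, nsq,
      mem_closedBall_zero_iff]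
    rw [Real.le_sqrt (norm_nonneg _) hr, Complex.sq_norm, Complex.normSq_apply]
    constructor <;> intro h <;> linarith
  rw [this, Complex.volume_closedBall, ← ENNReal.ofReal_pow (Real.sqrt_nonneg _),
    Real.sq_sqrt hr, mul_comm, ENNReal.ofReal_mul Real.pi_pos.le,
    show (NNReal.pi : ℝ≥0∞) = ENNReal.ofReal Real.pi by
      rw [← NNReal.coe_real_pi, ENNReal.ofReal_coe_nnreal]]

lemma volume_disc_open {r : ℝ} (hr : 0 ≤ r) :
    volume {q : R2 | nsq q < r} = ENNReal.ofReal (Real.pi * r) := by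
  have hm : MeasurableSet {q : R2 | nsq q < r} :=
    measurableSet_lt Thin.continuous_nsq.measurable measurable_const
  rw [← Complex.volume_preserving_equiv_real_prod.measure_preimage hm.nullMeasurableSet]
  have : Complex.measurableEquivRealProd ⁻¹' {q : R2 | nsq q < r} =
      Metric.ball 0 √r := by
    ext z
    simp only [mem_preimage, mem_ofPred_eq, Complex.measurableEquivRealProd_apply, nsq,
      mem_ball_zero_iff]
    rw [Real.lt_sqrt (norm_nonneg _), Complex.sq_norm, Complex.normSq_apply]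
    constructor <;> intro h <;> linarith
  rw [this, Complex.volume_ball, ← ENNReal.ofReal_pow (Real.sqrt_nonneg _),
    Real.sq_sqrt hr, mul_comm, ENNReal.ofReal_mul Real.pi_pos.le,
    show (NNReal.pi : ℝ≥0∞) = ENNReal.ofReal Real.pi by
      rw [← NNReal.coe_real_pi, ENNReal.ofReal_coe_nnreal]]

/-- The annulus `ρ² ≤ m + |q|² ≤ 1`. -/
def annulus (ρ m : ℝ) : Set R2 := {q | ρ ^ 2 ≤ m + nsq q ∧ m + nsq q ≤ 1}

lemma annulus_le {ρ m : ℝ} (hρ : ρ ^ 2 ≤ 1) :
    volume (annulus ρ m) ≤ ENNReal.ofReal (Real.pi * (1 - ρ ^ 2)) := by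
  rcases lt_or_ge 1 m with h | h
  · have : annulus ρ m = ∅ := eq_empty_of_forall_notMem fun q hq => by
      linarith [hq.2, Thin.nsq_nonneg q]
    simp [this]
  rcases le_total (ρ ^ 2) m with h' | h'
  · refine (measure_mono (t := {q : R2 | nsq q ≤ 1 - m})
      fun q hq => show nsq q ≤ 1 - m by linarith [hq.2]).trans ?_
    rw [volume_disc_closed (by linarith)]
    exact ENNReal.ofReal_le_ofReal (by gcongr)
  · have : annulus ρ m ⊆ {q : R2 | nsq q ≤ 1 - m} \ {q : R2 | nsq q < ρ ^ 2 - m} := fun q hq =>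
      ⟨show nsq q ≤ 1 - m by linarith [hq.2],
        fun (hlt : nsq q < ρ ^ 2 - m) => by linarith [hq.1]⟩
    refine (measure_mono this).trans ?_
    have hsd : {q : R2 | nsq q < ρ ^ 2 - m} ⊆ {q : R2 | nsq q ≤ 1 - m} :=
      fun q (hq : nsq q < ρ ^ 2 - m) => show nsq q ≤ 1 - m by linarith
    rw [measure_sdiff hsd
      (measurableSet_lt Thin.continuous_nsq.measurable measurable_const).nullMeasurableSet
      (by rw [volume_disc_open (by linarith)]; exact ENNReal.ofReal_ne_top),
      volume_disc_closed (by linarith), volume_disc_open (by linarith),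
      ← ENNReal.ofReal_sub _ (by nlinarith [Real.pi_pos])]
    exact ENNReal.ofReal_le_ofReal (by linarith)

lemma annulus_eq {ρ m : ℝ} (hρ : ρ ^ 2 ≤ 1) (hm : m ≤ ρ ^ 2) :
    volume (annulus ρ m) = ENNReal.ofReal (Real.pi * (1 - ρ ^ 2)) := by
  have : annulus ρ m = {q : R2 | nsq q ≤ 1 - m} \ {q : R2 | nsq q < ρ ^ 2 - m} := by
    ext q
    simp only [annulus, mem_ofPred_eq, Set.mem_sdiff, not_lt]
    constructor <;> rintro ⟨a, b⟩ <;> constructor <;> linarith
  have hsd : {q : R2 | nsq q < ρ ^ 2 - m} ⊆ {q : R2 | nsq q ≤ 1 - m} :=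
    fun q (hq : nsq q < ρ ^ 2 - m) => show nsq q ≤ 1 - m by linarith
  rw [this, measure_sdiff hsd
    (measurableSet_lt Thin.continuous_nsq.measurable measurable_const).nullMeasurableSet
    (by rw [volume_disc_open (by linarith)]; exact ENNReal.ofReal_ne_top),
    volume_disc_closed (by linarith), volume_disc_open (by linarith),
    ← ENNReal.ofReal_sub _ (by nlinarith [Real.pi_pos])]
  congr 1
  ring

/-- Integration over lines parallel to an axis, with one extra coordinate. -/
lemma lift_volume {n e u : Point} (h : IsFrame n e u) {S : Set (Point × ℝ)}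
    (hS : MeasurableSet S) :
    volume S = ∫⁻ y : R2, volume {q : R2 | (frameMap n e u (y, q.1), q.2) ∈ S} := by
  have h1 : MeasurePreserving
      (fun x : R2 × R2 => (frameMap n e u (x.1, x.2.1), x.2.2)) volume volume := by
    have hassoc : MeasurePreserving (MeasurableEquiv.prodAssoc (α := R2) (β := ℝ) (γ := ℝ))
        (((volume : Measure R2).prod volume).prod volume)
        ((volume : Measure R2).prod ((volume : Measure ℝ).prod volume)) :=
      measurePreserving_prodAssoc volume volume volume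
    exact (h.measurePreserving.prod (MeasurePreserving.id volume)).comp hassoc.symm
  rw [← h1.measure_preimage hS.nullMeasurableSet,
    show (volume : Measure (R2 × R2)) = (volume : Measure R2).prod volume from rfl,
    Measure.prod_apply (h1.measurable hS)]
  rfl

/-- The shell over the ellipsoid with centre `p` and inverse map `L`. -/
def shell (L : Point ≃ₗ[ℝ] Point) (p : Point) (ρ : ℝ) : Set (Point × ℝ) :=
  {x | ρ ^ 2 ≤ ‖L (x.1 - p)‖ ^ 2 + x.2 ^ 2 ∧ ‖L (x.1 - p)‖ ^ 2 + x.2 ^ 2 ≤ 1}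

lemma measurableSet_shell (L : Point ≃ₗ[ℝ] Point) (p : Point) (ρ : ℝ) :
    MeasurableSet (shell L p ρ) := by
  have hc : Continuous fun x : Point × ℝ => ‖L (x.1 - p)‖ ^ 2 + x.2 ^ 2 := by
    have := L.toContinuousLinearEquiv.continuous
    exact ((this.comp (continuous_fst.sub continuous_const)).norm.pow 2).add
      (continuous_snd.pow 2)
  exact ((isClosed_le continuous_const hc).inter (isClosed_le hc continuous_const)).measurableSet

lemma shell_volume_ge (L : Point ≃ₗ[ℝ] Point) (p : Point) {ρ : ℝ} (hρ : ρ ^ 2 ≤ 1) :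
    ENNReal.ofReal |LinearMap.det (L.symm : Point →ₗ[ℝ] Point)| *
      ENNReal.ofReal (Real.pi ^ 2 * ρ ^ 2 * (1 - ρ ^ 2)) ≤ volume (shell L p ρ) := by
  set S₀ := shell (LinearEquiv.refl ℝ Point) 0 ρ
  have hS₀ : MeasurableSet S₀ := measurableSet_shell _ _ _
  have e1 : volume (shell L p ρ) =
      ENNReal.ofReal |LinearMap.det (L.symm : Point →ₗ[ℝ] Point)| * volume S₀ := by
    rw [show (volume : Measure (Point × ℝ)) = (volume : Measure Point).prod volume from rfl,
      Measure.prod_apply_symm (measurableSet_shell L p ρ), Measure.prod_apply_symm hS₀,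
      ← lintegral_const_mul' _ _ ENNReal.ofReal_ne_top]
    refine lintegral_congr fun s => ?_
    have : (fun x => (x, s)) ⁻¹' shell L p ρ =
        (fun x => x + -p) ⁻¹' (L ⁻¹' ((fun x => (x, s)) ⁻¹' S₀)) := by
      ext x
      simp [S₀, shell, sub_eq_add_neg]
    rw [this, measure_preimage_add_right, Measure.addHaar_preimage_linearEquiv]
  rw [e1]
  gcongr
  obtain ⟨u, hu⟩ : ∃ u : Point, ‖u‖ = 1 := ⟨EuclideanSpace.single 0 1, by simp⟩
  obtain ⟨n, e, h⟩ := exists_isFrame hu
  have hD : MeasurableSet {y : R2 | nsq y < ρ ^ 2} :=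
    measurableSet_lt Thin.continuous_nsq.measurable measurable_const
  calc ENNReal.ofReal (Real.pi ^ 2 * ρ ^ 2 * (1 - ρ ^ 2))
      = ∫⁻ y, {y : R2 | nsq y < ρ ^ 2}.indicator
          (fun _ => ENNReal.ofReal (Real.pi * (1 - ρ ^ 2))) y := by
        rw [lintegral_indicator hD, setLIntegral_const, volume_disc_open (sq_nonneg ρ),
          ← ENNReal.ofReal_mul (mul_nonneg Real.pi_pos.le (by linarith))]
        congr 1
        ring
    _ ≤ ∫⁻ y, volume {q : R2 | (frameMap n e u (y, q.1), q.2) ∈ S₀} := by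
        refine lintegral_mono fun y => ?_
        by_cases hy : y ∈ {y : R2 | nsq y < ρ ^ 2}
        · rw [indicator_of_mem hy, ← annulus_eq hρ (le_of_lt (show nsq y < ρ ^ 2 from hy))]
          refine le_of_eq (congrArg _ ?_)
          ext q
          simp only [annulus, S₀, shell, mem_ofPred_eq, LinearEquiv.refl_apply, sub_zero,
            h.norm_sq, Thin.wsq, nsq]
          constructor <;> rintro ⟨a, b⟩ <;> constructor <;> linarith
        · simp [indicator_of_notMem hy]
    _ = volume S₀ := (lift_volume h hS₀).symm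

lemma fibre_le (L : Point ≃ₗ[ℝ] Point) (p : Point) {ρ c : ℝ} (hρ : ρ ^ 2 ≤ 1) (hc : 0 < c)
    (hnorm : ∀ x, ‖L.symm x‖ ≤ c * ‖x‖) {n e u : Point} (h : IsFrame n e u) (y : R2) :
    volume {q : R2 | (frameMap n e u (y, q.1), q.2) ∈ shell L p ρ} ≤
      ENNReal.ofReal (c * (Real.pi * (1 - ρ ^ 2))) := by
  set a := L (frameMap n e u (y, 0) - p)
  set b := L u
  have hu : ‖u‖ = 1 := h.2.2.1
  set k := ‖b‖
  have hck : 1 ≤ c * k := by
    have := hnorm b
    simpa [b, k, hu] using this
  have hk : 0 < k := by nlinarith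
  set z₀ := -⟪a, b⟫ / k ^ 2
  set m := ‖a‖ ^ 2 - ⟪a, b⟫ ^ 2 / k ^ 2
  have hq : ∀ q : R2, ‖L (frameMap n e u (y, q.1) - p)‖ ^ 2 + q.2 ^ 2 =
      m + nsq (k * (q.1 - z₀), q.2) := by
    intro q
    have e1 : L (frameMap n e u (y, q.1) - p) = a + q.1 • b := by
      simp only [a, b, ← map_smul, ← map_add]
      congr 1
      simp only [frameMap]
      module
    rw [e1, norm_add_sq_real, norm_smul, mul_pow, Real.norm_eq_abs, sq_abs,
      real_inner_smul_right]
    rw [show ‖b‖ = k from rfl]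
    simp only [nsq, m, z₀]
    have := hk.ne'
    field_simp
    ring
  set T : R2 →ₗ[ℝ] R2 := LinearMap.prod (k • LinearMap.fst ℝ ℝ ℝ) (LinearMap.snd ℝ ℝ ℝ)
  have hT : LinearMap.det T = k := by
    rw [← LinearMap.det_toMatrix (Basis.finTwoProd ℝ), Matrix.det_fin_two]
    simp [T, LinearMap.toMatrix_apply]
  have hset : {q : R2 | (frameMap n e u (y, q.1), q.2) ∈ shell L p ρ} =
      (fun q : R2 => q + (-z₀, 0)) ⁻¹' (T ⁻¹' annulus ρ m) := by
    ext q
    simp only [shell, mem_ofPred_eq, mem_preimage, annulus, hq]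
    simp [T, sub_eq_add_neg]
  rw [hset, measure_preimage_add_right, Measure.addHaar_preimage_linearMap _ (hT.trans_ne hk.ne'),
    hT, abs_inv, abs_of_pos hk, ENNReal.ofReal_mul hc.le]
  refine mul_le_mul (ENNReal.ofReal_le_ofReal ?_) (annulus_le hρ) zero_le zero_le
  rw [inv_le_iff_one_le_mul₀ hk]
  exact hck

/-- Cylinders covering the ellipsoid `p + L⁻¹(ball)` have total base area at least
`π |det L⁻¹| ρ² / ‖L⁻¹‖` for every `ρ < 1`. -/
lemma ellipsoid_bases {m : ℕ} {v : Fin m → Point} {B : Fin m → Set Point}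
    (hv : ∀ i, ‖v i‖ = 1) (hB : ∀ i, MeasurableSet (B i)) (L : Point ≃ₗ[ℝ] Point) (p : Point)
    {ρ c : ℝ} (hρ : ρ ^ 2 ≤ 1) (hc : 0 < c) (hnorm : ∀ x, ‖L.symm x‖ ≤ c * ‖x‖)
    (hcov : ∀ x, ‖L (x - p)‖ ≤ 1 → ∃ i, x ∈ cyl (v i) (B i)) :
    ENNReal.ofReal |LinearMap.det (L.symm : Point →ₗ[ℝ] Point)| *
        ENNReal.ofReal (Real.pi ^ 2 * ρ ^ 2 * (1 - ρ ^ 2)) ≤
      ENNReal.ofReal (c * (Real.pi * (1 - ρ ^ 2))) * ∑ i, area (v i) (B i) := by
  refine (shell_volume_ge L p hρ).trans ?_
  set C : Fin m → Set (Point × ℝ) := fun i => {x | x.1 ∈ cyl (v i) (B i)}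
  have hsub : shell L p ρ ⊆ ⋃ i, shell L p ρ ∩ C i := by
    intro x hx
    obtain ⟨i, hi⟩ := hcov x.1 (by
      have h1 : ‖L (x.1 - p)‖ ^ 2 ≤ 1 ^ 2 := by nlinarith [hx.2, sq_nonneg x.2]
      exact (pow_le_pow_iff_left₀ (norm_nonneg _) zero_le_one two_ne_zero).1 h1)
    exact mem_iUnion.2 ⟨i, hx, hi⟩
  refine (measure_mono hsub).trans ((measure_iUnion_fintype_le _ _).trans ?_)
  rw [Finset.mul_sum]
  refine Finset.sum_le_sum fun i _ => ?_
  obtain ⟨n, e, h⟩ := exists_isFrame (hv i)
  obtain ⟨hn, he, hu, hne, hnu, heu⟩ := id h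
  obtain ⟨Ψ, hΨ, -, hproj⟩ := exists_frame hn he hne hnu heu hu
  have hBm : MeasurableSet (Subtype.val ⁻¹' B i : Set ↥(ℝ ∙ v i)ᗮ) :=
    (hB i).preimage measurable_subtype_coe
  have hpm : Measurable (proj (v i)) := ((plane (v i)).starProjection).continuous.measurable
  have hC : MeasurableSet (C i) := (hpm.comp measurable_fst) (hB i)
  rw [area_eq (hv i), ← hΨ.measure_preimage hBm.nullMeasurableSet,
    lift_volume h ((measurableSet_shell L p ρ).inter hC)]
  refine (lintegral_mono (g := (Ψ ⁻¹' (Subtype.val ⁻¹' B i)).indicator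
    fun _ => ENNReal.ofReal (c * (Real.pi * (1 - ρ ^ 2)))) fun y => ?_).trans_eq
    (by rw [lintegral_indicator (hΨ.measurable hBm), setLIntegral_const])
  by_cases hy : y ∈ Ψ ⁻¹' (Subtype.val ⁻¹' B i)
  · rw [indicator_of_mem hy]
    exact (measure_mono fun q hq => hq.1).trans (fibre_le L p hρ hc hnorm h y)
  · rw [indicator_of_notMem hy, nonpos_iff_eq_zero]
    convert measure_empty (μ := (volume : Measure R2)) using 2
    refine eq_empty_of_forall_notMem fun q hq => hy ?_
    obtain ⟨h1, h2, -⟩ := h.proj_frameMap (y, q.1)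
    have hm : proj (v i) (frameMap n e (v i) (y, q.1)) ∈ B i := hq.2
    have : proj (v i) (frameMap n e (v i) (y, q.1)) =
        ((ℝ ∙ v i)ᗮ.orthogonalProjectionOnto (frameMap n e (v i) (y, q.1)) : Point) := rfl
    rw [this, hproj, h1, h2] at hm
    exact hm

end Vale.Agent.P243.Sym
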