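import Vale.Agent.P243.SymExtremal
import Vale.Agent.P243.SymShell
import Mathlib.Analysis.InnerProductSpace.Dual

/-!
Centrally symmetric bodies: cylinder coverings have total base area more than half the smallest
shadow.
-/

namespace Vale.Agent.P243.Sym

open MeasureTheory Set Module
open scoped RealInnerProductSpace ENNReal
open Thin (R2)

/-- Coordinates to space. -/
noncomputable def toP (w : V) : Point := WithLp.toLp 2 w

lemma inner_toP (v w : V) : ⟪toP v, toP w⟫ = dot v w := by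
  simp [toP, dot, PiLp.inner_apply, Fin.sum_univ_three]
  ring

lemma sq_le_dot (x : V) (i : Fin 3) : x i ^ 2 ≤ dot x x := by
  unfold dot
  fin_cases i <;> simp <;> nlinarith [sq_nonneg (x 0), sq_nonneg (x 1), sq_nonneg (x 2)]

lemma norm_toP_sq (v : V) : ‖toP v‖ ^ 2 = dot v v := by
  rw [← real_inner_self_eq_norm_sq, inner_toP]

/-- The linear map of a matrix. -/
noncomputable def matMap (R : Mat) : Point →ₗ[ℝ] Point :=
  Matrix.toEuclideanLin (Matrix.of R)

lemma matMap_toP (R : Mat) (x : V) : matMap R (toP x) = toP (mv R x) := by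
  apply WithLp.ofLp_injective
  funext k
  simp [matMap, toP, mv, dot, Matrix.toEuclideanLin, Matrix.mulVec, dotProduct,
    Fin.sum_univ_three]

lemma det_matMap (R : Mat) : LinearMap.det (matMap R) = det3 R := by
  unfold matMap
  rw [Matrix.toEuclideanLin_eq_toLin, LinearMap.det_toLin, Matrix.det_fin_three]
  simp [det3, dot, crs]
  ring

lemma slab_shadow {K : Set Point} (hK : IsCompact K) (p : Point) {n₁ n₂ : V}
    (h₁ : ∀ x ∈ K, |⟪toP n₁, x - p⟫| ≤ 1) (h₂ : ∀ x ∈ K, |⟪toP n₂, x - p⟫| ≤ 1)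
    (hpos : 0 < dot (crs n₁ n₂) (crs n₁ n₂)) :
    Amin K ≤ ENNReal.ofReal (4 / √(dot (crs n₁ n₂) (crs n₁ n₂))) := by
  set N := toP n₁
  set M := toP n₂
  set w := toP (crs n₁ n₂)
  have hw : 0 < ‖w‖ := by
    rcases (norm_nonneg w).eq_or_lt with h | h
    · exfalso
      have := norm_toP_sq (crs n₁ n₂)
      rw [show ‖toP (crs n₁ n₂)‖ = ‖w‖ from rfl, ← h] at this
      linarith
    · exact h
  set u : Point := ‖w‖⁻¹ • w
  have hu : ‖u‖ = 1 := by simp [u, norm_smul, hw.ne']
  have hNu : ⟪N, u⟫ = 0 := by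
    rw [real_inner_smul_right, inner_toP, crs_dot_left, mul_zero]
  have hMu : ⟪M, u⟫ = 0 := by
    rw [real_inner_smul_right, inner_toP, crs_dot_right, mul_zero]
  have hN : 0 < ‖N‖ := by
    rw [norm_pos_iff]
    intro h0
    have : n₁ = 0 := by
      have := congrArg WithLp.ofLp h0
      simpa [N, toP] using this
    rw [this] at hpos
    simp [crs, dot] at hpos
  set nu : Point := ‖N‖⁻¹ • N
  have hnu1 : ‖nu‖ = 1 := by simp [nu, norm_smul, hN.ne']
  obtain ⟨e, he, hen, heu⟩ := exists_third nu u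
  have hne : ⟪nu, e⟫ = 0 := (real_inner_comm e nu).trans hen
  have hnu : ⟪nu, u⟫ = 0 := by rw [real_inner_smul_left, hNu, mul_zero]
  have hframe : IsFrame nu e u := ⟨hnu1, he, hu, hne, hnu, heu⟩
  obtain ⟨Ψ, hΨ, hinj, hproj⟩ := exists_frame hnu1 he hne hnu heu hu
  refine (iInf_le _ ⟨u, hu⟩).trans ?_
  rw [area_proj_image hu]
  have hmeas : MeasurableSet ((ℝ ∙ u)ᗮ.orthogonalProjectionOnto '' K) :=
    (hK.image (by fun_prop)).measurableSet
  rw [← hΨ.measure_preimage hmeas.nullMeasurableSet]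
  set k := ‖N‖
  set α := ⟪M, nu⟫
  set β := ⟪M, e⟫
  have hNn : ∀ z, ⟪N, z⟫ = k * ⟪z, nu⟫ := fun z => by
    rw [real_inner_smul_right, ← mul_assoc, mul_inv_cancel₀ hN.ne', one_mul, real_inner_comm]
  have hMn : ∀ z, ⟪M, z⟫ = α * ⟪z, nu⟫ + β * ⟪z, e⟫ := fun z => by
    conv_lhs => rw [← hframe.inverse z]
    simp only [frameMap, inner_add_right, real_inner_smul_right, hMu]
    ring
  have hkb : (k * β) ^ 2 = dot (crs n₁ n₂) (crs n₁ n₂) := by
    have h1 := norm_toP_sq n₁
    have h2 := hMn M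
    rw [real_inner_self_eq_norm_sq, norm_toP_sq] at h2
    have h3 : dot n₁ n₂ = k * α := by
      rw [← inner_toP]
      exact hNn M
    rw [dot_crs_sq, ← h1, h2, h3]
    show (k * β) ^ 2 = k ^ 2 * (α * α + β * β) - (k * α) ^ 2
    ring
  have hkb0 : k * β ≠ 0 := fun h0 => by rw [h0] at hkb; linarith
  set T : R2 →ₗ[ℝ] R2 := LinearMap.prod (k • LinearMap.fst ℝ ℝ ℝ)
    (α • LinearMap.fst ℝ ℝ ℝ + β • LinearMap.snd ℝ ℝ ℝ)
  have hT : LinearMap.det T = k * β := by
    rw [← LinearMap.det_toMatrix (Basis.finTwoProd ℝ), Matrix.det_fin_two]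
    simp [T, LinearMap.toMatrix_apply]
  have hsub : Ψ ⁻¹' ((ℝ ∙ u)ᗮ.orthogonalProjectionOnto '' K) ⊆
      (fun q : R2 => q + (-⟪p, nu⟫, -⟪p, e⟫)) ⁻¹' (T ⁻¹' (Icc (-1) 1 ×ˢ Icc (-1) 1)) := by
    rintro q ⟨x, hx, hxq⟩
    rw [hproj] at hxq
    have hq := hinj hxq
    have a1 := h₁ x hx
    have a2 := h₂ x hx
    rw [hNn, inner_sub_left] at a1
    rw [hMn, inner_sub_left, inner_sub_left] at a2
    rw [abs_le] at a1 a2
    simp only [← hq]
    simp [T, mem_Icc]
    constructor <;> constructor <;> linarith [a1.1, a1.2, a2.1, a2.2]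
  refine (measure_mono hsub).trans ?_
  rw [measure_preimage_add_right, Measure.addHaar_preimage_linearMap _ (hT.trans_ne hkb0), hT,
    show (volume : Measure R2) = (volume : Measure ℝ).prod volume from rfl, Measure.prod_prod,
    Real.volume_Icc, ← ENNReal.ofReal_mul (by norm_num),
    ← ENNReal.ofReal_mul (abs_nonneg _), ← hkb, Real.sqrt_sq_eq_abs, abs_inv]
  refine ENNReal.ofReal_le_ofReal (le_of_eq ?_)
  norm_num
  ring

theorem symmetric_bound {K : Set Point} {m : ℕ} {v : Fin m → Point} {B : Fin m → Set Point}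
    (h : IsCovering K m v B) (p : Point) (hsymm : ∀ x ∈ K, (2 : ℝ) • p - x ∈ K) :
    ENNReal.ofReal (Real.pi / (4 * √2)) * Amin K ≤ ∑ i, area (v i) (B i) := by
  obtain ⟨hK, hc, hi, hv, hB, hcov⟩ := h
  obtain ⟨x₀, hx₀⟩ := hi
  obtain ⟨r₁, hr₁, hball₁⟩ := Metric.isOpen_iff.1 isOpen_interior x₀ hx₀
  set r := r₁ / 2 with hrdef
  have hr : 0 < r := by rw [hrdef]; positivity
  have hball : ∀ z : Point, ‖z‖ ≤ r → p + z ∈ K := by
    intro z hz
    have hzK : ∀ z : Point, ‖z‖ ≤ r → x₀ + z ∈ K := fun z hz => interior_subset (hball₁ (by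
      rw [Metric.mem_ball, dist_eq_norm, add_sub_cancel_left]; linarith))
    have := hc (hzK z hz) (hsymm _ (hzK (-z) (by rwa [norm_neg])))
      (show (0:ℝ) ≤ 1 / 2 by norm_num) (show (0:ℝ) ≤ 1 / 2 by norm_num) (by norm_num)
    convert this using 1
    module
  have hp : p ∈ K := by simpa using hball 0 (by simpa using hr.le)
  obtain ⟨D, hD⟩ := (hK.image (f := fun x => x - p) (by fun_prop)).isBounded.exists_norm_le
  set Φ : Set V := {n | ∀ x ∈ K, |⟪toP n, x - p⟫| ≤ 1}
  have hΦball : ∀ n ∈ Φ, r ^ 2 * dot n n ≤ 1 := by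
    intro n hn
    rcases (norm_nonneg (toP n)).eq_or_lt with h0 | h0
    · rw [← norm_toP_sq, ← h0]; norm_num
    · have hz := hn _ (hball ((r / ‖toP n‖) • toP n) (by
        rw [norm_smul, Real.norm_of_nonneg (by positivity), div_mul_cancel₀ _ h0.ne']))
      rw [add_sub_cancel_left, real_inner_smul_right, real_inner_self_eq_norm_sq] at hz
      have e : r / ‖toP n‖ * ‖toP n‖ ^ 2 = r * ‖toP n‖ := by field_simp
      rw [e, abs_of_pos (by positivity)] at hz
      rw [← norm_toP_sq, ← mul_pow]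
      exact pow_le_one₀ (by positivity) hz
  have hΦ : IsCompact Φ := by
    refine (isCompact_univ_pi fun _ : Fin 3 => isCompact_Icc (a := -(1 / r)) (b := 1 / r))
      |>.of_isClosed_subset ?_ ?_
    · simp only [Φ, ofPred_forall]
      refine isClosed_iInter fun x => isClosed_iInter fun _ => isClosed_le ?_ continuous_const
      unfold toP
      fun_prop
    · intro n hn i _
      have h2 := hΦball n hn
      have h3 : (n i * r) ^ 2 ≤ 1 ^ 2 := by
        rw [mul_pow, one_pow]
        nlinarith [mul_le_mul_of_nonneg_left (sq_le_dot n i) (sq_nonneg r)]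
      rw [sq_le_sq, abs_one, abs_mul, abs_of_pos hr, ← le_div_iff₀ hr] at h3
      exact abs_le.1 h3
  set D' := max D 0 + 1
  have hD' : 0 < D' := by positivity
  have hadm : Bornology.IsBounded (admissible Φ) := by
    refine (isCompact_univ_pi fun _ : Fin 3 => isCompact_univ_pi fun _ : Fin 3 =>
      isCompact_Icc (a := -D') (b := D')).isBounded.subset fun R hR k _ a _ => ?_
    set n : V := fun i => if i = k then 1 / D' else 0
    have hn : n ∈ Φ := by
      intro x hx
      refine (abs_real_inner_le_norm _ _).trans ?_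
      have h1 : ‖toP n‖ ^ 2 = (1 / D') ^ 2 := by
        rw [norm_toP_sq]
        fin_cases k <;> simp [dot, n] <;> ring
      rw [(pow_left_inj₀ (norm_nonneg _) (by positivity) two_ne_zero).1 h1, one_div,
        inv_mul_le_iff₀ hD', mul_one]
      have := hD _ ⟨x, hx, rfl⟩
      have := le_max_left D 0
      linarith
    have h1 := hR n hn
    have h2 : tm R n = (1 / D') • R k := by
      funext b
      fin_cases k <;> simp [tm, n]
    rw [h2] at h1
    have h3 : (R k a / D') ^ 2 ≤ 1 ^ 2 := by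
      rw [one_pow]
      refine le_trans (le_of_eq ?_) ((sq_le_dot _ a).trans h1)
      simp [div_eq_inv_mul]
    rw [sq_le_sq, abs_one, abs_div, abs_of_pos hD', div_le_one hD'] at h3
    exact abs_le.1 h3
  obtain ⟨R, hRadm, hdet, n₁, hn₁, n₂, hn₂, hwide⟩ := exists_wide_pair Φ hΦ hr hΦball hadm
  set nn := opSq R
  have hnn : 0 < nn := by
    by_contra h
    have h0 : opSq R ^ 3 ≤ 0 := by nlinarith [sq_nonneg (opSq R), not_lt.1 h]
    nlinarith [opSq_cube R, show 0 < det3 R ^ 2 by positivity]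
  set X := dot (crs n₁ n₂) (crs n₁ n₂)
  have hX : 0 < X := by nlinarith [sq_nonneg (det3 R), dot_self_nonneg (crs n₁ n₂)]
  have hAmin := slab_shadow hK p hn₁ hn₂ hX
  -- the ellipsoid lies in the body
  set Tl := matMap R
  have hTdet : LinearMap.det Tl ≠ 0 := by rw [det_matMap]; exact hdet
  set T : Point ≃ₗ[ℝ] Point := LinearMap.equivOfDetNeZero _ hTdet
  have hTx : ∀ x : V, T (toP x) = toP (mv R x) := matMap_toP R
  have hin : ∀ x : Point, ‖x‖ ≤ 1 → p + T x ∈ K := by
    intro x hx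
    by_contra hnot
    obtain ⟨f, u, hfu, huf⟩ := geometric_hahn_banach_closed_point hc hK.isClosed hnot
    set g := (InnerProductSpace.toDual ℝ Point).symm f
    have hg : ∀ z, ⟪g, z⟫ = f z := fun z => InnerProductSpace.toDual_symm_apply
    set s := u - f p
    have hs : 0 < s := sub_pos.2 (hfu p hp)
    set n : V := WithLp.ofLp (s⁻¹ • g)
    have hnP : toP n = s⁻¹ • g := rfl
    have hn : n ∈ Φ := by
      intro z hz
      rw [hnP, real_inner_smul_left, abs_mul, abs_of_pos (inv_pos.2 hs), hg,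
        inv_mul_le_iff₀ hs, mul_one, abs_le, map_sub]
      have h1 := hfu z hz
      have h2 := hfu _ (hsymm z hz)
      rw [map_sub, map_smul, smul_eq_mul] at h2
      constructor <;> linarith
    have h1 : 1 < ⟪toP n, T x⟫ := by
      rw [hnP, real_inner_smul_left, hg, lt_inv_mul_iff₀ hs, mul_one]
      have := huf
      rw [map_add] at this
      linarith
    have h2 : ⟪toP n, T x⟫ = ⟪toP (tm R n), x⟫ := by
      have e : x = toP (WithLp.ofLp x) := rfl
      rw [e, hTx, inner_toP, inner_toP, dot_tm]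
    have h3 : ‖toP (tm R n)‖ ≤ 1 := by
      refine (pow_le_one_iff_of_nonneg (norm_nonneg _) two_ne_zero).1 ?_
      rw [norm_toP_sq]
      exact hRadm n hn
    have h4 := (real_inner_le_norm (toP (tm R n)) x).trans
      (mul_le_one₀ h3 (norm_nonneg _) hx)
    linarith
  have hnorm : ∀ x, ‖T.symm.symm x‖ ≤ √nn * ‖x‖ := by
    intro x
    have e : x = toP (WithLp.ofLp x) := rfl
    rw [T.symm_symm, e, hTx]
    refine (pow_le_pow_iff_left₀ (norm_nonneg _) (by positivity) two_ne_zero).1 ?_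
    rw [mul_pow, Real.sq_sqrt hnn.le, norm_toP_sq, norm_toP_sq]
    exact mv_bound R _
  rcases eq_or_ne (∑ i, area (v i) (B i)) ⊤ with htop | htop
  · simp [htop]
  set S := (∑ i, area (v i) (B i)).toReal
  set a := Real.pi * |det3 R| / √nn with hadef
  have ha : 0 < a := by rw [hadef]; positivity
  have hshell : ∀ ρ : ℝ, 0 < ρ → ρ < 1 → a * ρ ^ 2 ≤ S := by
    intro ρ h0 h1
    have hρ : ρ ^ 2 < 1 := pow_lt_one₀ h0.le h1 two_ne_zero
    have hb := ellipsoid_bases hv hB T.symm p hρ.le (Real.sqrt_pos.2 hnn) hnorm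
      (fun x hx => mem_iUnion.1 (hcov (by
        have := hin _ hx
        simpa using this)))
    have hdetT : LinearMap.det (T.symm.symm : Point →ₗ[ℝ] Point) = det3 R := det_matMap R
    rw [hdetT] at hb
    have := ENNReal.toReal_mono (ENNReal.mul_ne_top ENNReal.ofReal_ne_top htop) hb
    rw [ENNReal.toReal_mul, ENNReal.toReal_mul, ENNReal.toReal_ofReal (abs_nonneg _),
      ENNReal.toReal_ofReal (mul_nonneg (by positivity) (by linarith)),
      ENNReal.toReal_ofReal (mul_nonneg (by positivity) (mul_nonneg Real.pi_pos.le (by linarith)))]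
      at this
    refine le_of_mul_le_mul_left ?_
      (mul_pos (Real.sqrt_pos.2 hnn) (mul_pos Real.pi_pos (sub_pos.2 hρ)))
    refine le_trans (le_of_eq ?_) this
    rw [hadef]
    have := (Real.sqrt_pos.2 hnn).ne'
    field_simp
  have haS : a ≤ S := by
    by_contra h
    have hS : 0 ≤ S := ENNReal.toReal_nonneg
    have h1 : S / a < 1 := (div_lt_one ha).2 (not_le.1 h)
    set t := √((S / a + 1) / 2)
    have ht : t ^ 2 = (S / a + 1) / 2 := Real.sq_sqrt (by positivity)
    have := hshell t (Real.sqrt_pos.2 (by positivity)) (by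
      rw [Real.sqrt_lt' one_pos]; linarith)
    rw [ht] at this
    have : a * ((S / a + 1) / 2) = (S + a) / 2 := by field_simp
    nlinarith [not_le.1 h]
  calc ENNReal.ofReal (Real.pi / (4 * √2)) * Amin K
      ≤ ENNReal.ofReal (Real.pi / (4 * √2)) * ENNReal.ofReal (4 / √X) := by gcongr
    _ = ENNReal.ofReal (Real.pi / (4 * √2) * (4 / √X)) :=
        (ENNReal.ofReal_mul (by positivity)).symm
    _ ≤ ENNReal.ofReal S := by
        refine ENNReal.ofReal_le_ofReal (le_trans ?_ haS)
        have hkey : √nn ≤ √2 * (|det3 R| * √X) := by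
          rw [← Real.sqrt_sq_eq_abs, ← Real.sqrt_mul (sq_nonneg _), ← Real.sqrt_mul zero_le_two]
          exact Real.sqrt_le_sqrt (by linarith)
        rw [show Real.pi / (4 * √2) * (4 / √X) = Real.pi / (√2 * √X) by field_simp, hadef,
          div_le_div_iff₀ (by positivity) (Real.sqrt_pos.2 hnn)]
        have := mul_le_mul_of_nonneg_left hkey Real.pi_pos.le
        linarith
    _ = ∑ i, area (v i) (B i) := ENNReal.ofReal_toReal htop

end Vale.Agent.P243.Sym
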